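import Vale.Agent.P078.Orth.Basic
import Vale.Agent.P078.MKS.Assembly.MainSq

/-!
So-paving of every self-adjoint operator from paving of the part in the algebra of the normaliser
and of the part orthogonal to it.
-/

namespace Vale.Agent.P078.Orth

open MKS Singular

variable {H : Type} [NormedAddCommGroup H] [InnerProductSpace ℂ H] [CompleteSpace H]
variable {M A : VonNeumannAlgebra H}

/-- `z` is paved in the corner at `e` by at most `r` pieces up to `(3 ε / 4) e` and errors of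
2-norm at most `η`. -/
def Stage (M A : VonNeumannAlgebra H) (e : H →L[ℂ] H) (τ : (H →L[ℂ] H) →ₗ[ℂ] ℂ)
    (z : H →L[ℂ] H) (ε η : ℝ) (r : ℕ) : Prop :=
  ∃ (N : ℕ) (R : Fin N → (H →L[ℂ] H)) (a : H →L[ℂ] H),
    N ≤ r ∧ IsPartition A e R ∧ a ∈ A ∧ IsSelfAdjoint a ∧ Cor M e a ∧ ‖a‖ ≤ 1 ∧
    ∃ D₁ D₂ : H →L[ℂ] H, Cor M e D₁ ∧ Cor M e D₂ ∧
      MKS.pinch R z - a ≤ (3 * ε / 4) • e + D₁ ∧ -(MKS.pinch R z - a) ≤ (3 * ε / 4) • e + D₂ ∧
      n2 τ D₁ ≤ η ∧ n2 τ D₂ ≤ η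

/-- From stages in the corners to so-paving. -/
theorem soPavable_of_stage (hT : TraceStatement) (hA : IsMASA M A) {p : H →L[ℂ] H} (hpA : p ∈ A)
    (hpp : IsStarProjection p)
    (htr : ∀ (F : Finset H) (δ : ℝ), 0 < δ → ∃ (e : H →L[ℂ] H) (τ : (H →L[ℂ] H) →ₗ[ℂ] ℂ),
      e ∈ A ∧ IsStarProjection e ∧ e * p = e ∧ IsTrace M e τ ∧ ∀ ξ ∈ F, ‖(p - e) ξ‖ < δ)
    {x : H →L[ℂ] H} (hxM : x ∈ M) (hx : IsSelfAdjoint x) {ε : ℝ} {r : ℕ} (hε : 0 < ε)
    (hr0 : 0 < r)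
    (hstage : ∀ (e : H →L[ℂ] H) (τ : (H →L[ℂ] H) →ₗ[ℂ] ℂ), e ∈ A → IsStarProjection e →
      IsTrace M e τ → ∀ z : H →L[ℂ] H, Cor M e z → IsSelfAdjoint z → ‖z‖ ≤ 1 →
        ∀ η : ℝ, 0 < η → Stage M A e τ z ε η r) :
    SoPavable M A p x ε r := by
  classical
  intro F δ hδ
  obtain ⟨e, τ, heA, he, hep, hτ, heF⟩ := htr F (δ / 3) (by positivity)
  have heM : e ∈ M := hA.1 e heA
  obtain ⟨η₁, hη₁, hη₁F⟩ := (hT H M e τ heM he hτ).1 F (δ / 3) (by positivity)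
  set η := ε / 4 * Real.sqrt η₁ / 2 with hηdef
  have hs0 : 0 < Real.sqrt η₁ := Real.sqrt_pos.2 hη₁
  have hη : 0 < η := by positivity
  set x₁ := ‖x‖⁻¹ • x with hx₁def
  have hx₁M : x₁ ∈ M := vn_smul M _ hxM
  have hx₁s : IsSelfAdjoint x₁ := (IsSelfAdjoint.all _).smul hx
  have hx₁n : ‖x₁‖ ≤ 1 := by
    rw [hx₁def, norm_smul, norm_inv, norm_norm]
    exact inv_mul_le_one
  have hxc : Cor M e (e * x₁ * e) := ⟨mul_mem (mul_mem heM hx₁M) heM, by
    simp only [← mul_assoc, he.isIdempotentElem.eq]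
    simp only [mul_assoc, he.isIdempotentElem.eq]⟩
  have hxs : IsSelfAdjoint (e * x₁ * e) := by
    have := hx₁s.conjugate e
    rwa [he.isSelfAdjoint.star_eq] at this
  have hxn : ‖e * x₁ * e‖ ≤ 1 := (norm_mul_le _ _).trans
    ((mul_le_of_le_one_right (norm_nonneg _) he.norm_le).trans ((norm_mul_le _ _).trans
      ((mul_le_of_le_one_left (norm_nonneg _) he.norm_le).trans hx₁n)))
  obtain ⟨N, R, a, hNr, hR, haA, has, hac, han, D₁, D₂, hD₁, hD₂, hW₁, hW₂, hn₁, hn₂⟩ :=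
    hstage e τ heA he hτ _ hxc hxs hxn η hη
  obtain ⟨hpad, hpadp⟩ := pad_partition hNr hR
  obtain ⟨hP', hP'q⟩ := extend_partition hpA hpp heA he hep hr0 hpad
  set W := MKS.pinch R (e * x₁ * e) - a with hWdef
  have hWc : Cor M e W := (cor_pinch hτ he hA.1 hR hxc.1).sub hac
  have hWs : IsSelfAdjoint W := (pinch_selfAdjoint' hR hxs).sub has
  obtain ⟨p₁, p₂, hp₁, hp₁p, hp₂, hp₂p, hl₁, hl₂, hq, hqW⟩ := cut_two he hWc hWs hε
  have hsmall : ∀ {D p : H →L[ℂ] H}, n2 τ D ≤ η →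
      (τ p).re ≤ (n2 τ D / (ε - 3 * ε / 4)) ^ 2 → (τ p).re < η₁ := by
    intro D p hn h
    refine lt_of_le_of_lt h ?_
    have h1 : n2 τ D / (ε - 3 * ε / 4) ≤ Real.sqrt η₁ / 2 := by
      rw [div_le_iff₀ (by linarith)]
      refine hn.trans (le_of_eq ?_)
      rw [hηdef]; ring
    calc (n2 τ D / (ε - 3 * ε / 4)) ^ 2 ≤ (Real.sqrt η₁ / 2) ^ 2 :=
          pow_le_pow_left₀ (div_nonneg (n2_nonneg _) (by linarith)) h1 2
      _ = η₁ / 4 := by rw [div_pow, Real.sq_sqrt hη₁.le]; norm_num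
      _ < η₁ := by linarith
  have hv₁ := hη₁F p₁ hp₁.1 hp₁p hp₁.2 (hsmall hn₁
    (tr_proj_le hτ he (by linarith) hp₁ hp₁p hWc hD₁ hW₁ hl₁))
  have hv₂ := hη₁F p₂ hp₂.1 hp₂p hp₂.2 (hsmall hn₂
    (tr_proj_le hτ he (by linarith) hp₂ hp₂p hWc.neg hD₂ hW₂ hl₂))
  set q := e - (p₁ + p₂) with hqdef
  have hqe : q * e = q := by
    rw [hqdef, sub_mul, add_mul, he.isIdempotentElem.eq, hp₁.mul_right he, hp₂.mul_right he]
  have heq : e * q = q := by
    rw [hqdef, mul_sub, mul_add, he.isIdempotentElem.eq, hp₁.mul_left he, hp₂.mul_left he]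
  refine ⟨_, ‖x‖ • a, q, hP'.1, hP'.2.1, hP'.2.2, vn_smul A _ haA,
    (IsSelfAdjoint.all _).smul has,
    by rw [smul_mul_assoc, ← hac.mul_right he, mul_assoc, hep], ?_,
    sub_mem heM (add_mem hp₁.1 hp₂.1), hq, by rw [← hqe, mul_assoc, hep], fun ξ hξ => ?_, ?_⟩
  · rw [norm_smul, norm_norm]
    exact mul_le_of_le_one_right (norm_nonneg _) han
  · have : (p - q) ξ = (p - e) ξ + (p₁ ξ + p₂ ξ) := by
      simp only [hqdef, sub_apply, add_apply]; abel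
    rw [this]
    refine lt_of_le_of_lt ((norm_add_le _ _).trans (add_le_add le_rfl (norm_add_le _ _))) ?_
    have := heF ξ hξ
    have := hv₁ ξ hξ
    have := hv₂ ξ hξ
    linarith
  · clear_value q
    have hxx : x = ‖x‖ • x₁ := by
      rcases eq_or_ne x 0 with rfl | h
      · simp
      · rw [hx₁def, smul_smul, mul_inv_cancel₀ (norm_ne_zero_iff.2 h), one_smul]
    set P' := Function.update (pad (r := r) R) ⟨0, hr0⟩ (pad (r := r) R ⟨0, hr0⟩ + (p - e))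
    show ‖q * (MKS.pinch P' x - ‖x‖ • a) * q‖ ≤ ε * ‖x‖
    rw [show MKS.pinch P' x = ‖x‖ • MKS.pinch P' x₁ by rw [← MKS.pinch_smul, ← hxx]]
    conv_lhs => rw [← smul_sub, mul_smul_comm, smul_mul_assoc, norm_smul,
      norm_norm, mul_sub, sub_mul, hP'q q x₁ hqe heq, hpadp, ← sub_mul, ← mul_sub]
    rw [mul_comm ε]
    exact mul_le_mul_of_nonneg_left hqW (norm_nonneg _)

/-- The stage for an arbitrary operator, in the two parts. -/
theorem mixed_stage (hK : KaplanskyStatement) (hT : TraceStatement) (hD : DiagonalStatement)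
    (hO : TwoSidedStatement) (hS : SplitStatement) (hN : NoiseStatement) (hA : IsMASA M A)
    {e : H →L[ℂ] H} {τ : (H →L[ℂ] H) →ₗ[ℂ] ℂ} (heA : e ∈ A) (he : IsStarProjection e)
    (hτ : IsTrace M e τ) {z : H →L[ℂ] H} (hz : Cor M e z) (hzs : IsSelfAdjoint z)
    (hzn : ‖z‖ ≤ 1) {ε η : ℝ} {r : ℕ} (hε : 0 < ε) (hε1 : ε < 1) (hη : 0 < η)
    (hr : (500000 : ℝ) ≤ ε ^ 4 * r) :
    Stage M A e τ z ε η r := by
  classical
  obtain ⟨y, hyc, hys, hyn, hyb, hm⟩ := hS H M A e τ hA heA he hτ z hz hzs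
  obtain ⟨N, R, a, hN1, hR, haA, has, hac, han, D₁, D₂, hD₁, hD₂, hW₁, hW₂, hn₁, hn₂⟩ :=
    stage_sq hK hT hD hO hA heA he hτ hyc.1 hys (hyn.trans hzn) hyb (half_pos hε)
      (by linarith : ε / 2 < 1) (half_pos hη)
  rw [hyc.2] at hW₁ hW₂
  set m := MKS.pinch R (z - y) with hmdef
  have hmp : Perp M A e τ m := hm.pinch hA heA he hτ hR
  have hzys : IsSelfAdjoint (z - y) := hzs.sub hys
  have hms : IsSelfAdjoint m := pinch_selfAdjoint' hR hzys
  have hzyn : ‖z - y‖ ≤ 2 := (norm_sub_le _ _).trans (by linarith [hyn.trans hzn])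
  have hmn : ‖m‖ ≤ 2 := by
    obtain ⟨b1, b2⟩ := bounds_of_norm_le hzys hzyn
    obtain ⟨c1, c2⟩ := conj_bounds he b1 b2
    rw [(hz.sub hyc).2] at c1 c2
    obtain ⟨d1, d2⟩ := pinch_bounds hR c1 c2
    refine norm_le_of_bounds hms zero_le_two (le_trans ?_ d1) (d2.trans ?_)
    · rw [neg_smul, neg_smul, neg_le_neg_iff]
      exact smul_le_smul_of_nonneg_left (proj_le_one he) zero_le_two
    · exact smul_le_smul_of_nonneg_left (proj_le_one he) zero_le_two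
  set r₂ := ⌈256 / ε ^ 2⌉₊ with hr₂def
  have hr₂ : (256 / ε ^ 2 : ℝ) ≤ r₂ := Nat.le_ceil _
  have hr₂0 : 0 < r₂ := Nat.ceil_pos.2 (by positivity)
  have hu : (0 : ℝ) < 3 * ε / 8 := by positivity
  have hu2 : 2 * ‖m‖ / Real.sqrt r₂ < 3 * ε / 8 := by
    have h1 : 16 / ε ≤ Real.sqrt r₂ := by
      refine Real.le_sqrt_of_sq_le ?_
      rw [div_pow]; norm_num; exact hr₂
    have h2 : (0 : ℝ) < 16 / ε := by positivity
    calc 2 * ‖m‖ / Real.sqrt r₂ ≤ 4 / (16 / ε) :=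
          div_le_div₀ (by norm_num) (by linarith) h2 h1
      _ < 3 * ε / 8 := by rw [div_div_eq_mul_div, div_lt_iff₀ (by norm_num)]; linarith
  obtain ⟨P, hP, hP₁, hP₂⟩ :=
    hN H M A e τ hA heA he hτ m hmp hms r₂ (3 * ε / 8) ((η / 2) ^ 2) hr₂0 hu2 (by positivity)
  set S := MKS.pinch P m
  have hSc : Cor M e S := cor_pinch hτ he hA.1 hP hmp.1.1
  have hSs : IsSelfAdjoint S := pinch_selfAdjoint' hP hms
  have hE₁ := cor_excess he hSc hu hSs
  have hE₂ := cor_excess he hSc.neg hu hSs.neg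
  have hW : MKS.pinch (prodPart R P) z - a = MKS.pinch P (MKS.pinch R y - a) + S := by
    rw [pinch_prod hA hR hP, show MKS.pinch R z = MKS.pinch R y + m by
      rw [hmdef, ← MKS.pinch_add, add_sub_cancel], MKS.pinch_add, MKS.pinch_sub,
      pinch_fix hA hP haA (hac.mul_right he)]
    abel
  have hNr : N * r₂ ≤ r := by
    refine Nat.cast_le (α := ℝ).1 ?_
    push_cast
    have h2 : (r₂ : ℝ) ≤ 257 / ε ^ 2 := by
      refine (Nat.ceil_lt_add_one (by positivity)).le.trans ?_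
      rw [div_add_one (by positivity : ε ^ 2 ≠ 0)]
      gcongr
      nlinarith
    calc (N : ℝ) * r₂ ≤ 400 / (ε / 2) ^ 2 * (257 / ε ^ 2) :=
          mul_le_mul hN1 h2 (by positivity) (by positivity)
      _ = 411200 / ε ^ 4 := by field_simp; ring
      _ ≤ r := by rw [div_le_iff₀ (by positivity)]; nlinarith
  have hp₁ := pinch_mono hP hW₁
  have hp₂ := pinch_mono hP hW₂
  rw [MKS.pinch_add, MKS.pinch_smul, pinch_self hP] at hp₁ hp₂
  have hneg : MKS.pinch P (-(MKS.pinch R y - a)) = -MKS.pinch P (MKS.pinch R y - a) := by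
    simp only [MKS.pinch, mul_neg, neg_mul, Finset.sum_neg_distrib]
  rw [hneg] at hp₂
  have he2 : (3 * (ε / 2) / 4) • e + (3 * ε / 8) • e = (3 * ε / 4) • e := by
    rw [← add_smul]; congr 1; ring
  refine ⟨N * r₂, prodPart R P, a, hNr, isPartition_prod hA hR hP, haA, has, hac, han,
    MKS.pinch P D₁ + excess (3 * ε / 8) S, MKS.pinch P D₂ + excess (3 * ε / 8) (-S),
    (cor_pinch hτ he hA.1 hP hD₁.1).add hE₁, (cor_pinch hτ he hA.1 hP hD₂.1).add hE₂,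
    ?_, ?_, ?_, ?_⟩
  · rw [hW, ← he2, add_add_add_comm]
    exact add_le_add hp₁ (le_smul_add_excess he hSc hSs hu)
  · rw [hW, ← he2, add_add_add_comm, neg_add]
    exact add_le_add hp₂ (le_smul_add_excess he hSc.neg hSs.neg hu)
  · refine (n2_add_le hτ he (cor_pinch hτ he hA.1 hP hD₁.1) hE₁).trans ?_
    have := (n2_pinch_le hτ he hA.1 hP hD₁).trans hn₁
    have : n2 τ (excess (3 * ε / 8) S) ≤ η / 2 := tr_excess_le' (half_pos hη).le hP₁
    linarith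
  · refine (n2_add_le hτ he (cor_pinch hτ he hA.1 hP hD₂.1) hE₂).trans ?_
    have := (n2_pinch_le hτ he hA.1 hP hD₂).trans hn₂
    have : n2 τ (excess (3 * ε / 8) (-S)) ≤ η / 2 := tr_excess_le' (half_pos hη).le hP₂
    linarith

/-- So-paving with `O(ε⁻⁴)` pieces in the corner at a projection of the MASA which traces on
smaller corners fill up. -/
theorem all_paving_at (hK : KaplanskyStatement) (hT : TraceStatement) (hD : DiagonalStatement)
    (hO : TwoSidedStatement) (hS : SplitStatement) (hN : NoiseStatement) (hA : IsMASA M A)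
    {p : H →L[ℂ] H} (hpA : p ∈ A) (hpp : IsStarProjection p)
    (htr : ∀ (F : Finset H) (δ : ℝ), 0 < δ → ∃ (e : H →L[ℂ] H) (τ : (H →L[ℂ] H) →ₗ[ℂ] ℂ),
      e ∈ A ∧ IsStarProjection e ∧ e * p = e ∧ IsTrace M e τ ∧ ∀ ξ ∈ F, ‖(p - e) ξ‖ < δ)
    {x : H →L[ℂ] H} (hxM : x ∈ M) (hx : IsSelfAdjoint x) {ε : ℝ} {r : ℕ} (hε : 0 < ε)
    (hε1 : ε < 1) (hr : (500000 : ℝ) ≤ ε ^ 4 * r) : SoPavable M A p x ε r := by
  have hr0 : 0 < r := Nat.pos_of_ne_zero fun h => by subst h; norm_num at hr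
  exact soPavable_of_stage hT hA hpA hpp htr hxM hx hε hr0
    fun e τ heA he hτ z hz hzs hzn η hη =>
      mixed_stage hK hT hD hO hS hN hA heA he hτ hz hzs hzn hε hε1 hη hr

/-- So-paving of every self-adjoint operator from the statements of the steps. -/
theorem all_paving_of (hK : KaplanskyStatement) (hT : TraceStatement) (hD : DiagonalStatement)
    (hO : TwoSidedStatement) (hS : SplitStatement) (hN : NoiseStatement) :
    AllPavingStatement := by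
  refine ⟨500000, fun H _ _ _ M A hA htr x hxM hx ε r hε hε1 hr => ?_⟩
  push_cast at hr
  refine all_paving_at hK hT hD hO hS hN hA (one_mem A) (IsStarProjection.one _) (fun F δ hδ => ?_)
    hxM hx hε hε1 hr
  obtain ⟨e, τ, h1, h2, h3, h4⟩ := htr F δ hδ
  exact ⟨e, τ, h1, h2, mul_one e, h3, h4⟩

end Vale.Agent.P078.Orth
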