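import Vale.Agent.P078.Orth.Basic

/-!
Random operators in a corner: averages over the labels of the cells and the averaged 2-norm.
-/

namespace Vale.Agent.P078.Orth

open Filter Topology MKS Singular

set_option linter.unusedSectionVars false

variable {H : Type} [NormedAddCommGroup H] [InnerProductSpace ℂ H] [CompleteSpace H]
variable {M A : VonNeumannAlgebra H} {e : H →L[ℂ] H} {τ : (H →L[ℂ] H) →ₗ[ℂ] ℂ}
variable {L : Type} [Fintype L] {μ : L → ℝ}

/-- An operator for every cut and every labelling of its cells. -/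
abbrev Rand (A : VonNeumannAlgebra H) (e : H →L[ℂ] H) (L : Type) : Type :=
  (c : Cut A e) → (Fin c.n → L) → (H →L[ℂ] H)

/-- A deterministic operator as a random one. -/
def cst (x : H →L[ℂ] H) : Rand A e L := fun _ _ => x

/-- The standing hypotheses. -/
structure Setting (M A : VonNeumannAlgebra H) (e : H →L[ℂ] H)
    (τ : (H →L[ℂ] H) →ₗ[ℂ] ℂ) (μ : L → ℝ) : Prop where
  hA : IsMASA M A
  heA : e ∈ A
  he : IsStarProjection e
  hτ : IsTrace M e τ
  pos : ∀ l, 0 ≤ μ l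
  sum : ∑ l, μ l = 1

/-- The weight of a labelling. -/
def wt (μ : L → ℝ) {n : ℕ} (ω : Fin n → L) : ℝ := ∏ i, μ (ω i)

theorem wt_nonneg (S : Setting M A e τ μ) {n : ℕ} (ω : Fin n → L) : 0 ≤ wt μ ω :=
  Finset.prod_nonneg fun i _ => S.pos _

theorem sum_wt (S : Setting M A e τ μ) (n : ℕ) : ∑ ω : Fin n → L, wt μ ω = 1 := by
  classical
  simp only [wt]
  rw [← Fintype.prod_sum fun (_ : Fin n) l => μ l]
  simp [S.sum]

section Avg

variable {n : ℕ} {E : Type} [AddCommGroup E] [Module ℝ E]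

theorem avg_eq (g : (Fin n → L) → E) : avg μ g = ∑ ω, wt μ ω • g ω := rfl

theorem avg_add (g g' : (Fin n → L) → E) :
    avg μ (fun ω => g ω + g' ω) = avg μ g + avg μ g' := by
  simp only [avg_eq, smul_add, Finset.sum_add_distrib]

theorem avg_sub (g g' : (Fin n → L) → E) :
    avg μ (fun ω => g ω - g' ω) = avg μ g - avg μ g' := by
  simp only [avg_eq, smul_sub, Finset.sum_sub_distrib]

theorem avg_const (S : Setting M A e τ μ) (x : E) : avg μ (fun _ : Fin n → L => x) = x := by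
  rw [avg_eq, ← Finset.sum_smul, sum_wt S, one_smul]

theorem avg_mono (S : Setting M A e τ μ) {g g' : (Fin n → L) → ℝ} (h : ∀ ω, g ω ≤ g' ω) :
    avg μ g ≤ avg μ g' := by
  simp only [avg_eq, smul_eq_mul]
  exact Finset.sum_le_sum fun ω _ => mul_le_mul_of_nonneg_left (h ω) (wt_nonneg S ω)

theorem avg_map {E' : Type} [AddCommGroup E'] [Module ℝ E'] (φ : E →ₗ[ℝ] E')
    (g : (Fin n → L) → E) : φ (avg μ g) = avg μ fun ω => φ (g ω) := by
  simp only [avg_eq, map_sum, map_smul]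

end Avg

/-- Uniformly bounded random elements of the corner. -/
def Good (M : VonNeumannAlgebra H) {A : VonNeumannAlgebra H} {e : H →L[ℂ] H} {L : Type}
    (F : Rand A e L) : Prop :=
  ∃ C : ℝ, 0 ≤ C ∧ ∀ c ω, Cor M e (F c ω) ∧ ‖F c ω‖ ≤ C

theorem Good.add {F G : Rand A e L} (hF : Good M F) (hG : Good M G) : Good M (F + G) := by
  obtain ⟨C, hC, hF⟩ := hF
  obtain ⟨D, hD, hG⟩ := hG
  exact ⟨C + D, add_nonneg hC hD, fun c ω => ⟨(hF c ω).1.add (hG c ω).1,
    (norm_add_le _ _).trans (add_le_add (hF c ω).2 (hG c ω).2)⟩⟩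

theorem Good.zero : Good M (0 : Rand A e L) :=
  ⟨0, le_rfl, fun _ _ => ⟨Cor.zero, le_of_eq norm_zero⟩⟩

theorem Good.smul (t : ℂ) {F : Rand A e L} (hF : Good M F) : Good M (t • F) := by
  obtain ⟨C, hC, hF⟩ := hF
  exact ⟨‖t‖ * C, by positivity, fun c ω => ⟨(hF c ω).1.csmul t, by
    show ‖t • F c ω‖ ≤ _
    rw [norm_smul]; exact mul_le_mul_of_nonneg_left (hF c ω).2 (norm_nonneg t)⟩⟩

theorem Good.sub {F G : Rand A e L} (hF : Good M F) (hG : Good M G) : Good M (F - G) := by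
  simpa [sub_eq_add_neg, neg_one_smul] using hF.add (hG.smul (-1))

theorem Good.sum {ι : Type*} (s : Finset ι) {F : ι → Rand A e L} (h : ∀ i ∈ s, Good M (F i)) :
    Good M (∑ i ∈ s, F i) :=
  Finset.sum_induction _ (Good M) (fun _ _ => Good.add) Good.zero h

theorem Good.mul (he : IsStarProjection e) {F G : Rand A e L} (hF : Good M F) (hG : Good M G) :
    Good M (F * G) := by
  obtain ⟨C, hC, hF⟩ := hF
  obtain ⟨D, hD, hG⟩ := hG
  exact ⟨C * D, mul_nonneg hC hD, fun c ω => ⟨(hF c ω).1.mul he (hG c ω).1,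
    (norm_mul_le _ _).trans (mul_le_mul (hF c ω).2 (hG c ω).2 (norm_nonneg _) hC)⟩⟩

theorem Good.star' (he : IsStarProjection e) {F : Rand A e L} (hF : Good M F) :
    Good M (star F) := by
  obtain ⟨C, hC, hF⟩ := hF
  exact ⟨C, hC, fun c ω => ⟨(hF c ω).1.star' he, (norm_star _).trans_le (hF c ω).2⟩⟩

theorem good_cst {x : H →L[ℂ] H} (hx : Cor M e x) : Good M (cst x : Rand A e L) :=
  ⟨‖x‖, norm_nonneg x, fun _ _ => ⟨hx, le_rfl⟩⟩

/-- The averaged 2-norm. -/
noncomputable def nr (τ : (H →L[ℂ] H) →ₗ[ℂ] ℂ) (μ : L → ℝ) (F : Rand A e L) (c : Cut A e) :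
    ℝ :=
  Real.sqrt (avg μ fun ω => n2 τ (F c ω) ^ 2)

/-- The averaged trace. -/
noncomputable def etr (τ : (H →L[ℂ] H) →ₗ[ℂ] ℂ) (μ : L → ℝ) (F : Rand A e L) (c : Cut A e) :
    ℂ :=
  avg μ fun ω => τ (F c ω)

theorem nr_nonneg (F : Rand A e L) (c : Cut A e) : 0 ≤ nr τ μ F c := Real.sqrt_nonneg _

theorem nr_sq (S : Setting M A e τ μ) (F : Rand A e L) (c : Cut A e) :
    nr τ μ F c ^ 2 = avg μ fun ω => n2 τ (F c ω) ^ 2 :=
  Real.sq_sqrt ((avg_mono S fun ω => sq_nonneg _).trans' (by rw [avg_const S]))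

theorem avg_mul_le (S : Setting M A e τ μ) {n : ℕ} (a b : (Fin n → L) → ℝ) :
    (avg μ fun ω => a ω * b ω) ≤
      Real.sqrt (avg μ fun ω => a ω ^ 2) * Real.sqrt (avg μ fun ω => b ω ^ 2) := by
  simp only [avg_eq, smul_eq_mul]
  have h : ∀ (u : (Fin n → L) → ℝ), ∑ ω, wt μ ω * u ω ^ 2 = ∑ ω, (Real.sqrt (wt μ ω) * u ω) ^ 2 :=
    fun u => Finset.sum_congr rfl fun ω _ => by rw [mul_pow, Real.sq_sqrt (wt_nonneg S ω)]
  have h' : ∑ ω, wt μ ω * (a ω * b ω) =
      ∑ ω, (Real.sqrt (wt μ ω) * a ω) * (Real.sqrt (wt μ ω) * b ω) :=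
    Finset.sum_congr rfl fun ω _ => by
      rw [mul_mul_mul_comm, Real.mul_self_sqrt (wt_nonneg S ω)]
  rw [h a, h b, h', ← Real.sqrt_mul (Finset.sum_nonneg fun _ _ => sq_nonneg _)]
  exact (le_abs_self _).trans (Real.abs_le_sqrt (Finset.sum_mul_sq_le_sq_mul_sq _ _ _))

theorem nr_add_le (S : Setting M A e τ μ) {F G : Rand A e L} (hF : Good M F) (hG : Good M G)
    (c : Cut A e) : nr τ μ (F + G) c ≤ nr τ μ F c + nr τ μ G c := by
  obtain ⟨_, _, hF⟩ := hF
  obtain ⟨_, _, hG⟩ := hG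
  refine (sq_le_sq₀ (nr_nonneg _ _) (add_nonneg (nr_nonneg _ _) (nr_nonneg _ _))).1 ?_
  rw [nr_sq S, add_sq, nr_sq S, nr_sq S]
  refine (avg_mono S fun ω => pow_le_pow_left₀ (n2_nonneg _)
    (n2_add_le S.hτ S.he (hF c ω).1 (hG c ω).1) 2).trans ?_
  simp only [add_sq, avg_add, mul_assoc]
  have h := avg_mul_le S (fun ω => n2 τ (F c ω)) fun ω => n2 τ (G c ω)
  have h2 : (avg μ fun ω => 2 * (n2 τ (F c ω) * n2 τ (G c ω))) =
      2 * avg μ fun ω => n2 τ (F c ω) * n2 τ (G c ω) := by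
    simp only [avg_eq, smul_eq_mul, Finset.mul_sum, mul_left_comm]
  rw [h2]
  simp only [nr]
  linarith

theorem nr_sum_le (S : Setting M A e τ μ) {ι : Type*} (s : Finset ι) {F : ι → Rand A e L}
    (h : ∀ i ∈ s, Good M (F i)) (c : Cut A e) :
    nr τ μ (∑ i ∈ s, F i) c ≤ ∑ i ∈ s, nr τ μ (F i) c := by
  classical
  induction s using Finset.induction_on with
  | empty => simp [nr, n2, avg_eq]
  | insert i s hi ih =>
    rw [Finset.sum_insert hi, Finset.sum_insert hi]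
    exact (nr_add_le S (h i (Finset.mem_insert_self i s))
      (Good.sum s fun j hj => h j (Finset.mem_insert_of_mem hj)) c).trans
      (add_le_add le_rfl (ih fun j hj => h j (Finset.mem_insert_of_mem hj)))

theorem nr_mul_le (S : Setting M A e τ μ) {F G : Rand A e L} {C : ℝ} (hC : 0 ≤ C)
    (hF : ∀ c ω, Cor M e (F c ω) ∧ ‖F c ω‖ ≤ C) (hG : Good M G) (c : Cut A e) :
    nr τ μ (F * G) c ≤ C * nr τ μ G c := by
  obtain ⟨_, _, hG⟩ := hG
  refine (sq_le_sq₀ (nr_nonneg _ _) (mul_nonneg hC (nr_nonneg _ _))).1 ?_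
  rw [nr_sq S, mul_pow, nr_sq S, avg_eq, avg_eq, Finset.mul_sum]
  refine Finset.sum_le_sum fun ω _ => ?_
  rw [smul_eq_mul, smul_eq_mul, ← mul_assoc (C ^ 2), mul_comm (C ^ 2), mul_assoc, ← mul_pow]
  refine mul_le_mul_of_nonneg_left (pow_le_pow_left₀ (n2_nonneg _) ?_ 2) (wt_nonneg S ω)
  exact (n2_mul_le S.hτ S.he ((hF c ω).1.mul S.he (hG c ω).1) (hG c ω).1).trans
    (mul_le_mul_of_nonneg_right (hF c ω).2 (n2_nonneg _))

theorem nr_mul_right_le (S : Setting M A e τ μ) {F G : Rand A e L} {C : ℝ} (hC : 0 ≤ C)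
    (hF : Good M F) (hG : ∀ c ω, Cor M e (G c ω) ∧ ‖G c ω‖ ≤ C) (c : Cut A e) :
    nr τ μ (F * G) c ≤ C * nr τ μ F c := by
  obtain ⟨_, _, hF⟩ := hF
  refine (sq_le_sq₀ (nr_nonneg _ _) (mul_nonneg hC (nr_nonneg _ _))).1 ?_
  rw [nr_sq S, mul_pow, nr_sq S, avg_eq, avg_eq, Finset.mul_sum]
  refine Finset.sum_le_sum fun ω _ => ?_
  rw [smul_eq_mul, smul_eq_mul, ← mul_assoc (C ^ 2), mul_comm (C ^ 2), mul_assoc, ← mul_pow]
  refine mul_le_mul_of_nonneg_left (pow_le_pow_left₀ (n2_nonneg _) ?_ 2) (wt_nonneg S ω)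
  exact (n2_mul_right_le S.hτ S.he ((hF c ω).1.mul S.he (hG c ω).1) (hF c ω).1).trans
    (mul_le_mul_of_nonneg_right (hG c ω).2 (n2_nonneg _))

theorem nr_cst (S : Setting M A e τ μ) (x : H →L[ℂ] H) (c : Cut A e) :
    nr τ μ (cst x) c = n2 τ x := by
  simp only [nr, cst, avg_const S, Real.sqrt_sq (n2_nonneg x)]

theorem norm_tr_mul_le (S : Setting M A e τ μ) {a b : H →L[ℂ] H} (ha : Cor M e a)
    (hb : Cor M e b) : ‖τ (star a * b)‖ ≤ n2 τ a * n2 τ b := by
  set z := τ (star a * b)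
  rcases eq_or_ne z 0 with hz | hz
  · rw [hz, norm_zero]; exact mul_nonneg (n2_nonneg _) (n2_nonneg _)
  set u : ℂ := star z / ‖z‖
  have h := re_inner_le S.hτ S.he ha (hb.csmul u)
  rw [mul_smul_comm, map_smul, smul_eq_mul] at h
  have hu : ‖u‖ = 1 := by simp [u, hz]
  have h1 : (u * z).re = ‖z‖ := by
    have : u * z = (‖z‖ : ℂ) := by
      simp only [u, Complex.star_def, div_mul_eq_mul_div]
      rw [mul_comm, Complex.mul_conj, Complex.normSq_eq_norm_sq, Complex.ofReal_pow, sq,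
        mul_div_assoc, div_self (by simpa using hz), mul_one]
    rw [this, Complex.ofReal_re]
  have h2 : n2 τ (u • b) = n2 τ b := by
    have hsm : star u * u = 1 := by
      rw [Complex.star_def, mul_comm, Complex.mul_conj, Complex.normSq_eq_norm_sq, hu]; simp
    rw [n2, n2, star_smul, smul_mul_smul_comm, hsm, one_smul]
  rw [h1, h2] at h
  exact h

theorem etr_add (F G : Rand A e L) (c : Cut A e) :
    etr τ μ (F + G) c = etr τ μ F c + etr τ μ G c := by
  simp only [etr, Pi.add_apply, map_add, avg_add]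

theorem etr_sub (F G : Rand A e L) (c : Cut A e) :
    etr τ μ (F - G) c = etr τ μ F c - etr τ μ G c := by
  simp only [etr, Pi.sub_apply, map_sub, avg_sub]

theorem etr_sum {ι : Type*} (s : Finset ι) (F : ι → Rand A e L) (c : Cut A e) :
    etr τ μ (∑ i ∈ s, F i) c = ∑ i ∈ s, etr τ μ (F i) c := by
  simp only [etr, Finset.sum_apply, map_sum, avg_eq, Finset.smul_sum]
  exact Finset.sum_comm

theorem etr_comm (S : Setting M A e τ μ) {F G : Rand A e L} (hF : Good M F) (hG : Good M G)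
    (c : Cut A e) : etr τ μ (F * G) c = etr τ μ (G * F) c := by
  obtain ⟨_, _, hF⟩ := hF
  obtain ⟨_, _, hG⟩ := hG
  simp only [etr, Pi.mul_apply]
  exact congrArg _ (funext fun ω =>
    S.hτ.2.2.1 _ (hF c ω).1.1 _ (hG c ω).1.1 (hF c ω).1.2 (hG c ω).1.2)

theorem norm_etr_le (S : Setting M A e τ μ) {F G : Rand A e L} (hF : Good M F) (hG : Good M G)
    (c : Cut A e) : ‖etr τ μ (star F * G) c‖ ≤ nr τ μ F c * nr τ μ G c := by
  obtain ⟨_, _, hF⟩ := hF
  obtain ⟨_, _, hG⟩ := hG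
  refine le_trans ?_ (avg_mul_le S (fun ω => n2 τ (F c ω)) fun ω => n2 τ (G c ω))
  simp only [etr, avg_eq, smul_eq_mul, Pi.mul_apply, Pi.star_apply]
  refine (norm_sum_le _ _).trans (Finset.sum_le_sum fun ω _ => ?_)
  rw [norm_smul, Real.norm_of_nonneg (wt_nonneg S ω)]
  exact mul_le_mul_of_nonneg_left (norm_tr_mul_le S (hF c ω).1 (hG c ω).1) (wt_nonneg S ω)

theorem etr_star_self (S : Setting M A e τ μ) {F : Rand A e L} (hF : Good M F) (c : Cut A e) :
    (etr τ μ (star F * F) c).re = nr τ μ F c ^ 2 := by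
  obtain ⟨_, _, hF⟩ := hF
  rw [nr_sq S]
  simp only [etr, avg_eq, Complex.re_sum, Complex.smul_re]
  exact Finset.sum_congr rfl fun ω _ => by rw [n2_sq S.hτ S.he (hF c ω).1]; rfl

theorem norm_etr_le_one (S : Setting M A e τ μ) {G : Rand A e L} (hG : Good M G) (c : Cut A e) :
    ‖etr τ μ G c‖ ≤ n2 τ e * nr τ μ G c := by
  have heM := S.hA.1 e S.heA
  have h := norm_etr_le S (good_cst (A := A) (L := L) (cor_proj heM S.he)) hG c
  rw [nr_cst S] at h
  convert h using 3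
  obtain ⟨_, _, hG⟩ := hG
  funext c ω
  simp only [Pi.mul_apply, Pi.star_apply, cst, S.he.isSelfAdjoint.star_eq,
    (hG c ω).1.mul_left S.he]

/-- `F` is approximated in the averaged 2-norm by bounded elements with vanishing trace. -/
theorem tendsto_etr_of_approx (S : Setting M A e τ μ) {F : Rand A e L} (hF : Good M F)
    (h : ∀ η : ℝ, 0 < η → ∃ G : Rand A e L, Good M G ∧
      (∀ᶠ c in fine A e, nr τ μ (F - G) c ≤ η) ∧
      Tendsto (etr τ μ G) (fine A e) (𝓝 0)) :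
    Tendsto (etr τ μ F) (fine A e) (𝓝 0) := by
  refine Metric.tendsto_nhds.2 fun ε hε => ?_
  set K := n2 τ e + 1
  have hK : 0 < K := by have := n2_nonneg (τ := τ) e; positivity
  obtain ⟨G, hG, hd, ht⟩ := h (ε / (2 * K)) (by positivity)
  filter_upwards [hd, Metric.tendsto_nhds.1 ht (ε / 2) (half_pos hε)] with c h1 h2
  rw [dist_zero_right] at h2 ⊢
  have h3 := norm_etr_le_one S (hF.sub hG) c
  rw [etr_sub] at h3
  have h4 : n2 τ e * nr τ μ (F - G) c ≤ ε / 2 := by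
    refine (mul_le_mul (show n2 τ e ≤ K by simp [K]) h1 (nr_nonneg _ _) hK.le).trans (le_of_eq ?_)
    field_simp
  have := norm_sub_norm_le (etr τ μ F c) (etr τ μ G c)
  linarith

end Vale.Agent.P078.Orth
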