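import Vale.Agent.P078.Orth.Defs
import Vale.Agent.P078.MKS.Trace

/-!
Bounded sets of a corner with a faithful normal trace are complete in the 2-norm.
-/

namespace Vale.Agent.P078.Orth

namespace Complete

open Filter Topology MKS
open scoped InnerProductSpace

variable {H : Type} [NormedAddCommGroup H] [InnerProductSpace ℂ H] [CompleteSpace H]
variable {M : VonNeumannAlgebra H} {e : H →L[ℂ] H} {τ : (H →L[ℂ] H) →ₗ[ℂ] ℂ}

theorem n2_csmul (c : ℂ) (y : H →L[ℂ] H) : n2 τ (c • y) = ‖c‖ * n2 τ y := by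
  rw [n2, n2, star_smul, smul_mul_smul_comm, map_smul, smul_eq_mul, Complex.star_def,
    ← Complex.normSq_eq_conj_mul_self, Complex.re_ofReal_mul,
    Real.sqrt_mul (Complex.normSq_nonneg c)]
  rfl

/-- On a bounded set, small 2-norm forces small at a given vector. -/
theorem exists_small (heM : e ∈ M) (he : IsStarProjection e) (hτ : IsTrace M e τ) {C : ℝ}
    (hC : 0 < C) (ξ : H) {δ : ℝ} (hδ : 0 < δ) :
    ∃ η : ℝ, 0 < η ∧ ∀ y, Cor M e y → ‖y‖ ≤ C → n2 τ y ≤ η → ‖y ξ‖ < δ := by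
  obtain ⟨t, ht0, ht⟩ : ∃ t : ℝ, 0 < t ∧ t * ‖ξ‖ ^ 2 + t ≤ δ ^ 2 / 4 :=
    ⟨δ ^ 2 / 4 / (‖ξ‖ ^ 2 + 1), by positivity, le_of_eq (by field_simp)⟩
  obtain ⟨η₀, hη₀, hproj⟩ :=
    (trace_ok H M e τ heM he hτ).1 {ξ} (t / (C ^ 2 * (‖ξ‖ + 1))) (by positivity)
  refine ⟨Real.sqrt (η₀ * t ^ 2 / (2 * C ^ 2)), by positivity, fun y hy hyC hyη => ?_⟩
  set B := star y * y with hBdef
  have hB : Cor M e B := (hy.star' he).mul he hy
  have hB0 : 0 ≤ B := star_mul_self_nonneg y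
  have hBn : ‖B‖ ≤ C ^ 2 := by
    rw [hBdef, CStarRing.norm_star_mul_self, sq]
    exact mul_self_le_mul_self (norm_nonneg _) hyC
  obtain ⟨P, hPM, hP, hBP, h1, h2, h3, -⟩ := Singular.cut M hB.1 hB0 ht0
  have hPe : P * e = P := h3 e he (hB.mul_left he)
  have hPc : Cor M e P := Cor.of_abs he hPM (Singular.le_mul_comm he hP hPe) hPe
  have hP2 : t ^ 2 • P ≤ C ^ 2 • B := by
    have hBB : B * B ≤ C ^ 2 • B := by
      obtain ⟨s, hs, hss, -⟩ := TraceFacts.exists_sqrt hB0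
      have h := conj_le (bounds_of_norm_le (IsSelfAdjoint.of_nonneg hB0) hBn).2 s
      rw [hs, mul_smul_comm, smul_mul_assoc, mul_one, hss] at h
      refine le_trans (le_of_eq ?_) h
      rw [← hss]
      simp only [mul_assoc]
    refine le_trans ?_ hBB
    rw [ContinuousLinearMap.le_def, ContinuousLinearMap.isPositive_iff_complex]
    intro v
    have hsa : IsSelfAdjoint (B * B - t ^ 2 • P) :=
      ((IsSelfAdjoint.of_nonneg hB0).commute_iff (IsSelfAdjoint.of_nonneg hB0)).1 (Commute.refl B)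
        |>.sub (IsSelfAdjoint.smul (star_trivial _) hP.isSelfAdjoint)
    refine ⟨hsa.isSymmetric.coe_re_inner_apply_self v, ?_⟩
    have e1 : (⟪(B * B) v, v⟫_ℂ).re = ‖B v‖ ^ 2 := by
      rw [mul_apply_eq_comp, ← ContinuousLinearMap.adjoint_inner_right,
        ← ContinuousLinearMap.star_eq_adjoint, (IsSelfAdjoint.of_nonneg hB0).star_eq]
      exact (norm_sq_eq_re_inner (𝕜 := ℂ) _).symm
    have e2 : (⟪P v, v⟫_ℂ).re = ‖P v‖ ^ 2 := by
      conv_lhs => rw [← hP.isIdempotentElem.eq, mul_apply_eq_comp, Singular.inner_proj hP]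
      exact (norm_sq_eq_re_inner (𝕜 := ℂ) _).symm
    have h2' : (t * ‖P v‖) ^ 2 ≤ ‖B v‖ ^ 2 := pow_le_pow_left₀ (by positivity) (h2 v) 2
    rw [mul_pow] at h2'
    simp only [sub_apply, smul_apply, RCLike.real_smul_eq_coe_smul (K := ℂ), inner_sub_left,
      inner_smul_left, RCLike.re_to_complex]
    simp only [RCLike.conj_ofReal, ← RCLike.re_to_complex, map_sub, RCLike.re_ofReal_mul]
    simp only [RCLike.re_to_complex, e1, e2]
    linarith
  have hτP : (τ P).re < η₀ := by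
    have h := tr_mono hτ he (hPc.rsmul _) (hB.rsmul _) hP2
    rw [tr_rsmul, tr_rsmul] at h
    have h4 : (τ B).re ≤ η₀ * t ^ 2 / (2 * C ^ 2) := by
      rw [← n2_sq hτ he hy, ← Real.sq_sqrt (show 0 ≤ η₀ * t ^ 2 / (2 * C ^ 2) by positivity)]
      exact pow_le_pow_left₀ (n2_nonneg _) hyη 2
    rw [le_div_iff₀ (by positivity)] at h4
    nlinarith [mul_pos hη₀ (pow_pos ht0 2)]
  have h5 : ‖P ξ‖ < t / (C ^ 2 * (‖ξ‖ + 1)) := hproj P hPM hP hPc.2 hτP ξ (by simp)
  have h6 : ‖B ξ‖ ≤ t * ‖ξ‖ + t / (‖ξ‖ + 1) := by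
    have e1 : B ξ = B ((1 - P) ξ) + B (P ξ) := by
      rw [← map_add]; simp
    rw [e1]
    refine (norm_add_le _ _).trans (add_le_add (h1 ξ) ?_)
    refine (B.le_of_opNorm_le hBn _).trans ?_
    refine (mul_le_mul_of_nonneg_left h5.le (by positivity)).trans (le_of_eq ?_)
    field_simp
  have h7 : ‖y ξ‖ ^ 2 ≤ δ ^ 2 / 4 := by
    have e2 : ‖y ξ‖ ^ 2 = (⟪ξ, B ξ⟫_ℂ).re := by
      rw [hBdef, mul_apply_eq_comp, ContinuousLinearMap.star_eq_adjoint,
        ContinuousLinearMap.adjoint_inner_right]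
      exact norm_sq_eq_re_inner (𝕜 := ℂ) _
    rw [e2]
    refine ((Complex.re_le_norm _).trans (norm_inner_le_norm ξ (B ξ))).trans ?_
    refine (mul_le_mul_of_nonneg_left h6 (norm_nonneg _)).trans (le_trans ?_ ht)
    have : ‖ξ‖ * (t / (‖ξ‖ + 1)) ≤ t := by
      rw [mul_div_assoc', div_le_iff₀ (by positivity)]
      nlinarith [norm_nonneg ξ]
    nlinarith
  nlinarith [norm_nonneg (y ξ)]

end Complete

open Complete MKS Filter Topology in
/-- Bounded n2-Cauchy sequences converge. -/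
theorem complete_ok : CompleteStatement := by
  intro H _ _ _ M e τ heM he hτ T C hT hcau
  have hC : 0 ≤ C := (norm_nonneg _).trans (hT 0).2
  have hcv : ∀ v, CauchySeq fun n => T n v := by
    intro v
    rw [Metric.cauchySeq_iff]
    intro δ hδ
    obtain ⟨η, hη, hsm⟩ := Complete.exists_small heM he hτ (show (0 : ℝ) < 2 * C + 1 by positivity) v hδ
    obtain ⟨N, hN⟩ := hcau η hη
    refine ⟨N, fun i hi j hj => ?_⟩
    rw [dist_eq_norm]
    exact hsm _ ((hT i).1.sub (hT j).1)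
      ((norm_sub_le _ _).trans (by linarith [(hT i).2, (hT j).2])) (hN i hi j hj)
  choose f hf using fun v => cauchySeq_tendsto_of_complete (hcv v)
  set L := continuousLinearMapOfTendsto T (tendsto_pi_nhds.2 hf)
  have hL : Cor M e L := TraceFacts.cor_limit (fun n => (hT n).1) hf
  have hLn : ‖L‖ ≤ C := ContinuousLinearMap.opNorm_le_bound _ hC fun v =>
    le_of_tendsto (hf v).norm (Eventually.of_forall fun n => (T n).le_of_opNorm_le (hT n).2 v)
  refine ⟨L, hL, hLn, Metric.tendsto_nhds.2 fun ε hε => ?_⟩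
  obtain ⟨F, δ, hδ, hsmall⟩ :=
    (trace_ok H M e τ heM he hτ).2 ((ε / (C + 1)) ^ 2) (by positivity)
  have hev : ∀ᶠ n in atTop, ∀ ξ ∈ F, ‖T n ξ - L ξ‖ < δ * (C + 1) :=
    (Finset.eventually_all F).2 fun ξ _ => by
      rw [show L ξ = f ξ from rfl]
      simpa [dist_eq_norm] using Metric.tendsto_nhds.1 (hf ξ) (δ * (C + 1)) (by positivity)
  filter_upwards [hev] with n hn
  have hn1 : ‖((C + 1)⁻¹ : ℂ)‖ = (C + 1)⁻¹ := by
    rw [norm_inv, ← Complex.ofReal_one, ← Complex.ofReal_add, Complex.norm_real,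
      Real.norm_of_nonneg (by linarith)]
  set z := ((C + 1)⁻¹ : ℂ) • (T n - L) with hzdef
  have hz : Cor M e z := ((hT n).1.sub hL).csmul _
  have h2 := hsmall z hz.1 hz.2
    (by rw [norm_smul, hn1, inv_mul_le_iff₀ (by positivity)]
        linarith [norm_sub_le (T n) L, (hT n).2])
    (fun ξ hξ => by
      rw [smul_apply, sub_apply, norm_smul, hn1, inv_mul_lt_iff₀ (by positivity)]
      linarith [hn ξ hξ])
  rw [← n2_sq hτ he hz] at h2
  have h3 : n2 τ z < ε / (C + 1) := lt_of_pow_lt_pow_left₀ 2 (by positivity) h2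
  rw [hzdef, n2_csmul, hn1, inv_mul_lt_iff₀ (by positivity), mul_div_cancel₀ _ (by positivity)] at h3
  rwa [dist_eq_norm, sub_zero, Real.norm_of_nonneg (n2_nonneg _)]

end Vale.Agent.P078.Orth
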