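import Vale.Agent.P078.Orth.Basic
import Vale.Agent.P078.Orth.Complete

/-!
Pinchings by arbitrarily fine cuts converge in the 2-norm to an element of the MASA.
-/

namespace Vale.Agent.P078.Orth

namespace DiagLimit

open Filter Topology MKS Singular

variable {H : Type} [NormedAddCommGroup H] [InnerProductSpace ℂ H] [CompleteSpace H]
variable {M A : VonNeumannAlgebra H} {e : H →L[ℂ] H} {τ : (H →L[ℂ] H) →ₗ[ℂ] ℂ}

theorem norm_pinch_le (heA : e ∈ A) (he : IsStarProjection e) {r : ℕ}
    {P : Fin r → (H →L[ℂ] H)} (hP : IsPartition A e P) {x : H →L[ℂ] H} (hx : Cor M e x) :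
    ‖MKS.pinch P x‖ ≤ ‖x‖ := by
  have h : IsPart A (Fin.snoc P (1 - e)) := by
    refine ⟨fun k => ?_, fun k l hkl => ?_, ?_⟩
    · induction k using Fin.lastCases with
      | last => simpa using ⟨sub_mem (one_mem A) heA, he.one_sub⟩
      | cast i => simpa [IsPr] using hP.1 i
    · induction k using Fin.lastCases <;> induction l using Fin.lastCases
      · exact absurd rfl hkl
      · simp [sub_mul, (hP.mul_e _).1]
      · simp [mul_sub, (hP.mul_e _).2]
      · simpa using hP.2.1 _ _ fun h => hkl (congrArg Fin.castSucc h)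
    · simp [Fin.sum_univ_castSucc, hP.2.2]
  have hp := h.norm_pinch_le x
  have e0 : (1 - e) * x = 0 := by rw [sub_mul, one_mul, hx.mul_left he, sub_self]
  rwa [show Vale.Agent.P078.pinch (Fin.snoc P (1 - e)) x = MKS.pinch P x by
    simp [Vale.Agent.P078.pinch, MKS.pinch, Fin.sum_univ_castSucc, e0]] at hp

theorem tr_eq_n2 (he : IsStarProjection e) (hτ : IsTrace M e τ) {y : H →L[ℂ] H} (hy : Cor M e y)
    (h : n2 τ y = 0) : y = 0 := by
  refine hτ.2.1 y hy.1 hy.2 (Complex.ext ?_ (hτ.1 y hy.1 hy.2).2)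
  rw [← n2_sq hτ he hy, h]
  simp

theorem parallelogram (he : IsStarProjection e) (hτ : IsTrace M e τ) {a b : H →L[ℂ] H}
    (ha : Cor M e a) (hb : Cor M e b) :
    n2 τ (a + b) ^ 2 + n2 τ (a - b) ^ 2 = 2 * n2 τ a ^ 2 + 2 * n2 τ b ^ 2 := by
  rw [n2_sq hτ he (ha.add hb), n2_sq hτ he (ha.sub hb), n2_sq hτ he ha, n2_sq hτ he hb]
  simp only [star_add, star_sub, add_mul, mul_add, sub_mul, mul_sub, map_add, map_sub,
    Complex.add_re, Complex.sub_re]
  ring

/-- Pinchings are orthogonal projections up to a factor two. -/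
theorem n2_sub_sq_le (hA : IsMASA M A) (he : IsStarProjection e) (hτ : IsTrace M e τ)
    {a c : Cut A e} (h : a.Refines c) {x : H →L[ℂ] H} (hx : Cor M e x) :
    n2 τ (MKS.pinch c.q x - MKS.pinch a.q x) ^ 2 ≤
      2 * (n2 τ (MKS.pinch a.q x) ^ 2 - n2 τ (MKS.pinch c.q x) ^ 2) := by
  set y := MKS.pinch a.q x
  set z := MKS.pinch c.q x
  have hy : Cor M e y := cor_pinch hτ he hA.1 a.part hx.1
  have hz : Cor M e z := cor_pinch hτ he hA.1 c.part hx.1
  have hzy : MKS.pinch c.q y = z := pinch_pinch_refines hA h x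
  have hzz : MKS.pinch c.q z = z := pinch_pinch_refines hA (refines_refl c) x
  have h1 := n2_pinch_le hτ he hA.1 c.part (hy.add hz)
  rw [show MKS.pinch c.q (y + z) = MKS.pinch c.q y + MKS.pinch c.q z from pinch_add _ _ _, hzy, hzz,
    ← two_smul ℝ z, n2_rsmul hτ he two_pos.le] at h1
  have h2 := parallelogram he hτ hz hy
  rw [add_comm y z] at h1
  have h3 := pow_le_pow_left₀ (by positivity [n2_nonneg (τ := τ) z]) h1 2
  nlinarith

end DiagLimit

open DiagLimit MKS Filter Topology Singular in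
/-- Pinchings by fine cuts converge to an element of `A`. -/
theorem diag_limit_ok : DiagLimitStatement := by
  intro H _ _ _ M A e τ hA heA he hτ x hx
  have heM := hA.1 e heA
  have hc : ∀ c : Cut A e, Cor M e (MKS.pinch c.q x) := fun c => cor_pinch hτ he hA.1 c.part hx.1
  set f : Cut A e → ℝ := fun c => n2 τ (MKS.pinch c.q x) with hfdef
  have : Nonempty (Cut A e) := ⟨topCut heA he⟩
  have hbdd : BddBelow (Set.range f) := ⟨0, by rintro _ ⟨c, rfl⟩; exact n2_nonneg _⟩
  set s := sInf (Set.range f)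
  have hs : ∀ c, s ≤ f c := fun c => csInf_le hbdd ⟨c, rfl⟩
  have hs0 : 0 ≤ s := le_csInf (Set.range_nonempty f) (by rintro _ ⟨c, rfl⟩; exact n2_nonneg _)
  have hex : ∀ n : ℕ, ∃ c, f c < s + 1 / (n + 1) := fun n => by
    obtain ⟨_, ⟨c, rfl⟩, h⟩ := exists_lt_of_csInf_lt (Set.range_nonempty f)
      (lt_add_of_pos_right s (show (0 : ℝ) < 1 / (n + 1) by positivity))
    exact ⟨c, h⟩
  choose c₀ hc₀ using hex
  let C : ℕ → Cut A e := fun n => Nat.rec (c₀ 0) (fun k Ck => meet hA Ck (c₀ (k + 1))) n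
  have hC : ∀ n m, n ≤ m → (C n).Refines (C m) := by
    intro n m hnm
    induction hnm with
    | refl => exact refines_refl _
    | step _ ih => exact refines_trans ih (refines_meet_left hA _ _)
  have hCf : ∀ n, f (C n) < s + 1 / (n + 1) := by
    intro n
    refine lt_of_le_of_lt ?_ (hc₀ n)
    cases n with
    | zero => exact le_rfl
    | succ k => exact n2_pinch_mono hA he hτ (refines_meet_right hA _ _) hx
  have hclose : ∀ η : ℝ, 0 < η → ∃ N, ∀ n ≥ N, ∀ c, (C n).Refines c →
      n2 τ (MKS.pinch c.q x - MKS.pinch (C n).q x) ≤ η := by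
    intro η hη
    obtain ⟨N, hN⟩ := exists_nat_gt (2 * (2 * s + 1) / η ^ 2)
    rw [div_lt_iff₀ (by positivity)] at hN
    refine ⟨N, fun n hn c hcr => le_of_sq_le_sq ?_ hη.le⟩
    refine (n2_sub_sq_le hA he hτ hcr hx).trans ?_
    have h1 : f (C n) ^ 2 ≤ (s + 1 / (n + 1)) ^ 2 :=
      pow_le_pow_left₀ (n2_nonneg _) (hCf n).le 2
    have h2 : s ^ 2 ≤ f c ^ 2 := pow_le_pow_left₀ hs0 (hs c) 2
    have h3 : (1 : ℝ) / (n + 1) ≤ 1 := by rw [div_le_one (by positivity)]; simp
    have h4 : 2 * (2 * s + 1) * (1 / ((n : ℝ) + 1)) ≤ η ^ 2 := by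
      rw [mul_one_div, div_le_iff₀ (by positivity)]
      nlinarith [(Nat.cast_le (α := ℝ)).2 hn, sq_nonneg η]
    have h5 : (0 : ℝ) ≤ 1 / (n + 1) := by positivity
    change 2 * (f (C n) ^ 2 - f c ^ 2) ≤ η ^ 2
    nlinarith
  obtain ⟨a, hac, han, hlim⟩ := complete_ok H M e τ heM he hτ (fun n => MKS.pinch (C n).q x) ‖x‖
    (fun n => ⟨hc _, norm_pinch_le heA he (C n).part hx⟩) fun η hη => by
      obtain ⟨N, hN⟩ := hclose (η / 2) (half_pos hη)
      refine ⟨N, fun i hi j hj => ?_⟩
      have hi' := hN N le_rfl (C i) (hC N i hi)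
      have hj' := hN N le_rfl (C j) (hC N j hj)
      rw [← sub_sub_sub_cancel_right (MKS.pinch (C i).q x) (MKS.pinch (C j).q x) (MKS.pinch (C N).q x)]
      rw [sub_eq_add_neg]
      refine (n2_add_le hτ he ((hc _).sub (hc _)) ((hc _).sub (hc _)).neg).trans ?_
      rw [n2_neg hτ he]
      linarith
  have hev : ∀ η : ℝ, 0 < η → ∀ᶠ c in fine A e, n2 τ (MKS.pinch c.q x - a) ≤ η := by
    intro η hη
    obtain ⟨N, hN⟩ := hclose (η / 2) (half_pos hη)
    obtain ⟨N', hN'⟩ := Metric.tendsto_atTop.1 hlim (η / 2) (half_pos hη)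
    filter_upwards [eventually_refines hA heA he (C (max N N'))] with c hcr
    have h1 := hN _ (le_max_left N N') c hcr
    have h2 := hN' _ (le_max_right N N')
    rw [Real.dist_eq, sub_zero, abs_of_nonneg (n2_nonneg _)] at h2
    rw [← sub_add_sub_cancel (MKS.pinch c.q x) (MKS.pinch (C (max N N')).q x) a]
    exact (n2_add_le hτ he ((hc _).sub (hc _)) ((hc _).sub hac)).trans (by linarith)
  have hfix : ∀ q : Cut A e, MKS.pinch q.q a = a := by
    intro q
    refine sub_eq_zero.1 (tr_eq_n2 he hτ ((show Cor M e (MKS.pinch q.q a) from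
      cor_pinch hτ he hA.1 q.part hac.1).sub hac) ?_)
    refine le_antisymm (le_of_forall_gt_imp_ge_of_dense fun η hη => ?_) (n2_nonneg _)
    have := fine_neBot hA heA he
    obtain ⟨c, hcη, hcr⟩ := ((hev (η / 2) (half_pos hη)).and
      (eventually_refines hA heA he q)).exists
    have hcq : MKS.pinch q.q (MKS.pinch c.q x) = MKS.pinch c.q x := by
      rw [show MKS.pinch q.q (MKS.pinch c.q x) = MKS.pinch c.q (MKS.pinch q.q x) from
        pinch_pinch_comm hA q.part c.part x, pinch_pinch_refines hA hcr]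
    have h1 := n2_pinch_le hτ he hA.1 q.part ((hc c).sub hac)
    rw [show MKS.pinch q.q (MKS.pinch c.q x - a) = MKS.pinch q.q (MKS.pinch c.q x) - MKS.pinch q.q a from
      pinch_sub _ _ _, hcq] at h1
    rw [← sub_sub_sub_cancel_left a (MKS.pinch q.q a) (MKS.pinch c.q x), sub_eq_add_neg]
    refine (n2_add_le hτ he ((hc c).sub hac)
      ((hc c).sub (show Cor M e (MKS.pinch q.q a) from
        cor_pinch hτ he hA.1 q.part hac.1)).neg).trans ?_
    rw [n2_neg hτ he]
    linarith
  have haA : a ∈ A := by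
    refine hA.2.2 a hac.1 fun z hz => commute_of_proj hA.2.1 (fun p hp => ?_) hz
    set q := p * e with hqdef
    have hq : IsPr A q := isPr_mul hA.2.1 hp ⟨heA, he⟩
    have hqe : q * e = q := by rw [hqdef, mul_assoc, he.isIdempotentElem.eq]
    have heq : e * q = q := by rw [hA.2.1 e heA q hq.1, hqe]
    have hq' : IsPr A (e - q) := isPr_sub hA.2.1 hq ⟨heA, he⟩ hqe
    have hP : IsPartition A e ![q, e - q] := by
      refine ⟨fun i => by fin_cases i <;> simp [hq.1, hq.2, hq'.1, hq'.2], fun i j hij => ?_,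
        by simp [Fin.sum_univ_two]⟩
      fin_cases i <;> fin_cases j <;> first
        | exact absurd rfl hij
        | simp [mul_sub, sub_mul, hq.2.isIdempotentElem.eq, hqe, heq]
    have h : q * a * q + (e - q) * a * (e - q) = a := by
      simpa [MKS.pinch, Fin.sum_univ_two] using hfix ⟨2, _, hP⟩
    have h0 : q * (e - q) = 0 := by rw [mul_sub, hqe, hq.2.isIdempotentElem.eq, sub_self]
    have h0' : (e - q) * q = 0 := by rw [sub_mul, heq, hq.2.isIdempotentElem.eq, sub_self]
    have h1 : q * a = q * a * q := by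
      conv_lhs => rw [← h]
      simp only [mul_add, ← mul_assoc, hq.2.isIdempotentElem.eq, h0, zero_mul, add_zero]
    have h2 : a * q = q * a * q := by
      conv_lhs => rw [← h]
      simp only [add_mul, mul_assoc, hq.2.isIdempotentElem.eq, h0', mul_zero, add_zero]
    calc p * a = q * a := by rw [hqdef, mul_assoc, hac.mul_left he]
      _ = a * q := h1.trans h2.symm
      _ = a * p := by rw [hqdef, hA.2.1 p hp.1 e heA, ← mul_assoc, hac.mul_right he]
  refine ⟨a, haA, hac, han.trans (by linarith [norm_nonneg x]), Metric.tendsto_nhds.2 fun η hη => ?_⟩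
  filter_upwards [hev (η / 2) (half_pos hη)] with c hcη
  rw [Real.dist_eq, sub_zero, abs_of_nonneg (n2_nonneg _)]
  linarith

end Vale.Agent.P078.Orth
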