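import Vale.Agent.P078.Orth.Basic
import Vale.Agent.P078.Orth.DiagLimit
import Vale.Agent.P078.MKS.TwoSided.EndCut
import Vale.Agent.P078.MKS.Assembly.Approx

/-!
The nearest point in the algebra of the normaliser: the difference is orthogonal to the normaliser.
-/

namespace Vale.Agent.P078.Orth

namespace Split

open Filter Topology MKS Singular

variable {H : Type} [NormedAddCommGroup H] [InnerProductSpace ℂ H] [CompleteSpace H]
variable {M A : VonNeumannAlgebra H} {e : H →L[ℂ] H} {τ : (H →L[ℂ] H) →ₗ[ℂ] ℂ}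

theorem commute_excess {T X : H →L[ℂ] H} (h : T * X = X * T) (u : ℝ) :
    T * excess u X = excess u X * T :=
  ((show Commute X T from h.symm).cfc_real _).eq.symm

/-- Clipping at `±ρ` does not increase the distance to an operator with norm at most `ρ`. -/
theorem clip (heM : e ∈ M) (he : IsStarProjection e) (hτ : IsTrace M e τ) {x y : H →L[ℂ] H}
    (hx : Cor M e x) (hxs : IsSelfAdjoint x) (hy : Cor M e y) (hys : IsSelfAdjoint y) {ρ : ℝ}
    (hρ : 0 < ρ) (hxn : ‖x‖ ≤ ρ) :
    ∃ w, Cor M e w ∧ IsSelfAdjoint w ∧ ‖w‖ ≤ ρ ∧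
      (∀ T : H →L[ℂ] H, T * y = y * T → T * w = w * T) ∧ n2 τ (x - w) ≤ n2 τ (x - y) := by
  set g := excess ρ y with hg
  set h := excess ρ (-y) with hh
  set w := y - g + h with hw
  have hgs : IsSelfAdjoint g := isSelfAdjoint_excess _ _
  have hhs : IsSelfAdjoint h := isSelfAdjoint_excess _ _
  have hgc : Cor M e g := cor_excess he hy hρ hys
  have hhc : Cor M e h := cor_excess he hy.neg hρ hys.neg
  have hwc : Cor M e w := (hy.sub hgc).add hhc
  have hws : IsSelfAdjoint w := (hys.sub hgs).add hhs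
  have hg' : g = cfc (fun t : ℝ => max (t - ρ) 0) y := rfl
  have hh' : h = cfc (fun t : ℝ => max (-t - ρ) 0) y := by
    rw [hh, excess, ← cfc_comp_neg (fun t : ℝ => max (t - ρ) 0) y]
  have hwf : w = cfc (fun t : ℝ => max (-ρ) (min t ρ)) y := by
    rw [hw, hh', hg, (le_add_excess hys ρ).1,
      ← cfc_add y (fun t : ℝ => min t ρ) (fun t : ℝ => max (-t - ρ) 0)]
    refine cfc_congr fun t _ => ?_
    rcases le_total t ρ with h1 | h1
    · rcases le_total t (-ρ) with h2 | h2
      · rw [min_eq_left h1, max_eq_left h2, max_eq_left (by linarith : (0:ℝ) ≤ -t - ρ)]; ring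
      · rw [min_eq_left h1, max_eq_right h2, max_eq_right (by linarith : -t - ρ ≤ (0:ℝ))]; ring
    · rw [min_eq_right h1, max_eq_right (by linarith : -ρ ≤ ρ),
        max_eq_right (by linarith : -t - ρ ≤ (0:ℝ))]
      ring
  have hwg : w * g = ρ • g := by
    rw [hwf, hg', ← cfc_mul _ _ y, ← cfc_smul _ _ y]
    refine cfc_congr fun t _ => ?_
    rcases le_total t ρ with h1 | h1
    · simp [h1]
    · rw [min_eq_right h1, max_eq_right (by linarith : -ρ ≤ ρ), smul_eq_mul]
  have hwh : w * h = (-ρ) • h := by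
    rw [hwf, hh', ← cfc_mul _ _ y, ← cfc_smul _ _ y]
    refine cfc_congr fun t _ => ?_
    rcases le_total t (-ρ) with h1 | h1
    · rw [min_eq_left (by linarith : t ≤ ρ), max_eq_left h1, smul_eq_mul]
    · rw [max_eq_right (by linarith : -t - ρ ≤ (0:ℝ)), mul_zero, smul_zero]
  refine ⟨w, hwc, hws, ?_, fun T hT => ?_, ?_⟩
  · rw [hwf]
    refine norm_cfc_le hρ.le fun t _ => ?_
    rw [Real.norm_eq_abs]
    exact abs_le.2 ⟨le_max_left _ _, max_le (by linarith) (min_le_right _ _)⟩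
  · rw [hw, mul_add, mul_sub, add_mul, sub_mul, hT, commute_excess hT ρ,
      commute_excess (show T * -y = -y * T by rw [mul_neg, neg_mul, hT]) ρ]
  · obtain ⟨hb1, hb2⟩ := bounds_of_norm_le hxs hxn
    obtain ⟨h1, h2⟩ := conj_bounds he hb1 hb2
    rw [hx.2] at h1 h2
    have hP : Cor M e (ρ • e - x) := ((cor_proj heM he).rsmul ρ).sub hx
    have hQ : Cor M e (ρ • e + x) := ((cor_proj heM he).rsmul ρ).add hx
    have p1 := tr_mul_nonneg hτ he hP hgc (sub_nonneg.2 h2)
      (cfc_nonneg fun t _ => le_max_right _ _)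
    have p2 := tr_mul_nonneg hτ he hQ hhc
      (by have := sub_nonneg.2 h1; rwa [neg_smul, sub_neg_eq_add, add_comm] at this)
      (cfc_nonneg fun t _ => le_max_right _ _)
    have e1 : (w - x) * (g - h) = (ρ • e - x) * g + (ρ • e + x) * h := by
      rw [mul_sub, sub_mul, sub_mul, hwg, hwh, sub_mul, add_mul, smul_mul_assoc, smul_mul_assoc,
        hgc.mul_left he, hhc.mul_left he, neg_smul]
      abel
    have hcross : 0 ≤ (τ (star (w - x) * (g - h))).re := by
      rw [(hws.sub hxs).star_eq, e1, map_add, Complex.add_re]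
      linarith
    have e2 : y - x = (w - x) + (g - h) := by rw [hw]; abel
    refine (sq_le_sq₀ (n2_nonneg _) (n2_nonneg _)).1 ?_
    have hc1 : Cor M e (w - x) := hwc.sub hx
    have hc2 : Cor M e (g - h) := hgc.sub hhc
    rw [← n2_neg hτ he (x - w), ← n2_neg hτ he (x - y), neg_sub, neg_sub, e2,
      n2_sq hτ he (hc1.add hc2), n2_sq hτ he hc1]
    simp only [star_add, add_mul, mul_add, map_add, Complex.add_re, re_comm hτ he hc1 hc2]
    have := (hτ.1 _ hc2.1 hc2.2).1
    linarith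

/-- Minimality along all self-adjoint directions gives orthogonality. -/
theorem perp_of_min (hA : IsMASA M A) (heA : e ∈ A) (he : IsStarProjection e)
    (hτ : IsTrace M e τ) {m : H →L[ℂ] H} (hm : Cor M e m) (hms : IsSelfAdjoint m)
    (hmin : ∀ a ∈ normSpan M A e, IsSelfAdjoint a → ∀ t : ℝ, n2 τ m ≤ n2 τ (m - t • a)) :
    Perp M A e τ m := by
  have key : ∀ a ∈ normSpan M A e, IsSelfAdjoint a → τ (a * m) = 0 := by
    intro a ha has
    have hac := normSpan_cor hA ha
    refine Complex.ext ?_ ?_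
    · set r := (τ (a * m)).re with hr
      obtain ⟨Q, hQ⟩ : ∃ Q, Q = (τ (star a * a)).re := ⟨_, rfl⟩
      have hQ0 : 0 ≤ Q := hQ ▸ (hτ.1 a hac.1 hac.2).1
      rw [has.star_eq] at hQ
      have h := pow_le_pow_left₀ (n2_nonneg _) (hmin a ha has (r / (Q + 1))) 2
      rw [n2_sq hτ he hm, n2_sq hτ he (hm.sub (hac.rsmul _))] at h
      have hc := re_comm hτ he hac hm
      rw [has.star_eq, ← hr] at hc
      simp only [star_sub, star_smul, star_trivial, sub_mul, mul_sub, smul_mul_assoc,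
        mul_smul_comm, map_sub, Complex.sub_re, tr_rsmul, has.star_eq] at h
      rw [hc, ← hr, ← hQ] at h
      have h3 : r / (Q + 1) * r * 2 ≤ r / (Q + 1) * (r / (Q + 1)) * (Q + 1) := by
        nlinarith [mul_self_nonneg (r / (Q + 1))]
      rw [show r / (Q + 1) * (r / (Q + 1)) * (Q + 1) = r / (Q + 1) * r by field_simp] at h3
      rw [Complex.zero_re]
      have h4 : r / (Q + 1) * r = r * r / (Q + 1) := by ring
      have h5 : r * r / (Q + 1) ≤ 0 := by linarith
      rw [div_le_iff₀ (by linarith), zero_mul] at h5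
      exact mul_self_eq_zero.1 (le_antisymm h5 (mul_self_nonneg r))
    · have h := tr_star he hτ (hA.1 e heA) (hac.mul he hm)
      rw [star_mul, has.star_eq, hms.star_eq, hτ.2.2.1 m hm.1 a hac.1 hm.2 hac.2] at h
      have := congrArg Complex.im h
      rw [Complex.star_def, Complex.conj_im] at this
      rw [Complex.zero_im]
      linarith
  refine ⟨hm, fun z hz => ?_⟩
  have hzs := normSpan_star' hA heA he hz
  have h1 := key (z + star z) (add_mem hz hzs) (IsSelfAdjoint.add_star_self z)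
  have h2 := key (Complex.I • (z - star z)) (Submodule.smul_mem _ _ (sub_mem hz hzs))
    (by simp [IsSelfAdjoint, star_smul, smul_sub, neg_add_eq_sub])
  rw [add_mul, map_add] at h1
  rw [smul_mul_assoc, map_smul, sub_mul, map_sub, smul_eq_mul, mul_eq_zero] at h2
  linear_combination (1/2 : ℂ) * h1 - (1/2 : ℂ) * h2.resolve_left Complex.I_ne_zero

end Split

open Split DiagLimit MKS Filter Topology Singular in
/-- The nearest point of the ball of the algebra of the normaliser. -/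
theorem split_ok : SplitStatement := by
  intro H _ _ _ M A e τ hA heA he hτ x hx hxs
  have heM := hA.1 e heA
  set N : Set (H →L[ℂ] H) := Set.centralizer (Set.centralizer (normStar hA : Set (H →L[ℂ] H)))
    with hN
  rcases eq_or_lt_of_le (norm_nonneg x) with h0 | hρ
  · have hx0 : x = 0 := norm_le_zero_iff.1 h0.ge
    refine ⟨0, Cor.zero, IsSelfAdjoint.zero _, by simp, fun T _ => by simp, ?_⟩
    rw [hx0, sub_zero]
    exact perp_zero
  set S : Set (H →L[ℂ] H) := {y | Cor M e y ∧ IsSelfAdjoint y ∧ ‖y‖ ≤ ‖x‖ ∧ y ∈ N}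
  have hS0 : (0 : H →L[ℂ] H) ∈ S :=
    ⟨Cor.zero, IsSelfAdjoint.zero _, by simp, fun T _ => by simp⟩
  set f : (H →L[ℂ] H) → ℝ := fun y => n2 τ (x - y) with hfdef
  have hne : (f '' S).Nonempty := ⟨_, 0, hS0, rfl⟩
  have hbdd : BddBelow (f '' S) := ⟨0, by rintro _ ⟨c, -, rfl⟩; exact n2_nonneg _⟩
  set d := sInf (f '' S)
  have hd : ∀ y ∈ S, d ≤ f y := fun y hy => csInf_le hbdd ⟨y, hy, rfl⟩
  have hd0 : 0 ≤ d := le_csInf hne (by rintro _ ⟨c, -, rfl⟩; exact n2_nonneg _)
  have hex : ∀ n : ℕ, ∃ y ∈ S, f y < d + 1 / (n + 1) := fun n => by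
    obtain ⟨_, ⟨c, hc, rfl⟩, h⟩ := exists_lt_of_csInf_lt hne
      (lt_add_of_pos_right d (show (0 : ℝ) < 1 / (n + 1) by positivity))
    exact ⟨c, hc, h⟩
  choose Y hYS hYf using hex
  have hcau : ∀ η : ℝ, 0 < η → ∃ K, ∀ i ≥ K, ∀ j ≥ K, n2 τ (Y i - Y j) ≤ η := by
    intro η hη
    obtain ⟨K, hK⟩ := exists_nat_gt (4 * (2 * d + 1) / η ^ 2)
    rw [div_lt_iff₀ (by positivity)] at hK
    have hb : ∀ i ≥ K, f (Y i) ^ 2 ≤ d ^ 2 + η ^ 2 / 4 := fun i hi => by
      refine (pow_le_pow_left₀ (n2_nonneg _) (hYf i).le 2).trans ?_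
      have h3 : (1 : ℝ) / (i + 1) ≤ 1 := by rw [div_le_one (by positivity)]; simp
      have h4 : 4 * (2 * d + 1) * (1 / ((i : ℝ) + 1)) ≤ η ^ 2 := by
        rw [mul_one_div, div_le_iff₀ (by positivity)]
        nlinarith [(Nat.cast_le (α := ℝ)).2 hi, sq_nonneg η]
      have h5 : (0 : ℝ) ≤ 1 / (i + 1) := by positivity
      nlinarith
    refine ⟨K, fun i hi j hj => le_of_sq_le_sq ?_ hη.le⟩
    have hmid : (2⁻¹ : ℝ) • (Y i + Y j) ∈ S := by
      obtain ⟨a1, a2, a3, a4⟩ := hYS i
      obtain ⟨b1, b2, b3, b4⟩ := hYS j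
      refine ⟨(a1.add b1).rsmul _, (IsSelfAdjoint.all _).smul (a2.add b2), ?_, fun T hT => ?_⟩
      · rw [norm_smul, Real.norm_of_nonneg (by norm_num)]
        linarith [norm_add_le (Y i) (Y j)]
      · rw [mul_smul_comm, smul_mul_assoc, mul_add, add_mul, a4 T hT, b4 T hT]
    have hp := parallelogram he hτ (hx.sub (hYS i).1) (hx.sub (hYS j).1)
    have hm := pow_le_pow_left₀ hd0 (hd _ hmid) 2
    have e1 : x - Y i + (x - Y j) = (2 : ℝ) • (x - (2⁻¹ : ℝ) • (Y i + Y j)) := by
      rw [smul_sub, smul_smul, mul_inv_cancel₀ (two_ne_zero' ℝ), one_smul, two_smul]; abel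
    have e2 : x - Y i - (x - Y j) = -(Y i - Y j) := by abel
    rw [e1, e2, n2_rsmul hτ he two_pos.le, n2_neg hτ he, mul_pow] at hp
    have := hb i hi
    have := hb j hj
    simp only [hfdef] at *
    linarith
  obtain ⟨L, hLc, hLn, hlim⟩ := complete_ok H M e τ heM he hτ Y ‖x‖
    (fun n => ⟨(hYS n).1, (hYS n).2.2.1⟩) hcau
  have hLs : IsSelfAdjoint L := by
    refine sub_eq_zero.1 (tr_eq_n2 he hτ ((hLc.star' he).sub hLc) ?_)
    refine le_antisymm (ge_of_tendsto' (x := atTop)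
      (f := fun n => n2 τ (Y n - L) + n2 τ (Y n - L)) (by simpa using hlim.add hlim) fun n => ?_)
      (n2_nonneg _)
    have hc : Cor M e (Y n - L) := (hYS n).1.sub hLc
    have e3 : star L - L = -star (Y n - L) + (Y n - L) := by
      rw [star_sub, (hYS n).2.1.star_eq]; abel
    rw [e3]
    refine (n2_add_le hτ he (hc.star' he).neg hc).trans ?_
    rw [n2_neg hτ he, n2_star hτ he hc]
  have hpt : ∀ v, Tendsto (fun n => Y n v) atTop (𝓝 (L v)) := fun v => by
    refine Metric.tendsto_atTop.2 fun δ hδ => ?_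
    obtain ⟨η, hη, hsm⟩ := Complete.exists_small heM he hτ
      (show (0 : ℝ) < 2 * ‖x‖ by linarith) v hδ
    obtain ⟨K, hK⟩ := Metric.tendsto_atTop.1 hlim η hη
    refine ⟨K, fun n hn => ?_⟩
    rw [dist_eq_norm]
    refine hsm _ ((hYS n).1.sub hLc) ((norm_sub_le _ _).trans (by linarith [(hYS n).2.2.1])) ?_
    have := hK n hn
    rw [Real.dist_eq, sub_zero, abs_of_nonneg (n2_nonneg _)] at this
    exact this.le
  have hLN : L ∈ N := fun T hT => by
    ext v
    refine tendsto_nhds_unique ((T.continuous.tendsto _).comp (hpt v))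
      ((hpt (T v)).congr fun n => ?_)
    exact (DFunLike.congr_fun ((hYS n).2.2.2 T hT) v).symm
  refine ⟨L, hLc, hLs, hLn, hLN, ?_⟩
  have hdL : n2 τ (x - L) ≤ d := by
    have h1 : Tendsto (fun n : ℕ => d + 1 / ((n : ℝ) + 1) + n2 τ (Y n - L)) atTop (𝓝 d) := by
      simpa using (tendsto_one_div_add_atTop_nhds_zero_nat.const_add d).add hlim
    refine ge_of_tendsto' h1 fun n => ?_
    rw [← sub_add_sub_cancel x (Y n) L]
    exact (n2_add_le hτ he (hx.sub (hYS n).1) ((hYS n).1.sub hLc)).trans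
      (by linarith [hYf n])
  refine perp_of_min hA heA he hτ (hx.sub hLc) (hxs.sub hLs) fun a ha has t => ?_
  have hac := normSpan_cor hA ha
  obtain ⟨w, hw1, hw2, hw3, hw4, hw5⟩ := clip heM he hτ hx hxs (hLc.add (hac.rsmul t))
    (hLs.add ((IsSelfAdjoint.all t).smul has)) hρ le_rfl
  have haN : a ∈ N := Set.subset_centralizer_centralizer
    (show a ∈ (normStar hA : Set (H →L[ℂ] H)) from normSpan_to_one ha)
  have hwS : w ∈ S := ⟨hw1, hw2, hw3, fun T hT => hw4 T (by
    rw [mul_add, add_mul, mul_smul_comm, smul_mul_assoc, hLN T hT, haN T hT])⟩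
  rw [show x - L - t • a = x - (L + t • a) by abel]
  exact hdL.trans ((hd w hwS).trans hw5)

end Vale.Agent.P078.Orth
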