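import Vale.Agent.P078.Orth.Assembly
import Vale.Agent.P078.Orth.Split
import Vale.Agent.P078.Orth.Random.Defs
import Vale.Agent.P078.Orth.Avg
import Vale.Agent.P078.MKS.Kaplansky
import Vale.Agent.P078.MKS.Trace
import Vale.Agent.P078.MKS.Cells

/-!
So-paving of every self-adjoint operator with `O(ε⁻²)` pieces: one random partition paves the part
in the algebra of the normaliser for every outcome, and the orthogonal part for some outcome.
-/

namespace Vale.Agent.P078.Orth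

open MKS Singular Filter

variable {H : Type} [NormedAddCommGroup H] [InnerProductSpace ℂ H] [CompleteSpace H]
variable {M A : VonNeumannAlgebra H}

/-- So-paving with `C ε⁻²` pieces of every self-adjoint operator of `M` in the corner at a
projection of the MASA which traces on smaller corners fill up. -/
def AllPavingSqStatement : Prop :=
  ∃ C : ℕ, ∀ (H : Type) [NormedAddCommGroup H] [InnerProductSpace ℂ H] [CompleteSpace H]
    (M A : VonNeumannAlgebra H), IsMASA M A → ∀ p ∈ A, IsStarProjection p →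
    (∀ (F : Finset H) (δ : ℝ), 0 < δ → ∃ (e : H →L[ℂ] H) (τ : (H →L[ℂ] H) →ₗ[ℂ] ℂ),
      e ∈ A ∧ IsStarProjection e ∧ e * p = e ∧ IsTrace M e τ ∧ ∀ ξ ∈ F, ‖(p - e) ξ‖ < δ) →
    ∀ x ∈ M, IsSelfAdjoint x → ∀ (ε : ℝ) (r : ℕ), 0 < ε → ε < 1 → (C : ℝ) ≤ ε ^ 2 * r →
      SoPavable M A p x ε r

/-- A contraction of the algebra of the normaliser is, up to a small 2-norm, an element of `A`
plus twice a contraction of the normaliser span with zero diagonal. -/
theorem split_diag (hK : KaplanskyStatement) (hT : TraceStatement) (hD : DiagonalStatement)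
    (hA : IsMASA M A) {e : H →L[ℂ] H} {τ : (H →L[ℂ] H) →ₗ[ℂ] ℂ} (heA : e ∈ A)
    (he : IsStarProjection e) (hτ : IsTrace M e τ) {y : H →L[ℂ] H} (hy : Cor M e y)
    (hys : IsSelfAdjoint y) (hyn : ‖y‖ ≤ 1)
    (hyb : y ∈ Set.centralizer (Set.centralizer (normStar hA : Set (H →L[ℂ] H))))
    {η : ℝ} (hη : 0 < η) :
    ∃ (a w : H →L[ℂ] H) (n : ℕ) (E : Fin n → (H →L[ℂ] H)),
      a ∈ A ∧ IsSelfAdjoint a ∧ Cor M e a ∧ ‖a‖ ≤ 1 ∧
      w ∈ normSpan M A e ∧ IsSelfAdjoint w ∧ (-1 : ℝ) • e ≤ w ∧ w ≤ e ∧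
      IsPartition A e E ∧ (∀ i, E i * w * E i = 0) ∧ n2 τ (y - ((2 : ℝ) • w + a)) ≤ η := by
  obtain ⟨b1, b2⟩ := bounds_of_norm_le hys hyn
  obtain ⟨y₀, hy₀m, hy₀s, hy₀l, hy₀u, hy₀x⟩ :=
    approx hK hT hA heA he hτ hy hys hyb zero_le_one le_rfl hη b1 b2
  have hy₀c : Cor M e y₀ := normSpan_cor hA hy₀m
  obtain ⟨n, E, hE, hEy⟩ := hD H M A hA e heA he y₀ hy₀m
  set a := MKS.pinch E y₀ with hadef
  have haA : a ∈ A := sum_mem fun i _ => hEy i
  have hac : Cor M e a := cor_pinch hτ he hA.1 hE hy₀c.1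
  have has : IsSelfAdjoint a := pinch_selfAdjoint' hE hy₀s
  have han : ‖a‖ ≤ 1 := norm_le_one he has le_rfl (pinch_bounds hE hy₀l hy₀u).1
    (pinch_bounds hE hy₀l hy₀u).2
  set w := (1 / 2 : ℝ) • (y₀ - a) with hwdef
  have hwm : w ∈ normSpan M A e :=
    Submodule.smul_of_tower_mem _ _ (sub_mem hy₀m (pinch_mem_normSpan hA hE hy₀m))
  have hws : IsSelfAdjoint w := (IsSelfAdjoint.all _).smul (hy₀s.sub has)
  have hwn : ‖w‖ ≤ 1 := by
    rw [hwdef, norm_smul, Real.norm_of_nonneg (by norm_num : (0 : ℝ) ≤ 1 / 2)]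
    have h1 := norm_le_one he hy₀s le_rfl hy₀l hy₀u
    have h2 := norm_sub_le y₀ a
    linarith
  obtain ⟨c1, c2⟩ := bounds_of_norm_le hws hwn
  obtain ⟨d1, d2⟩ := conj_bounds he c1 c2
  rw [(normSpan_cor hA hwm).2] at d1 d2
  rw [one_smul] at d2
  refine ⟨a, w, n, E, haA, has, hac, han, hwm, hws, d1, d2, hE, fun i => ?_, ?_⟩
  · rw [hwdef, mul_smul_comm, smul_mul_assoc, mul_sub, sub_mul, hadef, piece_pinch hE, sub_self,
      smul_zero]
  · rw [hwdef, smul_smul, show (2 : ℝ) * (1 / 2) = 1 by norm_num, one_smul, sub_add_cancel,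
      ← neg_sub, n2_neg hτ he]
    exact hy₀x

/-- The stage for an arbitrary operator: both parts by one random partition. -/
theorem mixed_stage_sq (hK : KaplanskyStatement) (hT : TraceStatement) (hD : DiagonalStatement)
    (hR : RandomTwoSidedStatement) (hS : SplitStatement) (hN : GeneralNoiseStatement)
    (hA : IsMASA M A) {e : H →L[ℂ] H} {τ : (H →L[ℂ] H) →ₗ[ℂ] ℂ} (heA : e ∈ A)
    (he : IsStarProjection e) (hτ : IsTrace M e τ) {z : H →L[ℂ] H} (hz : Cor M e z)
    (hzs : IsSelfAdjoint z) (hzn : ‖z‖ ≤ 1) {ε η : ℝ} {r : ℕ} (hε : 0 < ε) (hε1 : ε < 1)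
    (hη : 0 < η) (hr : (1200 : ℝ) ≤ ε ^ 2 * r) :
    Stage M A e τ z ε η r := by
  classical
  obtain ⟨y, hyc, hys, hyn, hyb, hm⟩ := hS H M A e τ hA heA he hτ z hz hzs
  have hms : IsSelfAdjoint (z - y) := hzs.sub hys
  have hmn : ‖z - y‖ ≤ 2 := (norm_sub_le _ _).trans (by linarith [hyn.trans hzn])
  obtain ⟨a, w, n, E, haA, has, hac, han, hwm, hws, hwl, hwu, hE, hEw, hyw⟩ :=
    split_diag hK hT hD hA heA he hτ hyc hys (hyn.trans hzn) hyb
      (show 0 < η / 4 by positivity)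
  have hr0 : (0 : ℝ) < r := pos_of_mul_pos_right (lt_of_lt_of_le (by norm_num) hr) (sq_nonneg ε)
  have hb : 1 < 32 / ε := by rw [lt_div_iff₀ hε]; linarith
  have hedge : edge (-1) 0 (32 / ε) r < ε / 16 := by
    rw [edge_first' hb, one_div_div]
    have h1 : 32 / ε / (r : ℝ) < ε / 32 := by
      rw [div_div, div_lt_div_iff₀ (by positivity) (by norm_num)]
      nlinarith
    linarith
  obtain ⟨L, hL, μ, P, hμ0, hμ1, hP, hfield, hmean, hout⟩ :=
    hR H M A e τ hA heA he hτ w hwm hws hwl hwu n E hE hEw r (32 / ε) (ε / 16) ((η / 8) ^ 2)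
      (Nat.cast_pos.1 hr0) hb hedge (by positivity)
  have hu : 2 * Real.sqrt (6 / r) * ‖z - y‖ < 3 * ε / 8 := by
    have h1 : Real.sqrt (6 / r) ≤ ε / 14 := by
      rw [Real.sqrt_le_left (by positivity), div_pow, div_le_div_iff₀ hr0 (by norm_num)]
      nlinarith
    calc 2 * Real.sqrt (6 / r) * ‖z - y‖ ≤ 2 * (ε / 14) * 2 :=
          mul_le_mul (by linarith) hmn (norm_nonneg _) (by positivity)
      _ < 3 * ε / 8 := by linarith
  have := fine_neBot hA heA he
  obtain ⟨c, hc⟩ := (hN H M A e τ hA heA he hτ L μ hμ0 hμ1 r (6 / r) P (by positivity) hP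
    hfield (Eventually.of_forall hmean) (z - y) hm hms (3 * ε / 8) ((η / 4) ^ 2) hu
    (by positivity)).exists
  have hu0 : (0 : ℝ) < 3 * ε / 8 := by positivity
  set f : (Fin c.n → L) → ℝ := fun ω =>
    (τ (excess (3 * ε / 8) (MKS.pinch (P c ω) (z - y)) *
      excess (3 * ε / 8) (MKS.pinch (P c ω) (z - y)))).re +
    (τ (excess (3 * ε / 8) (-MKS.pinch (P c ω) (z - y)) *
      excess (3 * ε / 8) (-MKS.pinch (P c ω) (z - y)))).re
  obtain ⟨ω, hω⟩ : ∃ ω, f ω ≤ (η / 4) ^ 2 := by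
    by_contra hcon
    simp only [not_exists, not_le] at hcon
    have S : Setting M A e τ μ := ⟨hA, heA, he, hτ, hμ0, hμ1⟩
    have h1 : (η / 4) ^ 2 < avg μ f := by
      rw [avg_eq]
      calc (η / 4) ^ 2 = ∑ ω : Fin c.n → L, Orth.wt μ ω * (η / 4) ^ 2 := by
            rw [← Finset.sum_mul, sum_wt S, one_mul]
        _ < _ := by
            refine Finset.sum_lt_sum (fun ω _ => ?_) ?_
            · exact mul_le_mul_of_nonneg_left (hcon ω).le (wt_nonneg S ω)
            · obtain ⟨ω, hω, hne⟩ := Finset.exists_ne_zero_of_sum_ne_zero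
                (by rw [sum_wt S]; exact one_ne_zero :
                  ∑ ω : Fin c.n → L, Orth.wt μ ω ≠ 0)
              exact ⟨ω, hω, mul_lt_mul_of_pos_left (hcon ω)
                (lt_of_le_of_ne (wt_nonneg S ω) (Ne.symm hne))⟩
    exact absurd hc (not_le.2 h1)
  set Q := P c ω with hQdef
  have hQ : IsPartition A e Q := hP c ω
  have hwc : Cor M e w := normSpan_cor hA hwm
  set S := MKS.pinch Q w with hSdef
  set T := MKS.pinch Q (z - y) with hTdef
  set err := MKS.pinch Q (y - ((2 : ℝ) • w + a)) with herrdef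
  have hSc : Cor M e S := cor_pinch hτ he hA.1 hQ hwc.1
  have hSs : IsSelfAdjoint S := pinch_selfAdjoint' hQ hws
  have hTc : Cor M e T := cor_pinch hτ he hA.1 hQ hm.1.1
  have hTs : IsSelfAdjoint T := pinch_selfAdjoint' hQ hms
  have hd : Cor M e (y - ((2 : ℝ) • w + a)) := hyc.sub ((hwc.rsmul 2).add hac)
  have herrc : Cor M e err := cor_pinch hτ he hA.1 hQ hd.1
  have herrn : n2 τ err ≤ η / 4 := (n2_pinch_le hτ he hA.1 hQ hd).trans hyw
  have hu1 : (0 : ℝ) < 3 * (ε / 16) := by positivity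
  have hS₁ := cor_excess he hSc hu1 hSs
  have hS₂ := cor_excess he hSc.neg hu1 hSs.neg
  have hT₁ := cor_excess he hTc hu0 hTs
  have hT₂ := cor_excess he hTc.neg hu0 hTs.neg
  have hW : MKS.pinch Q z - a = (2 : ℝ) • S + T + err := by
    have e1 : MKS.pinch Q z = MKS.pinch Q ((2 : ℝ) • w) + MKS.pinch Q a + err + T := by
      rw [herrdef, hTdef, ← MKS.pinch_add, ← MKS.pinch_add, ← MKS.pinch_add]
      congr 1
      abel
    rw [e1, MKS.pinch_smul, pinch_fix hA hQ haA (hac.mul_right he)]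
    abel
  have hTn : ∀ g : H →L[ℂ] H, Cor M e g → IsSelfAdjoint g →
      (τ (g * g)).re ≤ (η / 4) ^ 2 → n2 τ g ≤ η / 4 := fun g _ hgs h => by
    rw [n2, hgs.star_eq]
    exact Real.sqrt_le_iff.2 ⟨by positivity, h⟩
  have hnn : ∀ g : H →L[ℂ] H, Cor M e g → IsSelfAdjoint g → 0 ≤ (τ (g * g)).re := fun g hg hgs => by
    have := (hτ.1 g hg.1 hg.2).1
    rwa [hgs.star_eq] at this
  have hq₁ := hTn _ hT₁ (isSelfAdjoint_excess _ _) (le_trans
    (le_add_of_nonneg_right (hnn _ hT₂ (isSelfAdjoint_excess _ _))) hω)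
  have hq₂ := hTn _ hT₂ (isSelfAdjoint_excess _ _) (le_trans
    (le_add_of_nonneg_left (hnn _ hT₁ (isSelfAdjoint_excess _ _))) hω)
  obtain ⟨hp₁, hp₂⟩ := hout c ω
  have hp₁' : n2 τ (excess (3 * (ε / 16)) S) ≤ η / 8 :=
    tr_excess_le' (by positivity : (0:ℝ) ≤ η / 8) hp₁
  have hp₂' : n2 τ (excess (3 * (ε / 16)) (-S)) ≤ η / 8 :=
    tr_excess_le' (by positivity : (0:ℝ) ≤ η / 8) hp₂
  have he2 : (2 : ℝ) • ((3 * (ε / 16)) • e) + (3 * ε / 8) • e = (3 * ε / 4) • e := by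
    rw [smul_smul, ← add_smul]; congr 1; ring
  refine ⟨r, Q, a, le_rfl, hQ, haA, has, hac, han,
    (2 : ℝ) • excess (3 * (ε / 16)) S + excess (3 * ε / 8) T + err,
    (2 : ℝ) • excess (3 * (ε / 16)) (-S) + excess (3 * ε / 8) (-T) + -err,
    ((hS₁.rsmul 2).add hT₁).add herrc, ((hS₂.rsmul 2).add hT₂).add herrc.neg, ?_, ?_, ?_, ?_⟩
  · rw [hW, ← he2, ← add_assoc]
    refine add_le_add ?_ le_rfl
    rw [add_add_add_comm, ← smul_add]
    exact add_le_add (smul_le_smul_of_nonneg_left (le_smul_add_excess he hSc hSs hu1) two_pos.le)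
      (le_smul_add_excess he hTc hTs hu0)
  · rw [hW, ← he2, ← add_assoc, neg_add, neg_add, ← smul_neg]
    refine add_le_add ?_ le_rfl
    rw [add_add_add_comm, ← smul_add]
    exact add_le_add
      (smul_le_smul_of_nonneg_left (le_smul_add_excess he hSc.neg hSs.neg hu1) two_pos.le)
      (le_smul_add_excess he hTc.neg hTs.neg hu0)
  · refine (n2_add_le hτ he ((hS₁.rsmul 2).add hT₁) herrc).trans ?_
    refine (add_le_add (n2_add_le hτ he (hS₁.rsmul 2) hT₁) le_rfl).trans ?_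
    rw [n2_rsmul hτ he two_pos.le]
    linarith
  · refine (n2_add_le hτ he ((hS₂.rsmul 2).add hT₂) herrc.neg).trans ?_
    refine (add_le_add (n2_add_le hτ he (hS₂.rsmul 2) hT₂) le_rfl).trans ?_
    rw [n2_rsmul hτ he two_pos.le, n2_neg hτ he]
    linarith

/-- So-paving with `O(ε⁻²)` pieces from the statements of the steps. -/
theorem all_paving_sq_of (hK : KaplanskyStatement) (hT : TraceStatement) (hD : DiagonalStatement)
    (hR : RandomTwoSidedStatement) (hS : SplitStatement) (hN : GeneralNoiseStatement) :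
    AllPavingSqStatement := by
  refine ⟨1200, fun H _ _ _ M A hA p hpA hpp htr x hxM hx ε r hε hε1 hr => ?_⟩
  push_cast at hr
  have hr0 : 0 < r := Nat.pos_of_ne_zero fun h => by subst h; norm_num at hr
  exact soPavable_of_stage hT hA hpA hpp htr hxM hx hε hr0
    fun e τ heA he hτ z hz hzs hzn η hη =>
      mixed_stage_sq hK hT hD hR hS hN hA heA he hτ hz hzs hzn hε hε1 hη hr

/-- So-paving with `O(ε⁻²)` pieces from the two random statements. -/
theorem all_paving_sq (hR : RandomTwoSidedStatement) (hN : GeneralNoiseStatement) :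
    AllPavingSqStatement :=
  all_paving_sq_of kaplansky_ok trace_ok Op.diagonal_ok hR split_ok hN

end Vale.Agent.P078.Orth
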