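import Vale.Agent.P078.Orth.AtomSide

/-!
The atom lemma: operators orthogonal to the normaliser of a MASA have no atoms (`atom_ok`).
-/

namespace Vale.Agent.P078.Orth.Atom

open Filter Topology MKS Singular

variable {H : Type} [NormedAddCommGroup H] [InnerProductSpace ℂ H] [CompleteSpace H]
variable {M A : VonNeumannAlgebra H} {e : H →L[ℂ] H} {τ : (H →L[ℂ] H) →ₗ[ℂ] ℂ}
variable (hA : IsMASA M A) (he : IsPr A e) (hτ : IsTrace M e τ)
include hA he hτ

/-- Operators orthogonal to `A` times the normaliser are orthogonal to every operator which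
conjugates `A` into itself from both sides. -/
theorem perp_two_sided {m v : H →L[ℂ] H} (hm : Perp M A e τ m) (hv : Cor M e v)
    (h1 : ∀ a ∈ A, v * a * star v ∈ A) (h2 : ∀ a ∈ A, star v * a * v ∈ A) :
    τ (star v * m) = 0 := by
  refine norm_le_zero_iff.1 (le_of_forall_gt_imp_ge_of_dense fun ρ hρ => ?_)
  set T := (τ e).re
  have hT : 0 ≤ T := tr_nonneg hτ he.2 (cor_proj (hA.1 e he.1) he.2) he.2.nonneg
  obtain ⟨δ, hδ, hδ'⟩ : ∃ δ : ℝ, 0 < δ ∧ Real.sqrt (δ * T) * n2 τ m ≤ ρ := by
    refine ⟨ρ ^ 2 / ((T + 1) * (n2 τ m + 1) ^ 2),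
      div_pos (pow_pos hρ 2) (mul_pos (by linarith) (pow_pos (by linarith [n2_nonneg (τ := τ) m]) 2)),
      ?_⟩
    have hn := n2_nonneg (τ := τ) m
    calc Real.sqrt (ρ ^ 2 / ((T + 1) * (n2 τ m + 1) ^ 2) * T) * n2 τ m
        ≤ Real.sqrt ((ρ / (n2 τ m + 1)) ^ 2) * n2 τ m := by
          refine mul_le_mul_of_nonneg_right (Real.sqrt_le_sqrt ?_) hn
          rw [div_pow, div_mul_eq_mul_div, div_le_div_iff₀ (by positivity) (by positivity)]
          nlinarith [mul_nonneg (sq_nonneg ρ) (sq_nonneg (n2 τ m + 1))]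
      _ ≤ ρ := by
          rw [Real.sqrt_sq (by positivity), div_mul_eq_mul_div, div_le_iff₀ (by positivity)]
          nlinarith
  set k := star v * v with hkdef
  have hkA : k ∈ A := by
    have := h2 e he.1
    rwa [mul_assoc, hv.mul_left he.2] at this
  have hkc : Cor M e k := (hv.star' he.2).mul he.2 hv
  have hks : IsSelfAdjoint k := IsSelfAdjoint.star_mul_self v
  obtain ⟨hpC, hp, -, hph⟩ := cut_above he.2 hkc hks hδ
  set p := spProj k δ with hpdef
  have hpA : p ∈ A := (isPr_spProj hkA δ).1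
  have hpe : p * e = p := hpC.mul_right he.2
  set g : ℝ → ℝ := fun t => (Real.sqrt (max t δ))⁻¹ with hg
  set r : ℝ → ℝ := fun t => Real.sqrt (max t δ) with hr
  have hr0 : ∀ t, r t ≠ 0 := fun t => (Real.sqrt_pos.2 (lt_max_of_lt_right hδ)).ne'
  have hgc : Continuous g := Continuous.inv₀ (by fun_prop) hr0
  have hrc : Continuous r := by fun_prop
  set h := cfc g k with hhdef
  set c := cfc r k with hcdef
  have hhA : h ∈ A := cfc_mem hkA g
  have hcA : c ∈ A := cfc_mem hkA r
  have hhs : star h = h := (cfc_predicate _ _ : IsSelfAdjoint (cfc g k)).star_eq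
  have hhc : h * c = 1 := by
    rw [hhdef, hcdef, ← cfc_mul g r k hgc.continuousOn hrc.continuousOn, ← cfc_const_one ℝ k]
    exact cfc_congr fun t _ => inv_mul_cancel₀ (hr0 t)
  have hhkh : h * k * h * p = p := by
    set u := cfc (fun t : ℝ => max (δ - t) 0) k
    have hu : u * p = 0 := by
      refine mul_spProj_eq_zero ?_
      rw [← cfc_mul _ _ k]
      conv_rhs => rw [← cfc_const_zero ℝ k]
      refine cfc_congr fun x _ => ?_
      rcases le_total x δ with h' | h' <;> simp [h']
    have hid : h * k * h = 1 - δ⁻¹ • u := by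
      conv_lhs => arg 1; arg 2; rw [← cfc_id' ℝ k]
      rw [hhdef, ← cfc_mul g (fun t : ℝ => t) k hgc.continuousOn (by fun_prop),
        ← cfc_mul (fun t => g t * t) g k (hgc.continuousOn.mul continuousOn_id) hgc.continuousOn,
        ← cfc_smul δ⁻¹ (fun t : ℝ => max (δ - t) 0) k, ← cfc_const_one ℝ k,
        ← cfc_sub _ _ k]
      refine cfc_congr fun t ht => ?_
      have ht0 : 0 ≤ t := spectrum_nonneg_of_nonneg (star_mul_self_nonneg v) ht
      have hsq : Real.sqrt (max t δ) * Real.sqrt (max t δ) = max t δ :=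
        Real.mul_self_sqrt (ht0.trans (le_max_left _ _))
      show (Real.sqrt (max t δ))⁻¹ * t * (Real.sqrt (max t δ))⁻¹ = 1 - δ⁻¹ • max (δ - t) 0
      rw [mul_right_comm, ← mul_inv, hsq, smul_eq_mul]
      rcases le_total t δ with h' | h'
      · rw [max_eq_right h', max_eq_left (sub_nonneg.2 h'), mul_sub, inv_mul_cancel₀ hδ.ne']
        ring
      · rw [max_eq_left h', max_eq_right (by linarith : δ - t ≤ 0),
          inv_mul_cancel₀ (hδ.trans_le h').ne']
        ring
    rw [hid, sub_mul, smul_mul_assoc, hu, smul_zero, sub_zero, one_mul]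
  set w := v * (h * p) with hwdef
  have hhp : h * p ∈ A := mul_mem hhA hpA
  have hsw : star (h * p) = h * p := by
    rw [star_mul, hp.isSelfAdjoint.star_eq, hhs, hA.2.1 p hpA h hhA]
  have hww : star w * w = p := by
    rw [hwdef, star_mul, hsw]
    calc h * p * star v * (v * (h * p)) = h * (p * (k * h)) * p := by simp only [hkdef, mul_assoc]
      _ = h * k * h * (p * p) := by
          rw [hA.2.1 p hpA _ (mul_mem hkA hhA)]
          simp only [mul_assoc]
      _ = p := by rw [hp.isIdempotentElem.eq, hhkh]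
  have hwN : w ∈ normaliser M A := by
    refine ⟨mul_mem hv.1 (hA.1 _ hhp), ?_, fun a ha => ?_⟩
    · rw [mul_assoc, hww, hwdef, mul_assoc, mul_assoc h, hp.isIdempotentElem.eq]
    · rw [hwdef, star_mul, hsw]
      constructor
      · have := h1 _ (mul_mem (mul_mem hhp ha) hhp)
        simpa [mul_assoc] using this
      · have := mul_mem (mul_mem hhp (h2 a ha)) hhp
        simpa [mul_assoc] using this
  have hcp : c * p ∈ A := mul_mem hcA hpA
  have hdec : w * (c * p) * star w * w = v * p := by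
    rw [mul_assoc, hww, hwdef]
    calc v * (h * p) * (c * p) * p = v * (h * (p * c) * (p * p)) := by simp only [mul_assoc]
      _ = v * (h * c * (p * p)) := by
          rw [hA.2.1 p hpA c hcA, hp.isIdempotentElem.eq]
          simp only [mul_assoc, hp.isIdempotentElem.eq]
      _ = v * p := by rw [hhc, hp.isIdempotentElem.eq, one_mul]
  have hvp : Cor M e (v * p) := hv.mul he.2 hpC
  have hmem : v * p ∈ normSpan M A e := Submodule.subset_span
    ⟨hvp.2, w * (c * p) * star w, (hwN.2.2 _ hcp).1, w, hwN, hdec.symm⟩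
  have hq : IsStarProjection (e - p) := sub_proj he.2 hp hpe
  have hqp : (e - p) * p = 0 := by
    rw [sub_mul, hpC.mul_left he.2, hp.isIdempotentElem.eq, sub_self]
  have hd : Cor M e (v - v * p) := hv.sub hvp
  have hn : n2 τ (v - v * p) ≤ Real.sqrt (δ * T) := by
    refine Real.sqrt_le_sqrt ?_
    have e1 : v - v * p = v * (e - p) := by rw [mul_sub, hv.mul_right he.2]
    rw [e1, star_mul, hq.isSelfAdjoint.star_eq,
      show (e - p) * star v * (v * (e - p)) = (e - p) * k * (e - p) by simp only [hkdef, mul_assoc]]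
    have hqc : Cor M e (e - p) := (cor_proj (hA.1 e he.1) he.2).sub hpC
    have h3 := tr_mono hτ he.2 ((hqc.mul he.2 hkc).mul he.2 hqc) (hqc.rsmul δ) (hph _ hq hqp)
    rw [tr_rsmul, map_sub, Complex.sub_re] at h3
    nlinarith [tr_nonneg hτ he.2 hpC hp.nonneg]
  have e2 : τ (star v * m) = τ (star (v - v * p) * m) := by
    rw [star_sub, sub_mul, map_sub, hm.2 _ hmem, sub_zero]
  rw [e2]
  exact (tr_cs hτ he.2 hd hm.1).trans
    ((mul_le_mul_of_nonneg_right hn (n2_nonneg _)).trans hδ')

variable (hC : CompleteStatement) (hD : DiagLimitStatement)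
include hD

theorem exists_dens {m : H →L[ℂ] H} (hm : Cor M e m) : ∃ Φ, Dens M A e τ m Φ := by
  have h : ∀ B, ∃ a, Sub A e B → IsExp M A e τ (star m * B * m) a := fun B => by
    by_cases hB : Sub A e B
    · obtain ⟨a, ha, -⟩ := exists_exp hA he hτ hD
        (((hm.star' he.2).mul he.2 (sub_cor hA he hB)).mul he.2 hm)
      exact ⟨a, fun _ => ha⟩
    · exact ⟨0, fun h => absurd h hB⟩
  choose Φ hΦ using h
  exact ⟨Φ, hm, hΦ⟩

include hC

/-- Orthogonality to the normaliser leaves no mass for the squares of the densities. -/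
theorem exists_small {m : H →L[ℂ] H} (hm : Perp M A e τ m) {Φ : (H →L[ℂ] H) → (H →L[ℂ] H)}
    (hΦ : Dens M A e τ m Φ) {f₀ : ℝ} (hf₀ : 0 < f₀) :
    ∃ c : Cut A e, ∑ i, n2 τ (Φ (c.q i)) ^ 2 < f₀ := by
  by_contra hno
  push Not at hno
  obtain ⟨ζ, c, p, hζ, hζA, hζm, hp, hpn, hlim⟩ := one_side hA he hτ hC hΦ hf₀ hno
  have hζs := hζ.star' he.2
  obtain ⟨Ψ, hΨ⟩ := exists_dens hA he hτ hD hζs
  obtain ⟨a, ha, -⟩ := exists_exp hA he hτ hD (hζs.mul he.2 hζ)
  have ha0 : 0 < n2 τ a := by
    refine lt_of_not_ge fun h => ?_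
    have h0 := eq_zero_of_n2 hτ he.2 ha.2.1 h
    have h1 := ha.2.2 1 (one_mem A)
    rw [h0, mul_zero, map_zero, one_mul] at h1
    rw [hτ.2.1 ζ hζ.1 hζ.2 h1.symm, star_zero, zero_mul, map_zero, Complex.zero_re] at hζm
    exact lt_irrefl _ hζm
  have hlow : ∀ d : Cut A e, n2 τ a ^ 2 ≤ ∑ i, n2 τ (Ψ (d.q i)) ^ 2 := by
    intro d
    have haa := (ha.2.1.star' he.2).mul he.2 ha.2.1
    calc n2 τ a ^ 2 = ∑ i, n2 τ (d.q i * a) ^ 2 := by
          have key : ∀ i, n2 τ (d.q i * a) ^ 2 = (τ (d.q i * (star a * a))).re := fun i => by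
            rw [n2_sq hτ he.2 (cor_bmul hA he (d.part.1 i).1 ha.2.1).1, star_mul, cut_star,
              mul_assoc, ← mul_assoc (d.q i), (d.part.1 i).2.isIdempotentElem.eq, ← mul_assoc,
              ← hA.2.1 _ (d.part.1 i).1 _ (star_mem ha.1), mul_assoc]
          simp only [key]
          rw [← Complex.re_sum, ← map_sum, ← Finset.sum_mul, d.part.2.2, haa.mul_left he.2,
            n2_sq hτ he.2 ha.2.1]
      _ ≤ ∑ i, n2 τ (Ψ (d.q i)) ^ 2 := Finset.sum_le_sum fun i _ => ?_
    set q := d.q i with hqdef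
    have hqs : Sub A e q := cut_sub d i
    have hqA := hqs.1.1
    have hqc := sub_cor hA he hqs
    have hx : Cor M e (ζ * q * star ζ) := (hζ.mul he.2 hqc).mul he.2 hζs
    have hΨq : Ψ q = ζ * q * star ζ := by
      refine (hΨ.exp q hqs).unique hA he hτ ?_
      rw [star_star]
      exact isExp_self hA he (hζA q hqA) hx
    set k := star ζ * ζ with hk
    have hkc : Cor M e k := hζs.mul he.2 hζ
    have hz : Cor M e (q * k * q) := (hqc.mul he.2 hkc).mul he.2 hqc
    have hqa : Cor M e (q * a) := (cor_bmul hA he hqA ha.2.1).1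
    have hqq : q * q = q := hqs.1.2.isIdempotentElem.eq
    have hqstar : star q = q := hqs.1.2.isSelfAdjoint.star_eq
    have hsize : n2 τ (q * k * q) = n2 τ (ζ * q * star ζ) := by
      have hw := hζ.mul he.2 hqc
      rw [n2, n2]
      congr 1
      have e1 : star (q * k * q) * (q * k * q) =
          star (ζ * q) * (ζ * q * star (ζ * q) * (ζ * q)) := by
        simp only [hk, star_mul, star_star, hqstar, mul_assoc]
      have e2 : star (ζ * q * star ζ) * (ζ * q * star ζ) =
          ζ * q * star (ζ * q) * (ζ * q) * star (ζ * q) := by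
        simp only [star_mul, star_star, hqstar, mul_assoc]
        simp only [← mul_assoc q q, hqq]
      have hw3 := ((hw.mul he.2 (hw.star' he.2)).mul he.2 hw)
      rw [e1, e2, hτ.2.2.1 _ hw3.1 _ (hw.star' he.2).1 hw3.2 (hw.star' he.2).2]
    have hinner : τ (star (q * a) * (q * k * q)) = τ (star (q * a) * (q * a)) := by
      have hsa : star a * q ∈ A := mul_mem (star_mem ha.1) hqA
      have el : τ (star (q * a) * (q * k * q)) = τ (q * (star a * q * k)) := by
        have hX := (cor_bmul hA he hsa hkc).1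
        rw [tr_bcomm hA he hτ hqA hX, star_mul, hqstar]
        congr 1
        simp only [← mul_assoc]
        rw [mul_assoc (star a) q q, hqq]
      rw [el, ← mul_assoc, ← ha.2.2 _ (mul_mem hqA hsa), star_mul, hqstar]
      congr 1
      rw [← mul_assoc q (star a), hA.2.1 q hqA _ (star_mem ha.1), ← mul_assoc, mul_assoc (star a),
        hqq]
    have hcs := abs_re_cs hτ he.2 hqa hz
    rw [hinner, ← n2_sq hτ he.2 hqa, abs_of_nonneg (sq_nonneg _)] at hcs
    rw [hΨq, ← hsize]
    rcases (n2_nonneg (τ := τ) (q * a)).eq_or_lt with h | h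
    · rw [← h]; simp only [ne_eq, OfNat.ofNat_ne_zero, not_false_eq_true, zero_pow]; positivity
    · exact pow_le_pow_left₀ (n2_nonneg _) (by nlinarith) 2
  obtain ⟨η, d, p', hη, hηA, hηζ, hp', hpn', hlim'⟩ :=
    one_side hA he hτ hC hΨ (pow_pos ha0 2) hlow
  set v := star η with hvdef
  have hv : Cor M e v := hη.star' he.2
  have h2 : ∀ b ∈ A, star v * b * v ∈ A := fun b hb => by
    rw [hvdef, star_star]; exact hηA b hb
  have h1 : ∀ b ∈ A, v * b * star v ∈ A := by
    intro b hb
    rw [hvdef, star_star]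
    set S : ℕ → (H →L[ℂ] H) := fun n => sel (star ζ) (d n) (p' n) with hS
    have hSc : ∀ n, Cor M e (S n) := fun n => cor_sel hA he hτ hζs _ (hp' n)
    have hXn : ∀ n, star (S n) * b * S n ∈ A ∧ Cor M e (star (S n) * b * S n) := fun n => by
      refine ⟨?_, by
        rw [mul_assoc]; exact ((hSc n).star' he.2).mul he.2 (cor_bmul hA he hb (hSc n)).1⟩
      have e1 : star (S n) * b * S n =
          ∑ i, p' n i * (ζ * ((d n).q i * b) * star ζ) * p' n i := by
        simp only [hS, sel, star_sum, star_mul, star_star, cut_star, Finset.sum_mul]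
        refine Finset.sum_congr rfl fun i _ => ?_
        rw [Finset.mul_sum, Finset.sum_eq_single i]
        · rw [(hp' n i).1.2.isSelfAdjoint.star_eq]
          calc p' n i * (ζ * (d n).q i) * b * ((d n).q i * star ζ * p' n i)
              = p' n i * (ζ * ((d n).q i * (b * (d n).q i)) * star ζ) * p' n i := by
                simp only [mul_assoc]
            _ = _ := by
                rw [hA.2.1 b hb _ ((d n).part.1 i).1, ← mul_assoc ((d n).q i) ((d n).q i),
                  cut_mul, if_pos rfl]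
        · intro j _ hj
          calc star (p' n i) * (ζ * (d n).q i) * b * ((d n).q j * star ζ * p' n j)
              = star (p' n i) * ζ * ((d n).q i * (b * (d n).q j)) * star ζ * p' n j := by
                simp only [mul_assoc]
            _ = 0 := by
                rw [hA.2.1 b hb _ ((d n).part.1 j).1, ← mul_assoc ((d n).q i),
                  (d n).part.2.1 i j (Ne.symm hj)]
                simp
        · simp
      rw [e1]
      exact sum_mem fun i _ =>
        mul_mem (mul_mem (hp' n i).1.1 (hζA _ (mul_mem ((d n).part.1 i).1 hb))) (hp' n i).1.1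
    have hbη := (cor_bmul hA he hb hη).1
    have hL : Cor M e (star η * b * η) := by
      rw [mul_assoc]; exact (hη.star' he.2).mul he.2 hbη
    refine lim_mem hA he hτ hXn hL ?_
    refine squeeze_zero (fun n => n2_nonneg _) (fun n => ?_)
      (by simpa using hlim'.const_mul (2 * ‖star ζ‖ * ‖b‖ + 2 * ‖η‖ * ‖b‖))
    have hD' := (hSc n).sub hη
    have hbD := (cor_bmul hA he hb hD').1
    have e1 : star (S n) * b * S n - star η * b * η =
        star (S n) * (b * (S n - η)) + star (S n - η) * (b * η) := by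
      simp only [star_sub, mul_sub, sub_mul, mul_assoc]; abel
    rw [e1]
    refine (n2_add_le hτ he.2 (((hSc n).star' he.2).mul he.2 hbD)
      ((hD'.star' he.2).mul he.2 hbη)).trans ?_
    have a1 := n2_mul_le hτ he.2 (((hSc n).star' he.2).mul he.2 hbD) hbD
    have a2 := n2_mul_le hτ he.2 hbD hD'
    have a3 := n2_mul_right_le hτ he.2 ((hD'.star' he.2).mul he.2 hbη) (hD'.star' he.2)
    rw [norm_star] at a1
    rw [n2_star hτ he.2 hD'] at a3
    have b1 : ‖b * η‖ ≤ ‖b‖ * ‖η‖ := norm_mul_le _ _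
    have b2 := hpn' n
    have N0 := n2_nonneg (τ := τ) (S n - η)
    calc n2 τ (star (S n) * (b * (S n - η))) + n2 τ (star (S n - η) * (b * η))
        ≤ ‖star ζ‖ * (‖b‖ * n2 τ (S n - η)) + ‖b‖ * ‖η‖ * n2 τ (S n - η) := by
          refine add_le_add (a1.trans ?_) (a3.trans (mul_le_mul_of_nonneg_right b1 N0))
          exact mul_le_mul b2 a2 (n2_nonneg _) (norm_nonneg _)
      _ ≤ _ := by
          simp only [hS, norm_star] at N0 ⊢
          nlinarith [mul_nonneg (mul_nonneg (norm_nonneg ζ) (norm_nonneg b)) N0,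
            mul_nonneg (mul_nonneg (norm_nonneg η) (norm_nonneg b)) N0]
  have hzero : τ (star ζ * v) = 0 := by
    have hlimv := tr_tendsto_left hτ he.2 (fun n => cor_sel hA he hτ hm.1 (c n) (hp n)) hζ hv hlim
    refine tendsto_nhds_unique hlimv (tendsto_const_nhds.congr fun n => ?_)
    rw [sel, star_sum, Finset.sum_mul, map_sum]
    refine (Finset.sum_eq_zero fun i _ => ?_).symm
    set q := (c n).q i
    set P := p n i
    have hqA : q ∈ A := ((c n).part.1 i).1
    have hPA : P ∈ A := (hp n i).1.1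
    have hqs : star q = q := ((c n).part.1 i).2.isSelfAdjoint.star_eq
    have hPs : star P = P := (hp n i).1.2.isSelfAdjoint.star_eq
    set v' := q * v * P with hv'
    have hv'c : Cor M e v' := (cor_bmul hA he hPA (cor_bmul hA he hqA hv).1).2
    have hperp : τ (star v' * m) = 0 := by
      refine perp_two_sided hA he hτ hm hv'c (fun b hb => ?_) (fun b hb => ?_)
      · have := mul_mem (mul_mem hqA (h1 _ (mul_mem (mul_mem hPA hb) hPA))) hqA
        simpa [hv', star_mul, hqs, hPs, mul_assoc] using this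
      · have := mul_mem (mul_mem hPA (h2 _ (mul_mem (mul_mem hqA hb) hqA))) hPA
        simpa [hv', star_mul, hqs, hPs, mul_assoc] using this
    have hX := (cor_bmul hA he hPA (((hm.1.star' he.2).mul he.2
      (cor_bmul hA he hqA hv).1))).2
    have hconj : starRingEnd ℂ (τ (star v' * m)) = τ (star (q * m * P) * v) := by
      rw [starRingEnd_apply, ← Orth.tr_star he.2 hτ (hA.1 e he.1)
        ((hv'c.star' he.2).mul he.2 hm.1)]
      simp only [hv', star_mul, star_star, hqs, hPs]
      rw [show star m * (q * v * P) = star m * (q * v) * P by simp only [mul_assoc],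
        ← tr_bcomm hA he hτ hPA ((hm.1.star' he.2).mul he.2 (cor_bmul hA he hqA hv).1)]
      simp only [mul_assoc]
    rw [← hconj, hperp, map_zero]
  have hsw : (τ (star ζ * v)).re = (τ (star η * star ζ)).re := by
    have h3 := hτ.2.2.1 _ hζs.1 _ hv.1 hζs.2 hv.2
    rw [h3]
  rw [hzero, Complex.zero_re] at hsw
  linarith

omit hC hD in
/-- Squared 2-norms are superadditive on positive elements. -/
theorem sum_sq_le {ι : Type*} (s : Finset ι) {x : ι → (H →L[ℂ] H)}
    (hx : ∀ i ∈ s, Cor M e (x i) ∧ 0 ≤ x i) :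
    ∑ i ∈ s, n2 τ (x i) ^ 2 ≤ n2 τ (∑ i ∈ s, x i) ^ 2 := by
  rw [n2_sq hτ he.2 (Cor.sum s fun i hi => (hx i hi).1), star_sum, Finset.sum_mul, map_sum,
    Complex.re_sum]
  refine Finset.sum_le_sum fun i hi => ?_
  rw [Finset.mul_sum, map_sum, Complex.re_sum, n2_sq hτ he.2 (hx i hi).1]
  refine Finset.single_le_sum (f := fun j => (τ (star (x i) * x j)).re) (fun j hj => ?_) hi
  rw [(IsSelfAdjoint.of_nonneg (hx i hi).2).star_eq]
  exact tr_mul_nonneg hτ he.2 (hx i hi).1 (hx j hj).1 (hx i hi).2 (hx j hj).2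

omit hC hD in
theorem pinch_pos {r : ℕ} {P : Fin r → (H →L[ℂ] H)} (hP : IsPartition A e P) {x : H →L[ℂ] H}
    (hx : 0 ≤ x) : 0 ≤ MKS.pinch P x :=
  Finset.sum_nonneg fun i _ => Singular.conj_proj_nonneg (hP.1 i).2 hx

omit hC hD in
/-- The block sum of a finer cut is controlled by the pinched densities of a coarser one. -/
theorem block4_le {m : H →L[ℂ] H} (hm : Cor M e m) {Q c : Cut A e} (h : Q.Refines c) :
    block4 τ m c ≤ ∑ j, n2 τ (MKS.pinch c.q (star m * Q.q j * m)) ^ 2 := by
  classical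
  set T : Fin Q.n → Finset (Fin c.n) := fun j =>
    Finset.univ.filter fun i => c.q i ≠ 0 ∧ c.q i * Q.q j = c.q i
  have hx : ∀ i, Cor M e (MKS.pinch c.q (star m * c.q i * m)) ∧ 0 ≤ MKS.pinch c.q (star m * c.q i * m) :=
    fun i => ⟨cor_pinch hτ he.2 hA.1 c.part
      (((hm.star' he.2).mul he.2 (sub_cor hA he (cut_sub c i))).mul he.2 hm).1,
      pinch_pos hA he hτ c.part (star_left_conjugate_nonneg (c.part.1 i).2.nonneg m)⟩
  have hQ : ∀ j, Q.q j = ∑ i ∈ T j, c.q i := fun j => by
    calc Q.q j = ∑ i, c.q i * Q.q j := by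
          rw [← Finset.sum_mul, c.part.2.2, (Q.part.mul_e j).1]
      _ = ∑ i ∈ T j, c.q i * Q.q j := by
          refine (Finset.sum_subset (Finset.subset_univ _) fun i _ hi => ?_).symm
          rcases piece_of_refines h i j with h' | h'
          · by_cases h0 : c.q i = 0
            · rw [h0, zero_mul]
            · exact absurd (Finset.mem_filter.2 ⟨Finset.mem_univ i, h0, h'⟩) hi
          · exact h'
      _ = ∑ i ∈ T j, c.q i := Finset.sum_congr rfl fun i hi => (Finset.mem_filter.1 hi).2.2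
  have hlin : ∀ j, MKS.pinch c.q (star m * Q.q j * m) =
      ∑ i ∈ T j, MKS.pinch c.q (star m * c.q i * m) := fun j => by
    rw [hQ j]
    simp only [MKS.pinch, Finset.mul_sum, Finset.sum_mul]
    rw [Finset.sum_comm]
  calc block4 τ m c = ∑ i, n2 τ (MKS.pinch c.q (star m * c.q i * m)) ^ 2 := rfl
    _ ≤ ∑ i, ∑ j ∈ Finset.univ.filter (fun j => i ∈ T j),
          n2 τ (MKS.pinch c.q (star m * c.q i * m)) ^ 2 := by
        refine Finset.sum_le_sum fun i _ => ?_
        rcases h i with h' | ⟨j, hj⟩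
        · simp [h', MKS.pinch, n2_zero]
        · by_cases h0 : c.q i = 0
          · simp [h0, MKS.pinch, n2_zero]
          · exact Finset.single_le_sum
              (f := fun _ : Fin Q.n => n2 τ (MKS.pinch c.q (star m * c.q i * m)) ^ 2)
              (fun _ _ => sq_nonneg _)
              (Finset.mem_filter.2 ⟨Finset.mem_univ j, Finset.mem_filter.2
                ⟨Finset.mem_univ i, h0, hj⟩⟩)
    _ = ∑ j, ∑ i ∈ T j, n2 τ (MKS.pinch c.q (star m * c.q i * m)) ^ 2 :=
        Finset.sum_comm' fun i j => by simp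
    _ ≤ ∑ j, n2 τ (MKS.pinch c.q (star m * Q.q j * m)) ^ 2 :=
        Finset.sum_le_sum fun j _ => by
          rw [hlin j]
          exact sum_sq_le hA he hτ _ fun i _ => hx i

theorem diag_and_block {m : H →L[ℂ] H} (hm : Perp M A e τ m) :
    Tendsto (fun c : Cut A e => diag2 τ m c) (fine A e) (𝓝 0) ∧
      Tendsto (fun c : Cut A e => block4 τ m c) (fine A e) (𝓝 0) := by
  constructor
  · obtain ⟨a, ha, hlim⟩ := exists_exp hA he hτ hD hm.1
    have hac := ha.2.1
    have h0 : a = 0 := by
      refine eq_zero_of_n2 hτ he.2 hac ?_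
      have h1 := ha.2.2 _ (star_mem ha.1)
      rw [hm.2 a (alg_mem_normSpan ha.1 hac.2)] at h1
      rw [n2, h1, Complex.zero_re, Real.sqrt_zero]
    rw [h0] at hlim
    simp only [sub_zero] at hlim
    have h2 := hlim.pow 2
    rw [show (0 : ℝ) ^ 2 = 0 by norm_num] at h2
    exact h2
  · obtain ⟨Φ, hΦ⟩ := exists_dens hA he hτ hD hm.1
    refine Metric.tendsto_nhds.2 fun ρ hρ => ?_
    obtain ⟨Q, hQ⟩ := exists_small hA he hτ hC hD hm hΦ hρ
    have hj : ∀ j, Tendsto (fun c : Cut A e => n2 τ (MKS.pinch c.q (star m * Q.q j * m)) ^ 2)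
        (fine A e) (𝓝 (n2 τ (Φ (Q.q j)) ^ 2)) := fun j => by
      obtain ⟨a, ha, hlim⟩ := exists_exp hA he hτ hD
        (dens_cor hA he hτ hΦ (cut_sub Q j)).1
      rw [(hΦ.exp _ (cut_sub Q j)).unique hA he hτ ha]
      refine Tendsto.pow ?_ 2
      rw [tendsto_iff_norm_sub_tendsto_zero]
      refine squeeze_zero (fun c => norm_nonneg _) (fun c => ?_) hlim
      rw [Real.norm_eq_abs]
      exact abs_n2_sub hτ he.2
        (cor_pinch hτ he.2 hA.1 c.part (dens_cor hA he hτ hΦ (cut_sub Q j)).1.1) ha.2.1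
    have hev := (tendsto_finsetSum Finset.univ fun j _ => hj j).eventually_lt_const hQ
    filter_upwards [hev, Orth.eventually_refines hA he.1 he.2 Q] with c hc hr
    rw [Real.dist_eq, sub_zero, abs_of_nonneg (Finset.sum_nonneg fun i _ => sq_nonneg _)]
    exact (block4_le hA he hτ hm.1 hr).trans_lt hc

end Atom

open Atom in
/-- Operators orthogonal to the normaliser have no atoms. -/
theorem atom_ok (hC : CompleteStatement) (hD : DiagLimitStatement) : AtomStatement := by
  intro H _ _ _ M A e τ hA heA he hτ m hm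
  exact diag_and_block hA ⟨heA, he⟩ hτ hC hD hm

end Vale.Agent.P078.Orth
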