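import Vale.Agent.P078.Orth.AtomJoin

/-!
The atom lemma: if the densities of an operator keep a fixed mass on all cuts, some cell carries a
homomorphism of the projections of the MASA dominated by the densities.
-/

namespace Vale.Agent.P078.Orth.Atom

open Filter Topology MKS Singular

variable {H : Type} [NormedAddCommGroup H] [InnerProductSpace ℂ H] [CompleteSpace H]
variable {M A : VonNeumannAlgebra H} {e : H →L[ℂ] H} {τ : (H →L[ℂ] H) →ₗ[ℂ] ℂ}

/-- The value of an operator at a point. -/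
noncomputable def val (χ : Spot A e) (a : H →L[ℂ] H) : ℝ := (Op.ev χ.1 a).re

theorem val_mul_eq {p a : H →L[ℂ] H} (hp : Sub A e p) (ha : a ∈ A) (χ : Spot A e) :
    val χ (p * a) = val χ p * val χ a := by
  rw [val, val, val, Op.ev_mul _ hp.1.1 ha, Complex.mul_re]
  rcases ev_sub_proj hp χ with h | h <;> simp [h]

theorem val_zero_or_one {p : H →L[ℂ] H} (hp : Sub A e p) (χ : Spot A e) :
    val χ p = 0 ∨ val χ p = 1 := by
  rcases ev_sub_proj hp χ with h | h <;> simp [val, h]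

theorem ev_eq_one_iff {p : H →L[ℂ] H} (hp : Sub A e p) (χ : Spot A e) :
    Op.ev χ.1 p = 1 ↔ val χ p = 1 := by
  rcases ev_sub_proj hp χ with h | h <;> simp [val, h]

/-- The densities of an operator. -/
structure Dens (M A : VonNeumannAlgebra H) (e : H →L[ℂ] H) (τ : (H →L[ℂ] H) →ₗ[ℂ] ℂ)
    (m : H →L[ℂ] H) (Φ : (H →L[ℂ] H) → (H →L[ℂ] H)) : Prop where
  cor : Cor M e m
  exp : ∀ B, Sub A e B → IsExp M A e τ (star m * B * m) (Φ B)

/-- The projections of `A` which contain the places where some piece of `g` has density above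
`η`. -/
def Fam (A : VonNeumannAlgebra H) (e : H →L[ℂ] H) (Φ : (H →L[ℂ] H) → (H →L[ℂ] H)) (η : ℝ)
    (g : H →L[ℂ] H) : Set (H →L[ℂ] H) :=
  {P | Sub A e P ∧ ∃ c : Cut A e, ∀ (i : Fin c.n) (χ : Spot A e),
    η < val χ (Φ (g * c.q i)) → val χ P = 1}

variable {m : H →L[ℂ] H} {Φ : (H →L[ℂ] H) → (H →L[ℂ] H)}
variable (hA : IsMASA M A) (he : IsPr A e) (hτ : IsTrace M e τ) (hΦ : Dens M A e τ m Φ)
include hA he hτ hΦ

theorem dens_cor {B : H →L[ℂ] H} (hB : Sub A e B) :
    Cor M e (star m * B * m) ∧ 0 ≤ star m * B * m := by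
  refine ⟨((hΦ.cor.star' he.2).mul he.2 (sub_cor hA he hB)).mul he.2 hΦ.cor, ?_⟩
  exact star_left_conjugate_nonneg hB.1.2.nonneg m

theorem dens_nonneg {B : H →L[ℂ] H} (hB : Sub A e B) : 0 ≤ Φ B :=
  IsExp.nonneg hA he hτ (dens_cor hA he hτ hΦ hB).1 (dens_cor hA he hτ hΦ hB).2 (hΦ.exp B hB)

theorem val_dens_nonneg {B : H →L[ℂ] H} (hB : Sub A e B) (χ : Spot A e) : 0 ≤ val χ (Φ B) :=
  Op.ev_nonneg χ.1 (hΦ.exp B hB).1 (dens_nonneg hA he hτ hΦ hB)

theorem dens_sum {ι : Type*} (s : Finset ι) {q : ι → (H →L[ℂ] H)} (hq : ∀ i ∈ s, Sub A e (q i))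
    (hsum : Sub A e (∑ i ∈ s, q i)) : Φ (∑ i ∈ s, q i) = ∑ i ∈ s, Φ (q i) := by
  refine (hΦ.exp _ hsum).unique hA he hτ ?_
  have h := IsExp.sum s fun i hi => hΦ.exp (q i) (hq i hi)
  rwa [← Finset.sum_mul, ← Finset.mul_sum] at h

theorem val_dens_sum {ι : Type*} (s : Finset ι) {q : ι → (H →L[ℂ] H)}
    (hq : ∀ i ∈ s, Sub A e (q i)) (hsum : Sub A e (∑ i ∈ s, q i)) (χ : Spot A e) :
    val χ (Φ (∑ i ∈ s, q i)) = ∑ i ∈ s, val χ (Φ (q i)) := by
  rw [dens_sum hA he hτ hΦ s hq hsum, val, Op.ev_sum _ _ _ fun i hi => (hΦ.exp _ (hq i hi)).1,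
    Complex.re_sum]
  rfl

theorem val_dens_le {B : H →L[ℂ] H} (hB : Sub A e B) (χ : Spot A e) :
    val χ (Φ B) ≤ ‖m‖ ^ 2 := by
  have hee := cor_proj (hA.1 e he.1) he.2
  have hκ : IsExp M A e τ ((‖m‖ ^ 2 : ℝ) • e) ((‖m‖ ^ 2 : ℝ) • e) :=
    isExp_self hA he (vn_smul A _ he.1) (hee.rsmul _)
  have hle : star m * B * m ≤ (‖m‖ ^ 2 : ℝ) • e := by
    have h1 : star m * B * m ≤ star m * 1 * m := conj_le (proj_le_one hB.1.2) m
    have h2 : star m * m ≤ (‖m‖ ^ 2 : ℝ) • (1 : H →L[ℂ] H) := by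
      refine (bounds_of_norm_le (IsSelfAdjoint.star_mul_self m) ?_).2
      rw [CStarRing.norm_star_mul_self, sq]
    have h3 := conj_le h2 e
    rw [he.2.isSelfAdjoint.star_eq, ((hΦ.cor.star' he.2).mul he.2 hΦ.cor).2, mul_smul_comm,
      smul_mul_assoc, mul_one, he.2.isIdempotentElem.eq] at h3
    rw [mul_one] at h1
    exact h1.trans h3
  have h := Op.ev_mono χ.1 (hΦ.exp B hB).1 (vn_smul A _ he.1)
    (IsExp.mono hA he hτ (dens_cor hA he hτ hΦ hB).1 (hee.rsmul _) (hΦ.exp B hB) hκ hle)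
  rw [RCLike.real_smul_eq_coe_smul (K := ℂ), Op.ev_smul _ _ he.1, χ.2, mul_one] at h
  exact h.trans_eq (Complex.ofReal_re _)

theorem val_dens_mono {B B' : H →L[ℂ] H} (hB : Sub A e B) (hB' : Sub A e B') (h : B * B' = B)
    (χ : Spot A e) : val χ (Φ B) ≤ val χ (Φ B') := by
  have hle : B ≤ B' := by
    rw [← sub_nonneg]
    exact (sub_proj hB'.1.2 hB.1.2 h).nonneg
  exact Op.ev_mono χ.1 (hΦ.exp B hB).1 (hΦ.exp B' hB').1
    (IsExp.mono hA he hτ (dens_cor hA he hτ hΦ hB).1 (dens_cor hA he hτ hΦ hB').1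
      (hΦ.exp B hB) (hΦ.exp B' hB') (conj_le hle m))

theorem dens_zero : Φ 0 = 0 := by
  refine (hΦ.exp 0 ⟨⟨zero_mem _, .zero _⟩, zero_mul e⟩).unique hA he hτ ?_
  simpa using isExp_self hA he (zero_mem A) Cor.zero

theorem fam_mul {η : ℝ} {g P Q : H →L[ℂ] H} (hg : Sub A e g) (hP : P ∈ Fam A e Φ η g)
    (hQ : Q ∈ Fam A e Φ η g) : P * Q ∈ Fam A e Φ η g := by
  obtain ⟨hPs, c, hc⟩ := hP
  obtain ⟨hQs, d, hd⟩ := hQ
  refine ⟨sub_mul' hA he hPs.1 hQs, meet hA c d, fun i χ h => ?_⟩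
  have hsub : ∀ (c : Cut A e) (k : Fin c.n), Sub A e (g * c.q k) := fun c k =>
    sub_mul' hA he hg.1 ⟨c.part.1 k, (c.part.mul_e k).2⟩
  have key : ∀ (c' : Cut A e), c'.Refines (meet hA c d) →
      ∃ k, η < val χ (Φ (g * c'.q k)) := fun c' hr => by
    have h0 : ∀ k, (g * (meet hA c d).q i) * (g * c'.q k) =
        g * ((meet hA c d).q i * c'.q k) := fun k => by
      rw [mul_assoc, ← mul_assoc _ g, hA.2.1 _ ((meet hA c d).part.1 i).1 _ hg.1.1, mul_assoc,
        ← mul_assoc g g, hg.1.2.isIdempotentElem.eq]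
    rcases hr i with hz | ⟨k, hk⟩
    · obtain ⟨k₀, -⟩ : ∃ k : Fin c'.n, True := by
        by_contra hno
        have : ∑ k, c'.q k = 0 := Finset.sum_eq_zero fun k _ => absurd ⟨k, trivial⟩ hno
        rw [c'.part.2.2] at this
        exact zero_ne_one ((Op.ev_zero χ.1).symm.trans
          ((congrArg (Op.ev χ.1) this.symm).trans χ.2))
      refine ⟨k₀, h.trans_le (val_dens_mono hA he hτ hΦ (hsub _ i) (hsub _ k₀) ?_ χ)⟩
      rw [hz, mul_zero, zero_mul]
    · exact ⟨k, h.trans_le (val_dens_mono hA he hτ hΦ (hsub _ i) (hsub _ k) (by rw [h0, hk]) χ)⟩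
  obtain ⟨k, hk⟩ := key c (refines_meet_left hA c d)
  obtain ⟨l, hl⟩ := key d (refines_meet_right hA c d)
  rw [val_mul_eq hPs hQs.1.1, hc k χ hk, hd l χ hl, one_mul]

variable (hC : CompleteStatement)
include hC

/-- The joins of the places of high density are finitely join-additive. -/
theorem exists_join {η : ℝ} (hη : 0 < η) :
    ∃ G : (H →L[ℂ] H) → (H →L[ℂ] H), (∀ g, Sub A e g → Sub A e (G g)) ∧
      (∀ g, Sub A e g → ∀ χ : Spot A e, val χ (G g) = 1 → η ≤ val χ (Φ g)) ∧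
      (∀ g h, Sub A e g → Sub A e h → g * h = g → ∀ χ : Spot A e, val χ (G g) = 1 → val χ (G h) = 1) ∧
      (∀ g h, Sub A e g → Sub A e h → Sub A e (g + h) → g * h = 0 → ∀ χ : Spot A e,
        val χ (G (g + h)) = 1 → val χ (G g) = 1 ∨ val χ (G h) = 1) ∧
      (G 0 = 0) ∧
      ∀ δ : ℝ, 0 < δ → ∃ P ∈ Fam A e Φ η e, n2 τ (P - G e) ≤ δ := by
  classical
  have hone : ∀ g, Sub A e g → e ∈ Fam A e Φ η g := fun g _ =>
    ⟨⟨he, he.2.isIdempotentElem.eq⟩, topCut he.1 he.2, fun _ χ _ => by simp [val, χ.2]⟩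
  have hex : ∀ g, ∃ G, Sub A e g → Sub A e G ∧ (∀ P ∈ Fam A e Φ η g, G * P = G) ∧
      ∀ δ : ℝ, 0 < δ → ∃ P ∈ Fam A e Φ η g, n2 τ (P - G) ≤ δ := fun g => by
    by_cases hg : Sub A e g
    · obtain ⟨G, h⟩ := exists_inf hA he hτ hC (S := Fam A e Φ η g) (fun P hP => hP.1)
        ⟨e, hone g hg⟩ (fun P hP Q hQ => fam_mul hA he hτ hΦ hg hP hQ)
      exact ⟨G, fun _ => h⟩
    · exact ⟨0, fun h => absurd h hg⟩
  choose G hG using hex
  have hle : ∀ g, Sub A e g → ∀ P ∈ Fam A e Φ η g, ∀ χ : Spot A e, val χ (G g) = 1 → val χ P = 1 := by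
    intro g hg P hP χ h
    obtain ⟨hGs, habs, -⟩ := hG g hg
    have h1 := val_mul_eq hGs hP.1.1.1 χ
    rw [habs P hP, h, one_mul] at h1
    exact h1.symm
  have happ : ∀ g, Sub A e g → ∀ D, Sub A e D → D * G g = 0 →
      ∀ δ : ℝ, 0 < δ → ∃ P ∈ Fam A e Φ η g, (τ (D * P)).re ≤ δ ^ 2 := by
    intro g hg D hD hDG δ hδ
    obtain ⟨P, hP, hPd⟩ := (hG g hg).2.2 δ hδ
    refine ⟨P, hP, ?_⟩
    have hs := sub_mul' hA he hD.1 hP.1
    rw [← n2_proj hA he hτ hs, ← sub_zero (D * P), ← hDG, ← mul_sub]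
    refine pow_le_pow_left₀ (n2_nonneg _) ?_ 2
    have hd := (sub_cor hA he hP.1).sub (sub_cor hA he (hG g hg).1)
    exact (n2_mul_le hτ he.2 (cor_bmul hA he hD.1.1 hd).1 hd).trans
      ((mul_le_of_le_one_left (n2_nonneg _) hD.1.2.norm_le).trans hPd)
  refine ⟨G, fun g hg => (hG g hg).1, fun g hg χ h => ?_, fun g h hg hh hgh χ hχ => ?_,
    fun g h hg hh hgh h0 χ hχ => ?_, ?_, (hG e ⟨he, he.2.isIdempotentElem.eq⟩).2.2⟩
  · obtain ⟨P, hP, hPev⟩ := exists_thr hA he (hΦ.exp g hg).1 (hΦ.exp g hg).2.1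
      (IsSelfAdjoint.of_nonneg (dens_nonneg hA he hτ hΦ hg)) hη
    have hmem : P ∈ Fam A e Φ η g := ⟨hP, topCut he.1 he.2, fun i χ' h' => by
      rw [show g * (topCut he.1 he.2).q i = g from hg.2] at h'
      rcases ev_sub_proj hP χ' with h0 | h1
      · exact absurd ((hPev χ').2 h0) (not_le.2 h')
      · simp [val, h1]⟩
    exact (hPev χ).1 ((ev_eq_one_iff hP χ).2 (hle g hg P hmem χ h))
  · -- monotonicity: the family of the larger projection is smaller
    have hGh := (hG h hh).1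
    set D := G g * (e - G h) with hDdef
    have hD : Sub A e D := sub_mul' hA he (hG g hg).1.1 (sub_compl hA he hGh)
    have hDh : D * G h = 0 := by
      rw [hDdef, mul_assoc, sub_mul e, hGh.1.2.isIdempotentElem.eq,
        (sub_cor hA he hGh).mul_left he.2, sub_self, mul_zero]
    have hD0 : D = 0 := by
      refine eq_zero_of_n2 hτ he.2 (sub_cor hA he hD) (le_of_forall_gt_imp_ge_of_dense fun δ hδ => ?_)
      obtain ⟨P, hP, hPd⟩ := happ h hh D hD hDh δ hδ
      obtain ⟨hPs, c, hc⟩ := hP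
      have hPg : P ∈ Fam A e Φ η g := ⟨hPs, c, fun i χ' h' => hc i χ' (h'.trans_le
        (val_dens_mono hA he hτ hΦ (sub_mul' hA he hg.1 ⟨c.part.1 i, (c.part.mul_e i).2⟩)
          (sub_mul' hA he hh.1 ⟨c.part.1 i, (c.part.mul_e i).2⟩) (by
            rw [mul_assoc, ← mul_assoc (c.q i), hA.2.1 _ (c.part.1 i).1 _ hh.1.1, mul_assoc,
              (c.part.1 i).2.isIdempotentElem.eq, ← mul_assoc, hgh]) χ'))⟩
      have hDP : D * P = D := by
        rw [hDdef, mul_assoc, hA.2.1 _ (sub_compl hA he hGh).1.1 _ hPs.1.1, ← mul_assoc,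
          (hG g hg).2.1 P hPg]
      rw [hDP, ← n2_proj hA he hτ hD] at hPd
      exact le_of_sq_le_sq hPd hδ.le
    have h1 : val χ D = val χ (G g) * val χ (e - G h) :=
      val_mul_eq (hG g hg).1 (sub_compl hA he hGh).1.1 χ
    rw [hD0, hχ, one_mul] at h1
    simp only [val, Op.ev_zero, Op.ev_sub _ he.1 hGh.1.1, χ.2, Complex.zero_re, Complex.sub_re,
      Complex.one_re] at h1 ⊢
    linarith
  · -- additivity: a join of members of the families is in the family of the sum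
    set D := (e - G g) * (e - G h) with hDdef
    have hcg := sub_compl hA he (hG g hg).1
    have hch := sub_compl hA he (hG h hh).1
    have hD : Sub A e D := sub_mul' hA he hcg.1 hch
    have hDh : D * G h = 0 := by
      rw [hDdef, mul_assoc, sub_mul e (G h), (hG h hh).1.1.2.isIdempotentElem.eq,
        (sub_cor hA he (hG h hh).1).mul_left he.2, sub_self, mul_zero]
    have hDg : D * G g = 0 := by
      rw [hDdef, hA.2.1 _ hcg.1.1 _ hch.1.1, mul_assoc, sub_mul e (G g),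
        (hG g hg).1.1.2.isIdempotentElem.eq, (sub_cor hA he (hG g hg).1).mul_left he.2, sub_self,
        mul_zero]
    have hDs := sub_mul' hA he hD.1 (hG _ hgh).1
    have hz : D * G (g + h) = 0 := by
      refine eq_zero_of_n2 hτ he.2 (sub_cor hA he hDs) (le_of_forall_gt_imp_ge_of_dense fun δ hδ => ?_)
      obtain ⟨P, ⟨hP, c, hc⟩, hPd⟩ := happ g hg D hD hDg (δ / 2) (half_pos hδ)
      obtain ⟨Q, ⟨hQ, d, hd⟩, hQd⟩ := happ h hh D hD hDh (δ / 2) (half_pos hδ)
      obtain ⟨R, hR, hRev⟩ := exists_sup hA he (Finset.univ : Finset (Fin 2))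
        (f := ![P, Q]) (by intro i _; fin_cases i <;> assumption)
      have htwo : IsPartition A e ![g, e - g] := by
        refine ⟨fun i => by fin_cases i <;> first | exact hg.1 | exact (sub_compl hA he hg).1,
          fun i j hij => ?_, by simp⟩
        have hge : e * g = g := (sub_cor hA he hg).mul_left he.2
        fin_cases i <;> fin_cases j <;> first
          | exact absurd rfl hij
          | simp [mul_sub, sub_mul, hg.2, hge, hg.1.2.isIdempotentElem.eq]
      set F := meet hA (meet hA c d) ⟨2, _, htwo⟩ with hF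
      have hmem : R ∈ Fam A e Φ η (g + h) := ⟨hR, F, fun i χ' h' => by
        have hFi : Sub A e (F.q i) := ⟨F.part.1 i, (F.part.mul_e i).2⟩
        have hFg := (refines_meet_right hA (meet hA c d) ⟨2, _, htwo⟩)
        have hcF : c.Refines F := refines_trans (refines_meet_left hA c d) (refines_meet_left hA _ _)
        have hdF : d.Refines F := refines_trans (refines_meet_right hA c d) (refines_meet_left hA _ _)
        have hmono : ∀ (c' : Cut A e), c'.Refines F → ∀ x, Sub A e x → (g + h) * F.q i = x * F.q i →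
            ∃ k, η < val χ' (Φ (x * c'.q k)) := fun c' hr x hx hxe => by
          rw [hxe] at h'
          rcases hr i with hz' | ⟨k, hk⟩
          · rw [hz', mul_zero, dens_zero hA he hτ hΦ] at h'
            simp [val, Op.ev_zero] at h'
            linarith
          · refine ⟨k, h'.trans_le (val_dens_mono hA he hτ hΦ (sub_mul' hA he hx.1 hFi)
              (sub_mul' hA he hx.1 ⟨c'.part.1 k, (c'.part.mul_e k).2⟩) ?_ χ')⟩
            rw [mul_assoc, ← mul_assoc (F.q i), hA.2.1 _ hFi.1.1 _ hx.1.1, mul_assoc, hk,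
              ← mul_assoc, hx.1.2.isIdempotentElem.eq]
        refine (ev_eq_one_iff hR χ').1 ((hRev χ').2 ?_)
        rcases piece_of_refines hFg i (0 : Fin 2) with hin | hout
        · have hxe : (g + h) * F.q i = g * F.q i := by
            have : h * F.q i = 0 := by
              rw [← show F.q i * g = F.q i from hin, hA.2.1 _ hFi.1.1 _ hg.1.1, ← mul_assoc,
                hA.2.1 _ hh.1.1 _ hg.1.1, h0, zero_mul]
            rw [add_mul, this, add_zero]
          obtain ⟨k, hk⟩ := hmono c hcF g hg hxe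
          exact ⟨0, Finset.mem_univ _, (ev_eq_one_iff hP χ').2 (hc k χ' hk)⟩
        · have hxe : (g + h) * F.q i = h * F.q i := by
            rw [add_mul, hA.2.1 _ hg.1.1 _ hFi.1.1, show F.q i * g = 0 from hout, zero_add]
          obtain ⟨k, hk⟩ := hmono d hdF h hh hxe
          exact ⟨1, Finset.mem_univ _, (ev_eq_one_iff hQ χ').2 (hd k χ' hk)⟩⟩
      have hPs := sub_mul' hA he hD.1 hP
      have hQs := sub_mul' hA he hD.1 hQ
      have hop : D * G (g + h) ≤ D * P + D * Q := by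
        refine le_of_spot hA he hDs.1.1 (add_mem hPs.1.1 hQs.1.1) (sub_cor hA he hDs)
          ((sub_cor hA he hPs).add (sub_cor hA he hQs)) hDs.1.2.isSelfAdjoint
          (hPs.1.2.isSelfAdjoint.add hQs.1.2.isSelfAdjoint) fun χ' => ?_
        rw [Op.ev_add _ hPs.1.1 hQs.1.1, Complex.add_re]
        show val χ' _ ≤ val χ' _ + val χ' _
        rw [val_mul_eq hD (hG _ hgh).1.1.1, val_mul_eq hD hP.1.1, val_mul_eq hD hQ.1.1]
        rcases val_zero_or_one hD χ' with a | a <;>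
          rcases val_zero_or_one (hG _ hgh).1 χ' with b | b <;>
            rcases val_zero_or_one hP χ' with c' | c' <;>
              rcases val_zero_or_one hQ χ' with d' | d' <;> simp [a, b, c', d']
        have h1 := hle _ hgh R hmem χ' b
        obtain ⟨k, -, hk⟩ := (hRev χ').1 ((ev_eq_one_iff hR χ').2 h1)
        have hv : val χ' (![P, Q] k) = 1 := by simp [val, hk]
        fin_cases k <;> simp [c', d'] at hv
      have h1 := tr_mono hτ he.2 (sub_cor hA he hDs) ((sub_cor hA he hPs).add (sub_cor hA he hQs)) hop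
      rw [← n2_proj hA he hτ hDs, map_add, Complex.add_re] at h1
      exact le_of_sq_le_sq (h1.trans (by nlinarith)) hδ.le
    have h1 := val_mul_eq hD (hG _ hgh).1.1.1 χ
    rw [hz, hχ, mul_one, hDdef, val_mul_eq hcg hch.1.1] at h1
    simp only [val, Op.ev_zero, Op.ev_sub _ he.1 (hG g hg).1.1.1, Op.ev_sub _ he.1 (hG h hh).1.1.1,
      χ.2, Complex.zero_re, Complex.sub_re, Complex.one_re] at h1 ⊢
    rcases mul_eq_zero.1 h1.symm with h2 | h2
    · left; linarith
    · right; linarith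
  · have h00 : Sub A e 0 := ⟨⟨zero_mem _, .zero _⟩, zero_mul e⟩
    have hmem : (0 : H →L[ℂ] H) ∈ Fam A e Φ η 0 := ⟨h00, topCut he.1 he.2, fun i χ h' => by
      rw [zero_mul, dens_zero hA he hτ hΦ] at h'
      simp [val, Op.ev_zero] at h'
      linarith⟩
    rw [← (hG 0 h00).2.1 0 hmem, mul_zero]

/-- A homomorphism on the projections of `A` dominated by the densities. -/
theorem exists_hom {f₀ : ℝ} (hf₀ : 0 < f₀)
    (hlow : ∀ c : Cut A e, f₀ ≤ ∑ i, n2 τ (Φ (c.q i)) ^ 2) :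
    ∃ (η : ℝ) (f : H →L[ℂ] H) (θ : (H →L[ℂ] H) → (H →L[ℂ] H)), 0 < η ∧ Sub A e f ∧ f ≠ 0 ∧
      (∀ R, Sub A e R → Sub A e (θ R)) ∧
      (∀ R S, Sub A e R → Sub A e S → R * S = R → θ R * θ S = θ R) ∧
      (∀ R S, Sub A e R → Sub A e S → R * S = 0 → θ R * θ S = 0) ∧
      (∀ c : Cut A e, ∑ i, θ (c.q i) = f) ∧
      ∀ R, Sub A e R → ∀ χ : Spot A e, val χ (θ R) = 1 → η ≤ val χ (Φ R) := by
  classical
  have hee : Sub A e e := ⟨he, he.2.isIdempotentElem.eq⟩
  set T : ℝ := (τ (Φ e)).re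
  have hT : 0 ≤ T := tr_nonneg hτ he.2 (hΦ.exp e hee).2.1 (dens_nonneg hA he hτ hΦ hee)
  set η : ℝ := f₀ / (2 * (T + 1))
  have hη : 0 < η := by positivity
  obtain ⟨G, hGs, hGη, hGmono, hGadd, hG0, hGe⟩ := exists_join hA he hτ hΦ hC hη
  have hne : G e ≠ 0 := by
    intro h0
    obtain ⟨δ, hδ, hδ'⟩ : ∃ δ : ℝ, 0 < δ ∧ (‖m‖ ^ 2) ^ 2 * δ ^ 2 < f₀ / 2 :=
      ⟨Real.sqrt (f₀ / 2 / ((‖m‖ ^ 2) ^ 2 + 1)), by positivity, by
        rw [Real.sq_sqrt (by positivity), mul_div_assoc', div_lt_iff₀ (by positivity)]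
        nlinarith⟩
    obtain ⟨P, ⟨hP, c, hc⟩, hPd⟩ := hGe δ hδ
    rw [h0, sub_zero] at hPd
    have hPτ : (τ P).re ≤ δ ^ 2 := by
      rw [← n2_proj hA he hτ hP]; exact pow_le_pow_left₀ (n2_nonneg _) hPd 2
    have hq : ∀ i, Sub A e (c.q i) := fun i => ⟨c.part.1 i, (c.part.mul_e i).2⟩
    have hsum : Sub A e (∑ i, c.q i) := c.part.2.2.symm ▸ hee
    have hcΦ : ∀ i, Cor M e (star (Φ (c.q i)) * Φ (c.q i)) := fun i =>
      ((hΦ.exp _ (hq i)).2.1.star' he.2).mul he.2 (hΦ.exp _ (hq i)).2.1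
    have hRc : Cor M e (η • Φ e + (‖m‖ ^ 2) ^ 2 • P) :=
      ((hΦ.exp e hee).2.1.rsmul _).add ((sub_cor hA he hP).rsmul _)
    have hmemL : ∀ i, star (Φ (c.q i)) * Φ (c.q i) ∈ A := fun i =>
      mul_mem (star_mem (hΦ.exp _ (hq i)).1) (hΦ.exp _ (hq i)).1
    have hop : ∑ i, star (Φ (c.q i)) * Φ (c.q i) ≤ η • Φ e + (‖m‖ ^ 2) ^ 2 • P := by
      refine le_of_spot hA he (sum_mem fun i _ => hmemL i)
        (add_mem (vn_smul A _ (hΦ.exp e hee).1) (vn_smul A _ hP.1.1))
        (Cor.sum _ fun i _ => hcΦ i) hRc (isSelfAdjoint_sum _ fun i _ => IsSelfAdjoint.star_mul_self _)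
        (((IsSelfAdjoint.all η).smul
          (IsSelfAdjoint.of_nonneg (dens_nonneg hA he hτ hΦ hee))).add
          ((IsSelfAdjoint.all _).smul hP.1.2.isSelfAdjoint)) fun χ => ?_
      have hL : ∀ i, (Op.ev χ.1 (star (Φ (c.q i)) * Φ (c.q i))).re = val χ (Φ (c.q i)) ^ 2 :=
        fun i => by
        rw [Op.ev_mul _ (star_mem (hΦ.exp _ (hq i)).1) (hΦ.exp _ (hq i)).1,
          Op.ev_star _ (hΦ.exp _ (hq i)).1, Complex.star_def, Complex.mul_re, Complex.conj_re,
          Complex.conj_im, Op.ev_im_eq_zero _ (hΦ.exp _ (hq i)).1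
            (IsSelfAdjoint.of_nonneg (dens_nonneg hA he hτ hΦ (hq i))), val]
        ring
      have hR : (Op.ev χ.1 (η • Φ e + (‖m‖ ^ 2) ^ 2 • P)).re =
          η * val χ (Φ e) + (‖m‖ ^ 2) ^ 2 * val χ P := by
        rw [Op.ev_add _ (vn_smul A _ (hΦ.exp e hee).1) (vn_smul A _ hP.1.1),
          RCLike.real_smul_eq_coe_smul (K := ℂ), RCLike.real_smul_eq_coe_smul (K := ℂ),
          Op.ev_smul _ _ (hΦ.exp e hee).1, Op.ev_smul _ _ hP.1.1, Complex.add_re]
        exact congrArg₂ (· + ·) (Complex.re_ofReal_mul _ _) (Complex.re_ofReal_mul _ _)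
      rw [Op.ev_sum _ _ _ fun i _ => hmemL i, Complex.re_sum, hR]
      simp only [hL]
      have hφe : val χ (Φ e) = ∑ i, val χ (Φ (c.q i)) := by
        rw [← val_dens_sum hA he hτ hΦ _ (fun i _ => hq i) hsum χ, c.part.2.2]
      have hn := fun i => val_dens_nonneg hA he hτ hΦ (hq i) χ
      rcases val_zero_or_one hP χ with h | h
      · rw [h, mul_zero, add_zero, hφe, Finset.mul_sum]
        refine Finset.sum_le_sum fun i _ => ?_
        have hi : val χ (Φ (c.q i)) ≤ η := by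
          by_contra hlt
          push Not at hlt
          have := hc i χ (by rwa [(c.part.mul_e i).1])
          rw [h] at this
          exact zero_ne_one this
        nlinarith [hn i]
      · rw [h, mul_one]
        refine (Finset.sum_sq_le_sq_sum_of_nonneg fun i _ => hn i).trans ?_
        rw [← hφe]
        have h1 := pow_le_pow_left₀ (val_dens_nonneg hA he hτ hΦ hee χ)
          (val_dens_le hA he hτ hΦ hee χ) 2
        linarith [mul_nonneg hη.le (val_dens_nonneg hA he hτ hΦ hee χ)]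
    have h1 := tr_mono hτ he.2 (Cor.sum _ fun i _ => hcΦ i) hRc hop
    rw [map_sum, Complex.re_sum, map_add, Complex.add_re, tr_rsmul, tr_rsmul,
      Finset.sum_congr rfl fun i _ => (n2_sq hτ he.2 (hΦ.exp _ (hq i)).2.1).symm] at h1
    have h2 : η * T ≤ f₀ / 2 := by
      rw [div_mul_eq_mul_div, div_le_iff₀ (by positivity)]
      nlinarith
    have h3 : (‖m‖ ^ 2) ^ 2 * (τ P).re ≤ (‖m‖ ^ 2) ^ 2 * δ ^ 2 :=
      mul_le_mul_of_nonneg_left hPτ (sq_nonneg _)
    linarith [hlow c]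
  have spot_of : ∀ f, Sub A e f → f ≠ 0 → ∃ χ : Spot A e, val χ f = 1 := fun f hf hf0 => by
    by_contra hno
    push Not at hno
    refine hf0 (eq_of_spot hA he hf.1.1 (zero_mem _) (sub_cor hA he hf) Cor.zero fun χ => ?_)
    rw [Op.ev_zero]
    exact (ev_sub_proj hf χ).resolve_right fun h => hno χ ((ev_eq_one_iff hf χ).1 h)
  -- a maximal orthogonal family of pieces with a common part
  let Pieces : ℕ → Prop := fun k => ∃ (g : Fin k → (H →L[ℂ] H)) (f : H →L[ℂ] H),
    Sub A e f ∧ f ≠ 0 ∧ (∀ i, Sub A e (g i)) ∧ (∀ i j, i ≠ j → g i * g j = 0) ∧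
      ∀ i, ∀ χ : Spot A e, val χ f = 1 → val χ (G (g i)) = 1
  have hbound : ∀ k, Pieces k → (k : ℝ) * η ≤ ‖m‖ ^ 2 := by
    rintro k ⟨g, f, hf, hf0, hg, horth, hGg⟩
    obtain ⟨χ, hχ⟩ := spot_of f hf hf0
    have hsum : Sub A e (∑ i, g i) := by
      refine ⟨⟨sum_mem fun i _ => (hg i).1.1, ?_, isSelfAdjoint_sum _ fun i _ =>
        (hg i).1.2.isSelfAdjoint⟩, ?_⟩
      · show (∑ i, g i) * (∑ i, g i) = ∑ i, g i
        rw [Finset.sum_mul]
        refine Finset.sum_congr rfl fun i _ => ?_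
        rw [Finset.mul_sum, Finset.sum_eq_single i (fun j _ hj => horth i j (Ne.symm hj)) (by simp),
          (hg i).1.2.isIdempotentElem.eq]
      · rw [Finset.sum_mul, Finset.sum_congr rfl fun i _ => (hg i).2]
    calc (k : ℝ) * η = ∑ _i : Fin k, η := by simp
      _ ≤ ∑ i, val χ (Φ (g i)) := Finset.sum_le_sum fun i _ => hGη _ (hg i) χ (hGg i χ hχ)
      _ = val χ (Φ (∑ i, g i)) := (val_dens_sum hA he hτ hΦ _ (fun i _ => hg i) hsum χ).symm
      _ ≤ ‖m‖ ^ 2 := val_dens_le hA he hτ hΦ hsum χ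
  have hP1 : Pieces 1 := ⟨fun _ => e, G e, hGs e hee, hne, fun _ => hee,
    fun i j h => absurd (Subsingleton.elim i j) h, fun _ _ h => h⟩
  obtain ⟨k, hk, hk'⟩ : ∃ k, Pieces (k + 1) ∧ ¬ Pieces (k + 2) := by
    by_contra hno
    push Not at hno
    have hall : ∀ k, Pieces (k + 1) := fun k => by
      induction k with
      | zero => exact hP1
      | succ k ih => exact hno k ih
    obtain ⟨N, hN⟩ := exists_nat_gt (‖m‖ ^ 2 / η)
    have := hbound _ (hall N)
    rw [div_lt_iff₀ hη] at hN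
    push_cast at this
    nlinarith
  obtain ⟨g, f, hf, hf0, hg, horth, hGg⟩ := hk
  have hgR : ∀ R, Sub A e R → Sub A e (g 0 * R) := fun R hR => sub_mul' hA he (hg 0).1 hR
  set θ : (H →L[ℂ] H) → (H →L[ℂ] H) := fun R => f * G (g 0 * R) with hθdef
  have hθs : ∀ R, Sub A e R → Sub A e (θ R) := fun R hR => sub_mul' hA he hf.1 (hGs _ (hgR R hR))
  have hθev : ∀ R, Sub A e R → ∀ χ : Spot A e, val χ (θ R) = 1 ↔ val χ f = 1 ∧ val χ (G (g 0 * R)) = 1 :=
    fun R hR χ => by
    rw [hθdef, val_mul_eq hf (hGs _ (hgR R hR)).1.1]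
    rcases val_zero_or_one hf χ with a | a <;> simp [a]
  have hmonoθ : ∀ R S, Sub A e R → Sub A e S → R * S = R → ∀ χ : Spot A e, val χ (θ R) = 1 → val χ (θ S) = 1 :=
    fun R S hR hS hRS χ h => by
    obtain ⟨h1, h2⟩ := (hθev R hR χ).1 h
    refine (hθev S hS χ).2 ⟨h1, hGmono _ _ (hgR R hR) (hgR S hS) ?_ χ h2⟩
    rw [mul_assoc, ← mul_assoc R, hA.2.1 _ hR.1.1 _ (hg 0).1.1, mul_assoc, hRS, ← mul_assoc,
      (hg 0).1.2.isIdempotentElem.eq]
  have hsplit : ∀ R, Sub A e R → ∀ χ : Spot A e, val χ (θ R) = 1 → val χ (θ (e - R)) = 1 → False := by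
    intro R hR χ h1 h2
    have hR' := sub_compl hA he hR
    set f' := θ R * θ (e - R)
    have hf's : Sub A e f' := sub_mul' hA he (hθs R hR).1 (hθs _ hR')
    refine hk' ⟨Fin.cons (g 0 * R) (Fin.cons (g 0 * (e - R)) fun i : Fin k => g i.succ), f',
      hf's, fun h0 => ?_, ?_, ?_, ?_⟩
    · have h3 := val_mul_eq (hθs R hR) (hθs _ hR').1.1 χ
      rw [show θ R * θ (e - R) = f' from rfl, h0, h1, h2] at h3
      simp [val, Op.ev_zero] at h3
    · intro i
      cases i using Fin.cases with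
      | zero => simpa using hgR R hR
      | succ i =>
        cases i using Fin.cases with
        | zero => simpa using hgR _ hR'
        | succ i => simpa using hg i.succ
    · have c1 : g 0 * R * (g 0 * (e - R)) = 0 := by
        rw [mul_assoc, ← mul_assoc R, hA.2.1 _ hR.1.1 _ (hg 0).1.1, mul_assoc (g 0) R, mul_sub R,
          hR.2, hR.1.2.isIdempotentElem.eq, sub_self, mul_zero, mul_zero]
      have c2 : ∀ (X : H →L[ℂ] H) (i : Fin k), X ∈ A → g 0 * X * g i.succ = 0 := fun X i hX => by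
        rw [mul_assoc, hA.2.1 X hX _ (hg _).1.1, ← mul_assoc, horth 0 i.succ (Fin.succ_ne_zero i).symm,
          zero_mul]
      intro i j hij
      have hsym : ∀ X Y : H →L[ℂ] H, X ∈ A → Y ∈ A → X * Y = 0 → Y * X = 0 := fun X Y hX hY h => by
        rw [hA.2.1 Y hY X hX, h]
      cases i using Fin.cases with
      | zero =>
        cases j using Fin.cases with
        | zero => exact absurd rfl hij
        | succ j =>
          cases j using Fin.cases with
          | zero => simpa using c1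
          | succ j => simpa using c2 R j hR.1.1
      | succ i =>
        cases i using Fin.cases with
        | zero =>
          cases j using Fin.cases with
          | zero => simpa using hsym _ _ (hgR R hR).1.1 (hgR _ hR').1.1 c1
          | succ j =>
            cases j using Fin.cases with
            | zero => exact absurd rfl hij
            | succ j => simpa using c2 _ j hR'.1.1
        | succ i =>
          cases j using Fin.cases with
          | zero => simpa using hsym _ _ (hgR R hR).1.1 (hg _).1.1 (c2 R i hR.1.1)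
          | succ j =>
            cases j using Fin.cases with
            | zero => simpa using hsym _ _ (hgR _ hR').1.1 (hg _).1.1 (c2 _ i hR'.1.1)
            | succ j =>
              simpa using horth i.succ j.succ fun h => hij (by
                rw [Fin.succ_inj] at h; rw [h])
    · intro i χ' h'
      have h3 := val_mul_eq (hθs R hR) (hθs _ hR').1.1 χ'
      rw [show θ R * θ (e - R) = f' from rfl, h'] at h3
      have ha : val χ' (θ R) = 1 := (val_zero_or_one (hθs R hR) χ').resolve_left fun h => by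
        rw [h, zero_mul] at h3; exact one_ne_zero h3
      have hb : val χ' (θ (e - R)) = 1 := by rw [ha, one_mul] at h3; exact h3.symm
      cases i using Fin.cases with
      | zero => simpa using ((hθev R hR χ').1 ha).2
      | succ i =>
        cases i using Fin.cases with
        | zero => simpa using ((hθev _ hR' χ').1 hb).2
        | succ i => simpa using hGg i.succ χ' ((hθev R hR χ').1 ha).1
  have hdisj : ∀ R S, Sub A e R → Sub A e S → R * S = 0 → ∀ χ : Spot A e, val χ (θ R) = 1 →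
      val χ (θ S) = 1 → False := fun R S hR hS hRS χ h1 h2 =>
    hsplit R hR χ h1 (hmonoθ S (e - R) hS (sub_compl hA he hR) (by
      rw [mul_sub, hS.2, hA.2.1 S hS.1.1 R hR.1.1, hRS, sub_zero]) χ h2)
  refine ⟨η, f, θ, hη, hf, hf0, hθs, fun R S hR hS hRS => ?_, fun R S hR hS hRS => ?_, fun c => ?_,
    fun R hR χ h => ?_⟩
  · refine eq_of_spot hA he (mul_mem (hθs R hR).1.1 (hθs S hS).1.1) (hθs R hR).1.1
      (sub_cor hA he (sub_mul' hA he (hθs R hR).1 (hθs S hS))) (sub_cor hA he (hθs R hR)) fun χ => ?_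
    rw [Op.ev_mul _ (hθs R hR).1.1 (hθs S hS).1.1]
    rcases ev_sub_proj (hθs R hR) χ with a | a
    · rw [a, zero_mul]
    · rw [(ev_eq_one_iff (hθs S hS) χ).2
        (hmonoθ R S hR hS hRS χ ((ev_eq_one_iff (hθs R hR) χ).1 a)), mul_one]
  · refine eq_of_spot hA he (mul_mem (hθs R hR).1.1 (hθs S hS).1.1) (zero_mem _)
      (sub_cor hA he (sub_mul' hA he (hθs R hR).1 (hθs S hS))) Cor.zero fun χ => ?_
    rw [Op.ev_mul _ (hθs R hR).1.1 (hθs S hS).1.1, Op.ev_zero]
    rcases ev_sub_proj (hθs R hR) χ with a | a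
    · rw [a, zero_mul]
    · rcases ev_sub_proj (hθs S hS) χ with b | b
      · rw [b, mul_zero]
      · exact (hdisj R S hR hS hRS χ ((ev_eq_one_iff (hθs R hR) χ).1 a)
          ((ev_eq_one_iff (hθs S hS) χ).1 b)).elim
  · have hq : ∀ i, Sub A e (c.q i) := fun i => ⟨c.part.1 i, (c.part.mul_e i).2⟩
    refine eq_of_spot hA he (sum_mem fun i _ => (hθs _ (hq i)).1.1) hf.1.1
      (Cor.sum _ fun i _ => sub_cor hA he (hθs _ (hq i))) (sub_cor hA he hf) fun χ => ?_
    rw [Op.ev_sum _ _ _ fun i _ => (hθs _ (hq i)).1.1]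
    rcases ev_sub_proj hf χ with a | a
    · rw [a]
      refine Finset.sum_eq_zero fun i _ => (ev_sub_proj (hθs _ (hq i)) χ).resolve_right fun h => ?_
      have := ((hθev _ (hq i) χ).1 ((ev_eq_one_iff (hθs _ (hq i)) χ).1 h)).1
      simp [val, a] at this
    · have hfχ := (ev_eq_one_iff hf χ).1 a
      have key : ∀ s : Finset (Fin c.n), Sub A e (∑ i ∈ s, g 0 * c.q i) ∧
          (val χ (G (∑ i ∈ s, g 0 * c.q i)) = 1 → ∃ i ∈ s, val χ (G (g 0 * c.q i)) = 1) := by
        intro s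
        induction s using Finset.induction_on with
        | empty =>
          exact ⟨⟨⟨zero_mem _, .zero _⟩, zero_mul e⟩, fun h => by
            simp [hG0, val, Op.ev_zero] at h⟩
        | @insert i s hi ih =>
          have hort : g 0 * c.q i * ∑ j ∈ s, g 0 * c.q j = 0 := by
            rw [Finset.mul_sum]
            refine Finset.sum_eq_zero fun j hj => ?_
            rw [mul_assoc, ← mul_assoc (c.q i), hA.2.1 _ (c.part.1 i).1 _ (hg 0).1.1,
              mul_assoc (g 0) (c.q i), c.part.2.1 i j (fun h => hi (h ▸ hj)), mul_zero, mul_zero]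
          have hsub : Sub A e (g 0 * c.q i + ∑ j ∈ s, g 0 * c.q j) := by
            refine ⟨⟨add_mem (hgR _ (hq i)).1.1 ih.1.1.1, ?_,
              (hgR _ (hq i)).1.2.isSelfAdjoint.add ih.1.1.2.isSelfAdjoint⟩, ?_⟩
            · show _ * _ = _
              rw [add_mul, mul_add, mul_add, hort,
                hA.2.1 _ ih.1.1.1 _ (hgR _ (hq i)).1.1, hort,
                (hgR _ (hq i)).1.2.isIdempotentElem.eq, ih.1.1.2.isIdempotentElem.eq]
              abel
            · rw [add_mul, (hgR _ (hq i)).2, ih.1.2]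
          rw [Finset.sum_insert hi]
          refine ⟨hsub, fun h => ?_⟩
          rcases hGadd _ _ (hgR _ (hq i)) ih.1 hsub hort χ h with h1 | h1
          · exact ⟨i, Finset.mem_insert_self i s, h1⟩
          · obtain ⟨j, hj, hj'⟩ := ih.2 h1
            exact ⟨j, Finset.mem_insert_of_mem hj, hj'⟩
      have hsum : ∑ i, g 0 * c.q i = g 0 := by rw [← Finset.mul_sum, c.part.2.2, (hg 0).2]
      obtain ⟨i, -, hi⟩ := (key Finset.univ).2 (by rw [hsum]; exact hGg 0 χ hfχ)
      have hi' : val χ (θ (c.q i)) = 1 := (hθev _ (hq i) χ).2 ⟨hfχ, hi⟩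
      rw [Finset.sum_eq_single i (fun j _ hj => (ev_sub_proj (hθs _ (hq j)) χ).resolve_right
        fun h => hdisj _ _ (hq j) (hq i) (c.part.2.1 j i hj) χ
          ((ev_eq_one_iff (hθs _ (hq j)) χ).1 h) hi') (by simp), a]
      exact (ev_eq_one_iff (hθs _ (hq i)) χ).2 hi'
  · obtain ⟨-, h2⟩ := (hθev R hR χ).1 h
    refine (hGη _ (hgR R hR) χ h2).trans (val_dens_mono hA he hτ hΦ (hgR R hR) hR ?_ χ)
    rw [mul_assoc, hR.1.2.isIdempotentElem.eq]

end Vale.Agent.P078.Orth.Atom
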