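import Vale.Agent.P078.Orth.AtomTools

/-!
The atom lemma: a homomorphism of the projections of the MASA dominated by the densities of an
operator with atoms.
-/

namespace Vale.Agent.P078.Orth.Atom

open Filter Topology MKS Singular

variable {H : Type} [NormedAddCommGroup H] [InnerProductSpace ℂ H] [CompleteSpace H]
variable {M A : VonNeumannAlgebra H} {e : H →L[ℂ] H} {τ : (H →L[ℂ] H) →ₗ[ℂ] ℂ}
variable (hA : IsMASA M A) (he : IsPr A e) (hτ : IsTrace M e τ)
include hA he hτ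

theorem lim_mem {T : ℕ → (H →L[ℂ] H)} {L : H →L[ℂ] H} (hT : ∀ n, T n ∈ A ∧ Cor M e (T n))
    (hL : Cor M e L) (h : Tendsto (fun n => n2 τ (T n - L)) atTop (𝓝 0)) : L ∈ A := by
  refine hA.2.2 L hL.1 fun b hb => sub_eq_zero.1 (eq_zero_of_n2 hτ he.2
    ((cor_bmul hA he hb hL).1.sub (cor_bmul hA he hb hL).2) ?_)
  refine ge_of_tendsto (by simpa using h.const_mul (2 * ‖b‖)) (Eventually.of_forall fun n => ?_)
  have hd := hL.sub (hT n).2
  have e1 : b * L - L * b = b * (L - T n) + -((L - T n) * b) := by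
    rw [mul_sub, sub_mul, hA.2.1 b hb _ (hT n).1]; abel
  rw [e1]
  refine (n2_add_le hτ he.2 (cor_bmul hA he hb hd).1 (cor_bmul hA he hb hd).2.neg).trans ?_
  rw [n2_neg hτ he.2]
  have h1 := n2_mul_le hτ he.2 (cor_bmul hA he hb hd).1 hd
  have h2 := n2_mul_right_le hτ he.2 (cor_bmul hA he hb hd).2 hd
  rw [n2_sub_comm hτ he.2 (a := L) (b := T n)] at h1 h2
  linarith

theorem n2_sub_mul {P Q : H →L[ℂ] H} (hP : Sub A e P) (hQ : IsPr A Q) :
    n2 τ (P - P * Q) ^ 2 = (τ P).re - (τ (P * Q)).re := by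
  have hPc := sub_cor hA he hP
  have hd := hPc.sub (cor_bmul hA he hQ.1 hPc).2
  rw [n2_sq hτ he.2 hd]
  have hc : Q * P = P * Q := hA.2.1 Q hQ.1 P hP.1.1
  have key : star (P - P * Q) * (P - P * Q) = P - P * Q := by
    rw [star_sub, star_mul, hP.1.2.isSelfAdjoint.star_eq, hQ.2.isSelfAdjoint.star_eq, hc]
    simp only [sub_mul, mul_sub, ← mul_assoc, hP.1.2.isIdempotentElem.eq]
    rw [mul_assoc P Q P, hc, ← mul_assoc, hP.1.2.isIdempotentElem.eq, mul_assoc P Q Q,
      hQ.2.isIdempotentElem.eq]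
    abel
  rw [key, map_sub, Complex.sub_re]

theorem n2_proj {P : H →L[ℂ] H} (hP : Sub A e P) : n2 τ P ^ 2 = (τ P).re := by
  rw [n2_sq hτ he.2 (sub_cor hA he hP), hP.1.2.isSelfAdjoint.star_eq,
    hP.1.2.isIdempotentElem.eq]

variable (hC : CompleteStatement)
include hC

/-- The infimum of a family of projections closed under products. -/
theorem exists_inf {S : Set (H →L[ℂ] H)} (hS : ∀ P ∈ S, Sub A e P) (hne : S.Nonempty)
    (hmul : ∀ P ∈ S, ∀ Q ∈ S, P * Q ∈ S) :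
    ∃ G, Sub A e G ∧ (∀ P ∈ S, G * P = G) ∧ ∀ δ : ℝ, 0 < δ → ∃ P ∈ S, n2 τ (P - G) ≤ δ := by
  have hnn : ∀ P ∈ S, 0 ≤ (τ P).re := fun P hP =>
    tr_nonneg hτ he.2 (sub_cor hA he (hS P hP)) (hS P hP).1.2.nonneg
  set s := sInf ((fun P => (τ P).re) '' S) with hs
  have hbdd : BddBelow ((fun P => (τ P).re) '' S) := ⟨0, by rintro _ ⟨P, hP, rfl⟩; exact hnn P hP⟩
  have hsle : ∀ P ∈ S, s ≤ (τ P).re := fun P hP => csInf_le hbdd ⟨P, hP, rfl⟩
  have hex : ∀ n : ℕ, ∃ P ∈ S, (τ P).re < s + 1 / (n + 1) := fun n => by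
    obtain ⟨_, ⟨P, hP, rfl⟩, h⟩ := exists_lt_of_csInf_lt (hne.image _)
      (lt_add_of_pos_right s (show (0 : ℝ) < 1 / (n + 1) by positivity))
    exact ⟨P, hP, h⟩
  choose R hR hRs using hex
  set P : ℕ → (H →L[ℂ] H) := fun n => Nat.rec (R 0) (fun k Q => Q * R (k + 1)) n with hP
  have hPS : ∀ n, P n ∈ S := fun n => by
    induction n with
    | zero => exact hR 0
    | succ k ih => exact hmul _ ih _ (hR (k + 1))
  have hsub := fun n => hS _ (hPS n)
  have hcor : ∀ n, Cor M e (P n) := fun n => sub_cor hA he (hsub n)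
  have hPR : ∀ n, P n * R n = P n := fun n => by
    cases n with
    | zero => exact (hsub 0).1.2.isIdempotentElem.eq
    | succ k =>
      show P k * R (k + 1) * R (k + 1) = P k * R (k + 1)
      rw [mul_assoc, (hS _ (hR (k + 1))).1.2.isIdempotentElem.eq]
  have hPle : ∀ n, (τ (P n)).re ≤ (τ (R n)).re := fun n => by
    have h := n2_sub_mul hA he hτ (hS _ (hR n)) (hsub n).1
    rw [hA.2.1 _ (hS _ (hR n)).1.1 _ (hsub n).1.1, hPR n] at h
    nlinarith [sq_nonneg (n2 τ (R n - P n))]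
  have hnest : ∀ n k, n ≤ k → P n * P k = P k := fun n k hnk => by
    induction k, hnk using Nat.le_induction with
    | base => exact (hsub n).1.2.isIdempotentElem.eq
    | succ k _ ih =>
      show P n * (P k * R (k + 1)) = P k * R (k + 1)
      rw [← mul_assoc, ih]
  have hdist : ∀ n k, n ≤ k → n2 τ (P n - P k) ^ 2 ≤ 1 / (n + 1) := fun n k hnk => by
    have h := n2_sub_mul hA he hτ (hsub n) (hsub k).1
    rw [hnest n k hnk] at h
    linarith [hsle _ (hPS k), hPle n, hRs n]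
  have hcauchy : ∀ δ : ℝ, 0 < δ → ∃ N, ∀ i ≥ N, ∀ j ≥ N, n2 τ (P i - P j) ≤ δ := fun δ hδ => by
    obtain ⟨N, hN⟩ := exists_nat_gt (1 / δ ^ 2)
    refine ⟨N, fun i hi j hj => ?_⟩
    have key : ∀ i j, N ≤ i → i ≤ j → n2 τ (P i - P j) ≤ δ := fun i j hi hij => by
      refine le_of_sq_le_sq ((hdist i j hij).trans ?_) hδ.le
      rw [div_le_iff₀ (by positivity)]
      have h1 : (N : ℝ) ≤ i := by exact_mod_cast hi
      rw [div_lt_iff₀ (by positivity)] at hN
      nlinarith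
    rcases le_total i j with h | h
    · exact key i j hi h
    · rw [n2_sub_comm hτ he.2]; exact key j i hj h
  obtain ⟨G, hG, -, hlim⟩ := hC H M e τ (hA.1 e he.1) he.2 hτ P 1
    (fun n => ⟨hcor n, (hsub n).1.2.norm_le⟩) hcauchy
  have hGA := lim_mem hA he hτ (fun n => ⟨(hsub n).1.1, hcor n⟩) hG hlim
  have hGs : star G = G := by
    refine n2_limit_unique hτ he.2 hcor (hG.star' he.2) hG (hlim.congr fun n => ?_) hlim
    rw [← n2_star hτ he.2 ((hcor n).sub hG), star_sub, (hsub n).1.2.isSelfAdjoint.star_eq]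
  have hright : ∀ Q, IsPr A Q → Tendsto (fun n => n2 τ (P n * Q - G * Q)) atTop (𝓝 0) := fun Q hQ =>
    squeeze_zero (fun n => n2_nonneg _) (fun n => by
      rw [← sub_mul]
      have hd := (hcor n).sub hG
      exact (n2_mul_right_le hτ he.2 (cor_bmul hA he hQ.1 hd).2 hd).trans
        (mul_le_of_le_one_left (n2_nonneg _) hQ.2.norm_le)) hlim
  have habsorb : ∀ Q, IsPr A Q → (∀ n, s ≤ (τ (P n * Q)).re) → G * Q = G := fun Q hQ hlow => by
    have hGQ := (cor_bmul hA he hQ.1 hG).2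
    refine n2_limit_unique hτ he.2 hcor hGQ hG ?_ hlim
    have h2 : Tendsto (fun n => n2 τ (P n - P n * Q)) atTop (𝓝 0) := by
      refine squeeze_zero (fun n => n2_nonneg _) (g := fun n : ℕ => Real.sqrt (1 / (n + 1)))
        (fun n => ?_) ?_
      · rw [← Real.sqrt_sq (n2_nonneg (P n - P n * Q))]
        refine Real.sqrt_le_sqrt ?_
        rw [n2_sub_mul hA he hτ (hsub n) hQ]
        linarith [hlow n, hPle n, hRs n]
      · simpa using (tendsto_one_div_add_atTop_nhds_zero_nat (𝕜 := ℝ)).sqrt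
    refine squeeze_zero (fun n => n2_nonneg _) (fun n => ?_) (by simpa using h2.add (hright Q hQ))
    have hPQ := (cor_bmul hA he hQ.1 (hcor n)).2
    have := n2_add_le hτ he.2 ((hcor n).sub hPQ) (hPQ.sub hGQ)
    rwa [sub_add_sub_cancel] at this
  have hGG : G * G = G := by
    have h1 : ∀ n, G * P n = G := fun n => habsorb _ (hsub n).1 fun k =>
      hsle _ (hmul _ (hPS k) _ (hPS n))
    refine n2_limit_unique hτ he.2 (T := fun n => G * P n) (fun n => (hG.mul he.2 (hcor n)))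
      (hG.mul he.2 hG) hG ?_ ?_
    · refine squeeze_zero (fun n => n2_nonneg _) (fun n => ?_)
        (by simpa using hlim.const_mul ‖G‖)
      rw [← mul_sub]
      exact n2_mul_le hτ he.2 (hG.mul he.2 ((hcor n).sub hG)) ((hcor n).sub hG)
    · simp only [h1, sub_self, n2_zero]
      exact tendsto_const_nhds
  refine ⟨G, ⟨⟨hGA, ⟨hGG, hGs⟩⟩, hG.mul_right he.2⟩,
    fun Q hQ => habsorb Q (hS Q hQ).1 fun n => hsle _ (hmul _ (hPS n) _ hQ), fun δ hδ => ?_⟩
  obtain ⟨n, hn⟩ := (hlim.eventually_lt_const hδ).exists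
  exact ⟨P n, hPS n, hn.le⟩

end Vale.Agent.P078.Orth.Atom
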