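import Vale.Agent.P078.Orth.AtomHom

/-!
The atom lemma: an operator with atoms correlates with an operator intertwining the MASA on one
side.
-/

namespace Vale.Agent.P078.Orth.Atom

open Filter Topology MKS Singular

variable {H : Type} [NormedAddCommGroup H] [InnerProductSpace ℂ H] [CompleteSpace H]
variable {M A : VonNeumannAlgebra H} {e : H →L[ℂ] H} {τ : (H →L[ℂ] H) →ₗ[ℂ] ℂ}

theorem cut_sub (c : Cut A e) (i : Fin c.n) : Sub A e (c.q i) :=
  ⟨c.part.1 i, (c.part.mul_e i).2⟩

/-- The selection of `m` by a family of right projections. -/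
noncomputable def sel (m : H →L[ℂ] H) (c : Cut A e) (p : Fin c.n → (H →L[ℂ] H)) : H →L[ℂ] H :=
  ∑ i, c.q i * m * p i

variable (hA : IsMASA M A) (he : IsPr A e) (hτ : IsTrace M e τ)
include hA he hτ

theorem cor_sel {m : H →L[ℂ] H} (hm : Cor M e m) (c : Cut A e) {p : Fin c.n → (H →L[ℂ] H)}
    (hp : ∀ i, Sub A e (p i)) : Cor M e (sel m c p) :=
  Cor.sum _ fun i _ => ((sub_cor hA he (cut_sub c i)).mul he.2 hm).mul he.2 (sub_cor hA he (hp i))

theorem norm_sel_le {m : H →L[ℂ] H} (c : Cut A e) {p : Fin c.n → (H →L[ℂ] H)}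
    (hp : ∀ i, Sub A e (p i)) (horth : ∀ i j, i ≠ j → p i * p j = 0) : ‖sel m c p‖ ≤ ‖m‖ := by
  have hs : sel m c p * star (sel m c p) = ∑ i, c.q i * (m * p i * star m) * c.q i := by
    simp only [sel, star_sum, star_mul, Finset.sum_mul, cut_star]
    refine Finset.sum_congr rfl fun i _ => ?_
    rw [Finset.mul_sum, Finset.sum_eq_single i]
    · rw [(hp i).1.2.isSelfAdjoint.star_eq]
      calc c.q i * m * p i * (p i * (star m * c.q i)) = c.q i * m * (p i * p i) * star m * c.q i := by
            simp only [mul_assoc]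
        _ = _ := by rw [(hp i).1.2.isIdempotentElem.eq]; simp only [mul_assoc]
    · intro j _ hj
      rw [(hp j).1.2.isSelfAdjoint.star_eq]
      calc c.q i * m * p i * (p j * (star m * c.q j)) = c.q i * m * (p i * p j) * (star m * c.q j) := by
            simp only [mul_assoc]
        _ = 0 := by rw [horth i j (Ne.symm hj)]; simp
    · simp
  have hterm : ∀ i, c.q i * (m * p i * star m) * c.q i ≤ ‖m‖ ^ 2 • c.q i := by
    intro i
    have h1 := conj_le (conj_le (proj_le_one (hp i).1.2) (star m)) (c.q i)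
    rw [star_star, mul_one, cut_star] at h1
    have h2 : m * star m ≤ (‖m‖ ^ 2 : ℝ) • (1 : H →L[ℂ] H) := by
      refine (bounds_of_norm_le (IsSelfAdjoint.mul_star_self m) ?_).2
      rw [CStarRing.norm_self_mul_star, sq]
    have h3 := conj_le h2 (c.q i)
    rw [cut_star, mul_smul_comm, mul_one, smul_mul_assoc, (c.part.1 i).2.isIdempotentElem.eq] at h3
    exact h1.trans h3
  have h0 : 0 ≤ sel m c p * star (sel m c p) := mul_star_self_nonneg _
  have hle : sel m c p * star (sel m c p) ≤ ‖m‖ ^ 2 • (1 : H →L[ℂ] H) := by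
    rw [hs]
    refine (Finset.sum_le_sum fun i _ => hterm i).trans ?_
    rw [← Finset.smul_sum, c.part.2.2]
    exact smul_le_smul_of_nonneg_left (proj_le_one he.2) (sq_nonneg _)
  have h4 := norm_le_of_bounds (IsSelfAdjoint.mul_star_self _) (sq_nonneg ‖m‖)
    (le_trans (by
      rw [neg_smul]
      exact neg_nonpos.2 (smul_nonneg (sq_nonneg _) zero_le_one)) h0) hle
  rw [CStarRing.norm_self_mul_star, ← sq] at h4
  exact le_of_sq_le_sq h4 (norm_nonneg _)

variable (hC : CompleteStatement)
include hC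

/-- An operator with atoms correlates with an operator which intertwines the MASA on one side. -/
theorem one_side {m : H →L[ℂ] H} {Φ : (H →L[ℂ] H) → (H →L[ℂ] H)} (hΦ : Dens M A e τ m Φ)
    {f₀ : ℝ} (hf₀ : 0 < f₀) (hlow : ∀ c : Cut A e, f₀ ≤ ∑ i, n2 τ (Φ (c.q i)) ^ 2) :
    ∃ (ζ : H →L[ℂ] H) (c : ℕ → Cut A e) (p : ∀ n, Fin (c n).n → (H →L[ℂ] H)),
      Cor M e ζ ∧ (∀ a ∈ A, ζ * a * star ζ ∈ A) ∧ 0 < (τ (star ζ * m)).re ∧
      (∀ n i, Sub A e (p n i)) ∧ (∀ n, ‖sel m (c n) (p n)‖ ≤ ‖m‖) ∧
      Tendsto (fun n => n2 τ (sel m (c n) (p n) - ζ)) atTop (𝓝 0) := by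
  obtain ⟨η, f, θ, hη, hf, hf0, hθs, hθmono, hθorth, hθsum, hθη⟩ :=
    exists_hom hA he hτ hΦ hC hf₀ hlow
  set p : ∀ c : Cut A e, Fin c.n → (H →L[ℂ] H) := fun c i => θ (c.q i) with hpdef
  have hp : ∀ c i, Sub A e (p c i) := fun c i => hθs _ (cut_sub c i)
  have horth : ∀ c i j, i ≠ j → p c i * p c j = 0 := fun c i j h =>
    hθorth _ _ (cut_sub c i) (cut_sub c j) (c.part.2.1 i j h)
  set S : Cut A e → (H →L[ℂ] H) := fun c => sel m c (p c) with hS
  have hSc : ∀ c, Cor M e (S c) := fun c => cor_sel hA he hτ hΦ.cor c (hp c)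
  set a : Cut A e → ℝ := fun c => (τ (star (S c) * m)).re with hadef
  have hpc : ∀ c i, Cor M e (p c i) := fun c i => sub_cor hA he (hp c i)
  have hstar : ∀ c, star (S c) = ∑ i, p c i * (star m * c.q i) := fun c => by
    simp only [hS, sel, star_sum, star_mul, cut_star]
    exact Finset.sum_congr rfl fun i _ => by rw [(hp c i).1.2.isSelfAdjoint.star_eq]
  have hpair : ∀ c d : Cut A e, c.Refines d → τ (star (S d) * S c) = τ (star (S d) * m) := by
    intro c d hcd
    rw [hstar d, Finset.sum_mul, Finset.sum_mul, map_sum, map_sum]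
    refine Finset.sum_congr rfl fun j _ => ?_
    rcases hcd j with hz | ⟨k, hk⟩
    · simp [hz]
    have hq : d.q j * S c = d.q j * m * p c k := by
      simp only [hS, sel, Finset.mul_sum]
      rw [Finset.sum_eq_single k]
      · rw [← mul_assoc, ← mul_assoc, hk]
      · intro i _ hik
        rw [← mul_assoc, ← mul_assoc, ← hk, mul_assoc (d.q j), cut_mul, if_neg (Ne.symm hik)]
        simp
      · simp
    have hX : Cor M e (p d j * (star m * d.q j) * m) :=
      ((hpc d j).mul he.2 ((hΦ.cor.star' he.2).mul he.2 (sub_cor hA he (cut_sub d j)))).mul he.2 hΦ.cor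
    calc τ (p d j * (star m * d.q j) * S c) = τ (p d j * (star m * d.q j) * m * p c k) := by
          rw [show p d j * (star m * d.q j) * S c = p d j * star m * (d.q j * S c) by
            simp only [mul_assoc], hq]
          simp only [mul_assoc]
      _ = τ (p c k * (p d j * (star m * d.q j) * m)) := by
          rw [hτ.2.2.1 _ hX.1 _ (hpc c k).1 hX.2 (hpc c k).2]
      _ = _ := by
          rw [← mul_assoc, ← mul_assoc, hA.2.1 _ (hp c k).1.1 _ (hp d j).1.1]
          show τ (θ (d.q j) * θ (c.q k) * (star m * d.q j) * m) = _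
          rw [hθmono _ _ (cut_sub d j) (cut_sub c k) hk]
  have hself : ∀ c, (τ (star (S c) * S c)).re = a c := fun c => by
    rw [hpair c c (refines_refl c)]
  have hdist : ∀ c d : Cut A e, c.Refines d → n2 τ (S c - S d) ^ 2 = a c - a d := fun c d h => by
    rw [n2_sq hτ he.2 ((hSc c).sub (hSc d)), star_sub, sub_mul, mul_sub, mul_sub]
    simp only [map_sub, Complex.sub_re]
    rw [hself c, hself d, re_comm hτ he.2 (hSc d) (hSc c), hpair c d h]
    simp only [hadef]
    ring
  have hmono : ∀ c d : Cut A e, c.Refines d → a d ≤ a c := fun c d h => by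
    nlinarith [hdist c d h, sq_nonneg (n2 τ (S c - S d))]
  have hlowa : ∀ c, η * (τ f).re ≤ a c := fun c => by
    have hterm : ∀ i, η * (τ (p c i)).re ≤ (τ (p c i * (star m * c.q i) * m)).re := fun i => by
      have hΦi := hΦ.exp _ (cut_sub c i)
      rw [mul_assoc, mul_assoc, ← mul_assoc (star m), ← hΦi.2.2 _ (hp c i).1.1, ← tr_rsmul]
      have hc2 := (hpc c i).mul he.2 hΦi.2.1
      refine tr_mono hτ he.2 ((hpc c i).rsmul _) hc2 ?_
      have hsa : IsSelfAdjoint (p c i * Φ (c.q i)) :=
        (hp c i).1.2.isSelfAdjoint.commute_iff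
          (IsSelfAdjoint.of_nonneg (dens_nonneg hA he hτ hΦ (cut_sub c i))) |>.1
          (hA.2.1 _ (hp c i).1.1 _ hΦi.1)
      refine le_of_spot hA he (vn_smul A _ (hp c i).1.1) (mul_mem (hp c i).1.1 hΦi.1)
        ((hpc c i).rsmul _) hc2 ((IsSelfAdjoint.all η).smul (hp c i).1.2.isSelfAdjoint) hsa fun χ => ?_
      rw [RCLike.real_smul_eq_coe_smul (K := ℂ), Op.ev_smul _ _ (hp c i).1.1]
      refine (Complex.re_ofReal_mul _ _).trans_le ?_
      show η * val χ _ ≤ val χ _
      rw [val_mul_eq (hp c i) hΦi.1]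
      rcases val_zero_or_one (hp c i) χ with h | h
      · simp [h]
      · rw [h, mul_one, one_mul]; exact hθη _ (cut_sub c i) χ h
    calc η * (τ f).re = ∑ i, η * (τ (p c i)).re := by
          rw [← Finset.mul_sum, ← Complex.re_sum, ← map_sum, hθsum c]
      _ ≤ ∑ i, (τ (p c i * (star m * c.q i) * m)).re := Finset.sum_le_sum fun i _ => hterm i
      _ = a c := by
          rw [hadef]
          simp only
          rw [hstar c, Finset.sum_mul, map_sum, Complex.re_sum]
  -- a minimising sequence of cuts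
  set s := sInf (Set.range a)
  have hbdd : BddBelow (Set.range a) := ⟨η * (τ f).re, by rintro _ ⟨c, rfl⟩; exact hlowa c⟩
  have hsle : ∀ c, s ≤ a c := fun c => csInf_le hbdd ⟨c, rfl⟩
  have : Nonempty (Cut A e) := ⟨topCut he.1 he.2⟩
  have hex : ∀ n : ℕ, ∃ c, a c < s + 1 / (n + 1) := fun n => by
    obtain ⟨_, ⟨c, rfl⟩, h⟩ := exists_lt_of_csInf_lt (Set.range_nonempty a)
      (lt_add_of_pos_right s (show (0 : ℝ) < 1 / (n + 1) by positivity))
    exact ⟨c, h⟩
  choose d hd using hex
  set c : ℕ → Cut A e := fun n => Nat.rec (d 0) (fun k q => meet hA q (d (k + 1))) n with hc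
  have hdc : ∀ n, (d n).Refines (c n) := fun n => by
    cases n with
    | zero => exact refines_refl _
    | succ k => exact refines_meet_right hA _ _
  have hcc : ∀ n k, n ≤ k → (c n).Refines (c k) := fun n k hnk => by
    induction k, hnk using Nat.le_induction with
    | base => exact refines_refl _
    | succ k _ ih => exact refines_trans ih (refines_meet_left hA _ _)
  have hnear : ∀ n, a (c n) ≤ s + 1 / (n + 1) := fun n => (hmono _ _ (hdc n)).trans (hd n).le
  have hsmall : ∀ n q, (c n).Refines q → n2 τ (S (c n) - S q) ≤ Real.sqrt (1 / (n + 1)) :=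
    fun n q h => by
      rw [← Real.sqrt_sq (n2_nonneg (S (c n) - S q))]
      refine Real.sqrt_le_sqrt ?_
      rw [hdist _ _ h]
      linarith [hnear n, hsle q]
  have hsqrt : Tendsto (fun n : ℕ => Real.sqrt (1 / (n + 1))) atTop (𝓝 0) := by
    simpa using (tendsto_one_div_add_atTop_nhds_zero_nat (𝕜 := ℝ)).sqrt
  obtain ⟨ζ, hζ, -, hlim⟩ := hC H M e τ (hA.1 e he.1) he.2 hτ (fun n => S (c n)) ‖m‖
    (fun n => ⟨hSc _, norm_sel_le hA he hτ _ (hp _) (horth _)⟩) fun δ hδ => by
      obtain ⟨N, hN⟩ := (hsqrt.eventually_lt_const hδ).exists_forall_of_atTop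
      refine ⟨N, fun i hi j hj => ?_⟩
      rcases le_total i j with h | h
      · exact (hsmall i _ (hcc i j h)).trans (hN i hi).le
      · rw [n2_sub_comm hτ he.2]; exact (hsmall j _ (hcc j i h)).trans (hN j hj).le
  refine ⟨ζ, c, fun n => p (c n), hζ, fun b hb => ?_, ?_, fun n => hp _,
    fun n => norm_sel_le hA he hτ _ (hp _) (horth _), hlim⟩
  · -- the intertwining
    have hXc : Cor M e (ζ * b * star ζ) := by
      have := (hζ.mul he.2 (cor_bmul hA he hb (hζ.star' he.2)).1)
      rwa [← mul_assoc] at this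
    have key : ∀ R, Sub A e R → R * ζ = ζ * θ R := by
      intro R hR
      have htwo : IsPartition A e ![R, e - R] := by
        refine ⟨fun i => by fin_cases i <;> first | exact hR.1 | exact (sub_compl hA he hR).1,
          fun i j hij => ?_, by simp⟩
        have hRe : e * R = R := (sub_cor hA he hR).mul_left he.2
        fin_cases i <;> fin_cases j <;> first
          | exact absurd rfl hij
          | simp [mul_sub, sub_mul, hR.2, hRe, hR.1.2.isIdempotentElem.eq]
      set Q : Cut A e := ⟨2, _, htwo⟩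
      have hfix : ∀ q : Cut A e, Q.Refines q → R * S q = S q * θ R := fun q hq => by
        simp only [hS, sel, Finset.mul_sum, Finset.sum_mul]
        refine Finset.sum_congr rfl fun i _ => ?_
        rcases piece_of_refines hq i (0 : Fin 2) with hin | hout
        · have hin' : q.q i * R = q.q i := hin
          rw [← mul_assoc, ← mul_assoc, hA.2.1 _ hR.1.1 _ (cut_sub q i).1.1, hin',
            mul_assoc (q.q i * m), hθmono _ _ (cut_sub q i) hR hin']
        · have hout' : q.q i * R = 0 := hout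
          rw [← mul_assoc, ← mul_assoc, hA.2.1 _ hR.1.1 _ (cut_sub q i).1.1, hout',
            mul_assoc (q.q i * m), hθorth _ _ (cut_sub q i) hR hout']
          simp
      have hθR := sub_cor hA he (hθs R hR)
      have hRc := sub_cor hA he hR
      refine sub_eq_zero.1 (eq_zero_of_n2 hτ he.2 ((hRc.mul he.2 hζ).sub (hζ.mul he.2 hθR)) ?_)
      have hgo := (hlim.add hsqrt).const_mul 2
      rw [add_zero, mul_zero] at hgo
      refine ge_of_tendsto hgo (Eventually.of_forall fun n => ?_)
      set q := meet hA (c n) Q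
      have hd' : n2 τ (ζ - S q) ≤ n2 τ (S (c n) - ζ) + Real.sqrt (1 / (n + 1)) := by
        have h1 := n2_add_le hτ he.2 (hζ.sub (hSc (c n))) ((hSc (c n)).sub (hSc q))
        rw [sub_add_sub_cancel, n2_sub_comm hτ he.2 (a := ζ) (b := S (c n))] at h1
        linarith [hsmall n q (refines_meet_left hA _ _)]
      have hdc' := hζ.sub (hSc q)
      have e1 : R * ζ - ζ * θ R = R * (ζ - S q) + -((ζ - S q) * θ R) := by
        rw [mul_sub, sub_mul, hfix q (refines_meet_right hA _ _)]; abel
      rw [e1]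
      refine (n2_add_le hτ he.2 (hRc.mul he.2 hdc') (hdc'.mul he.2 hθR).neg).trans ?_
      rw [n2_neg hτ he.2]
      have h2 := (n2_mul_le hτ he.2 (hRc.mul he.2 hdc') hdc').trans
        (mul_le_of_le_one_left (n2_nonneg _) hR.1.2.norm_le)
      have h3 := (n2_mul_right_le hτ he.2 (hdc'.mul he.2 hθR) hdc').trans
        (mul_le_of_le_one_left (n2_nonneg _) (hθs R hR).1.2.norm_le)
      linarith
    refine hA.2.2 _ hXc.1 fun z hz => commute_of_proj hA.2.1 (fun P hP => ?_) hz
    have hR : Sub A e (P * e) := sub_mul' hA he hP ⟨he, he.2.isIdempotentElem.eq⟩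
    have hk := key _ hR
    have hk' : star ζ * (P * e) = θ (P * e) * star ζ := by
      simpa [star_mul, hR.1.2.isSelfAdjoint.star_eq, (hθs _ hR).1.2.isSelfAdjoint.star_eq,
        hP.2.isSelfAdjoint.star_eq, he.2.isSelfAdjoint.star_eq, hA.2.1 e he.1 P hP.1]
        using congrArg star hk
    calc P * (ζ * b * star ζ) = P * e * (ζ * b * star ζ) := by
          rw [mul_assoc P e, hXc.mul_left he.2]
      _ = ζ * (θ (P * e) * b) * star ζ := by rw [← mul_assoc, ← mul_assoc, hk, mul_assoc ζ]
      _ = ζ * (b * θ (P * e)) * star ζ := by rw [hA.2.1 _ (hθs _ hR).1.1 b hb]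
      _ = ζ * b * star ζ * (P * e) := by
          rw [mul_assoc (ζ * b) (star ζ), hk']; simp only [mul_assoc]
      _ = ζ * b * star ζ * P := by
          rw [hA.2.1 P hP.1 e he.1, ← mul_assoc, hXc.mul_right he.2]
  · have hpos : 0 < (τ f).re := by
      have h := n2_proj hA he hτ hf
      rcases (n2_nonneg (τ := τ) f).eq_or_lt with h0 | h0
      · exact absurd (eq_zero_of_n2 hτ he.2 (sub_cor hA he hf) h0.symm.le) hf0
      · nlinarith
    refine lt_of_lt_of_le (mul_pos hη hpos) (ge_of_tendsto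
      ((Complex.continuous_re.tendsto _).comp
        (tr_tendsto_left hτ he.2 (fun n => hSc (c n)) hζ hΦ.cor hlim))
      (Eventually.of_forall fun n => hlowa (c n)))

end Vale.Agent.P078.Orth.Atom
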