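import Vale.Agent.P078.Orth.Basic
import Vale.Agent.P078.MKS.Gelfand

/-!
The atom lemma: the trace inner product, expectations onto the MASA and values at points.
-/

namespace Vale.Agent.P078.Orth.Atom

open Filter Topology MKS Singular

variable {H : Type} [NormedAddCommGroup H] [InnerProductSpace ℂ H] [CompleteSpace H]
variable {M A : VonNeumannAlgebra H} {e : H →L[ℂ] H} {τ : (H →L[ℂ] H) →ₗ[ℂ] ℂ}

section Norm

variable (hτ : IsTrace M e τ) (he : IsStarProjection e)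
include hτ he

omit hτ he in
theorem n2_zero : n2 τ (0 : H →L[ℂ] H) = 0 := by simp [n2]

theorem eq_zero_of_n2 {y : H →L[ℂ] H} (hy : Cor M e y) (h : n2 τ y ≤ 0) : y = 0 := by
  have h0 := le_antisymm h (n2_nonneg y)
  have h1 := n2_sq hτ he hy
  rw [h0] at h1
  refine hτ.2.1 y hy.1 hy.2 (Complex.ext ?_ (hτ.1 y hy.1 hy.2).2)
  simpa using h1.symm

omit he in
theorem n2_csmul (c : ℂ) {y : H →L[ℂ] H} (hy : Cor M e y) : n2 τ (c • y) = ‖c‖ * n2 τ y := by
  rw [n2, n2, star_smul, smul_mul_smul_comm, map_smul, smul_eq_mul, Complex.star_def,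
    ← Complex.normSq_eq_conj_mul_self, Complex.re_ofReal_mul, Real.sqrt_mul (Complex.normSq_nonneg c),
    Complex.normSq_eq_norm_sq, Real.sqrt_sq (norm_nonneg c)]

/-- The Cauchy-Schwarz inequality. -/
theorem tr_cs {a b : H →L[ℂ] H} (ha : Cor M e a) (hb : Cor M e b) :
    ‖τ (star a * b)‖ ≤ n2 τ a * n2 τ b := by
  set z := τ (star a * b) with hz
  rcases eq_or_ne z 0 with h | h
  · rw [h, norm_zero]; exact mul_nonneg (n2_nonneg _) (n2_nonneg _)
  set c : ℂ := starRingEnd ℂ z / (‖z‖ : ℂ) with hc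
  have hn : (‖z‖ : ℂ) ≠ 0 := by simpa using h
  have hc1 : ‖c‖ = 1 := by
    rw [hc, norm_div, Complex.norm_conj, Complex.norm_real, norm_norm, div_self (norm_ne_zero_iff.2 h)]
  have hcz : c * z = (‖z‖ : ℂ) := by
    rw [hc, div_mul_eq_mul_div, mul_comm, Complex.mul_conj, Complex.normSq_eq_norm_sq]
    field_simp
    push_cast
    ring
  have h1 := re_inner_le hτ he ha (hb.csmul c)
  rw [n2_csmul hτ c hb, hc1, one_mul, mul_smul_comm, map_smul, smul_eq_mul, ← hz, hcz,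
    Complex.ofReal_re] at h1
  exact h1

theorem abs_re_cs {a b : H →L[ℂ] H} (ha : Cor M e a) (hb : Cor M e b) :
    |(τ (star a * b)).re| ≤ n2 τ a * n2 τ b :=
  (Complex.abs_re_le_norm _).trans (tr_cs hτ he ha hb)

theorem abs_n2_sub {a b : H →L[ℂ] H} (ha : Cor M e a) (hb : Cor M e b) :
    |n2 τ a - n2 τ b| ≤ n2 τ (a - b) := by
  have h1 := n2_add_le hτ he (ha.sub hb) hb
  have h2 := n2_add_le hτ he (hb.sub ha) ha
  rw [sub_add_cancel] at h1 h2
  rw [show b - a = -(a - b) by rw [neg_sub], n2_neg hτ he] at h2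
  rw [abs_le]; constructor <;> linarith

theorem n2_sub_comm {a b : H →L[ℂ] H} : n2 τ (a - b) = n2 τ (b - a) := by
  rw [← neg_sub, n2_neg hτ he]

theorem n2_limit_unique {T : ℕ → (H →L[ℂ] H)} {L L' : H →L[ℂ] H} (hT : ∀ n, Cor M e (T n))
    (hL : Cor M e L) (hL' : Cor M e L') (h : Tendsto (fun n => n2 τ (T n - L)) atTop (𝓝 0))
    (h' : Tendsto (fun n => n2 τ (T n - L')) atTop (𝓝 0)) : L = L' := by
  refine sub_eq_zero.1 (eq_zero_of_n2 hτ he (hL.sub hL') ?_)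
  have hs := h.add h'
  rw [add_zero] at hs
  refine ge_of_tendsto hs (Eventually.of_forall fun n => ?_)
  have h1 := n2_add_le hτ he (hL.sub (hT n)) ((hT n).sub hL')
  rw [sub_add_sub_cancel, n2_sub_comm hτ he (a := L) (b := T n)] at h1
  exact h1

theorem tr_tendsto_left {T : ℕ → (H →L[ℂ] H)} {L b : H →L[ℂ] H} (hT : ∀ n, Cor M e (T n))
    (hL : Cor M e L) (hb : Cor M e b) (h : Tendsto (fun n => n2 τ (T n - L)) atTop (𝓝 0)) :
    Tendsto (fun n => τ (star (T n) * b)) atTop (𝓝 (τ (star L * b))) := by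
  rw [tendsto_iff_norm_sub_tendsto_zero]
  refine squeeze_zero (fun n => norm_nonneg _) (fun n => ?_)
    (by simpa using h.mul_const (n2 τ b))
  rw [← map_sub, ← sub_mul, ← star_sub]
  exact tr_cs hτ he ((hT n).sub hL) hb

/-- The trace of a product of positive elements is positive. -/
theorem tr_mul_nonneg {a b : H →L[ℂ] H} (ha : Cor M e a) (hb : Cor M e b) (ha0 : 0 ≤ a)
    (hb0 : 0 ≤ b) : 0 ≤ (τ (a * b)).re := by
  set w := cfc Real.sqrt a with hwdef
  have hws : star w = w := (cfc_predicate _ _ : IsSelfAdjoint (cfc Real.sqrt a)).star_eq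
  have hww : w * w = a := by
    rw [hwdef, ← cfc_mul _ _ a]
    conv_rhs => rw [← cfc_id' ℝ a]
    exact cfc_congr fun x hx => Real.mul_self_sqrt (spectrum_nonneg_of_nonneg ha0 hx)
  have h1 : w * (1 - e) = 0 := by
    rw [← CStarRing.star_mul_self_eq_zero_iff, star_mul, hws, he.one_sub.isSelfAdjoint.star_eq,
      mul_assoc, ← mul_assoc w, hww, sub_mul, one_mul, ← mul_assoc, ha.mul_left he, sub_self]
  have h2 : w * e = w := by rw [mul_sub, mul_one, sub_eq_zero] at h1; exact h1.symm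
  have h3 : e * w = w := by
    simpa [star_mul, hws, he.isSelfAdjoint.star_eq] using congrArg star h2
  have hw : Cor M e w := Cor.of_abs he (cfc_mem ha.1 _) h3 h2
  have hbw := hb.mul he hw
  have h4 : 0 ≤ w * b * w := by
    have := star_left_conjugate_nonneg hb0 w
    rwa [hws] at this
  have h5 := tr_nonneg hτ he ((hw.mul he hb).mul he hw) h4
  rwa [mul_assoc, hτ.2.2.1 w hw.1 (b * w) hbw.1 hw.2 hbw.2, mul_assoc, hww,
    hτ.2.2.1 b hb.1 a ha.1 hb.2 ha.2] at h5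

end Norm

section Masa

variable (hA : IsMASA M A) (he : IsPr A e) (hτ : IsTrace M e τ)

include hA he in
theorem cor_bmul {b y : H →L[ℂ] H} (hb : b ∈ A) (hy : Cor M e y) :
    Cor M e (b * y) ∧ Cor M e (y * b) := by
  constructor <;> refine Cor.of_abs he.2 (mul_mem (?_) (?_)) ?_ ?_
  · exact hA.1 b hb
  · exact hy.1
  · rw [← mul_assoc, hA.2.1 e he.1 b hb, mul_assoc, hy.mul_left he.2]
  · rw [mul_assoc, hy.mul_right he.2]
  · exact hy.1
  · exact hA.1 b hb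
  · rw [← mul_assoc, hy.mul_left he.2]
  · rw [mul_assoc, hA.2.1 b hb e he.1, ← mul_assoc, hy.mul_right he.2]

include hA he in
theorem cor_alg {b : H →L[ℂ] H} (hb : b ∈ A) : Cor M e (b * e) :=
  (cor_bmul hA he hb (cor_proj (hA.1 e he.1) he.2)).1

include hA he hτ in
theorem tr_bcomm {b y : H →L[ℂ] H} (hb : b ∈ A) (hy : Cor M e y) : τ (b * y) = τ (y * b) := by
  have h1 := cor_alg hA he hb
  have h2 := hτ.2.2.1 (b * e) h1.1 y hy.1 h1.2 hy.2
  rwa [mul_assoc, hy.mul_left he.2, hA.2.1 b hb e he.1, ← mul_assoc, hy.mul_right he.2] at h2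

/-- `a` is the expectation of `x` onto the MASA. -/
def IsExp (M A : VonNeumannAlgebra H) (e : H →L[ℂ] H) (τ : (H →L[ℂ] H) →ₗ[ℂ] ℂ)
    (x a : H →L[ℂ] H) : Prop :=
  a ∈ A ∧ Cor M e a ∧ ∀ b ∈ A, τ (b * a) = τ (b * x)

include hA he in
theorem isExp_self {a : H →L[ℂ] H} (ha : a ∈ A) (hc : Cor M e a) : IsExp M A e τ a a :=
  ⟨ha, hc, fun _ _ => rfl⟩

include hA he hτ in
theorem IsExp.unique {x a a' : H →L[ℂ] H} (h : IsExp M A e τ x a) (h' : IsExp M A e τ x a') :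
    a = a' := by
  have hc := h.2.1.sub h'.2.1
  refine sub_eq_zero.1 (hτ.2.1 _ hc.1 hc.2 ?_)
  rw [mul_sub, map_sub, h.2.2 _ (star_mem (sub_mem h.1 h'.1)),
    h'.2.2 _ (star_mem (sub_mem h.1 h'.1)), sub_self]

theorem IsExp.add {x a x' a' : H →L[ℂ] H} (h : IsExp M A e τ x a) (h' : IsExp M A e τ x' a') :
    IsExp M A e τ (x + x') (a + a') :=
  ⟨add_mem h.1 h'.1, h.2.1.add h'.2.1, fun b hb => by
    rw [mul_add, mul_add, map_add, map_add, h.2.2 b hb, h'.2.2 b hb]⟩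

theorem IsExp.sum {ι : Type*} (s : Finset ι) {x a : ι → (H →L[ℂ] H)}
    (h : ∀ i ∈ s, IsExp M A e τ (x i) (a i)) :
    IsExp M A e τ (∑ i ∈ s, x i) (∑ i ∈ s, a i) :=
  ⟨sum_mem fun i hi => (h i hi).1, Cor.sum s fun i hi => (h i hi).2.1, fun b hb => by
    simp only [Finset.mul_sum, map_sum]
    exact Finset.sum_congr rfl fun i hi => (h i hi).2.2 b hb⟩

include hA he hτ in
theorem IsExp.star {x a : H →L[ℂ] H} (hx : Cor M e x) (h : IsExp M A e τ x a) :
    IsExp M A e τ (star x) (star a) := by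
  refine ⟨star_mem h.1, h.2.1.star' he.2, fun b hb => ?_⟩
  have key : ∀ y : H →L[ℂ] H, Cor M e y →
      τ (b * Star.star y) = starRingEnd ℂ (τ (Star.star b * y)) := fun y hy => by
    rw [starRingEnd_apply, ← Orth.tr_star he.2 hτ (hA.1 e he.1) (cor_bmul hA he (star_mem hb) hy).1,
      star_mul, star_star, tr_bcomm hA he hτ hb (hy.star' he.2)]
  rw [key a h.2.1, key x hx, h.2.2 _ (star_mem hb)]

include hA he hτ in
theorem IsExp.nonneg {x a : H →L[ℂ] H} (hx : Cor M e x) (hx0 : 0 ≤ x)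
    (h : IsExp M A e τ x a) : 0 ≤ a := by
  have hxs := IsSelfAdjoint.of_nonneg hx0
  have has : IsSelfAdjoint a := by
    have h' := h.star hA he hτ hx
    rw [hxs.star_eq] at h'
    exact h'.unique hA he hτ h
  refine (StarOrderedRing.nonneg_iff_spectrum_nonneg (R := ℝ) a has).2 ?_
  have key : ∀ t : ℝ, 0 < t → -a ≤ t • (1 : H →L[ℂ] H) := by
    intro t ht
    obtain ⟨hpC, hp, hpl, -⟩ := cut_above he.2 h.2.1.neg has.neg ht
    set p := spProj (-a) t
    have hpA : p ∈ A := (isPr_spProj (neg_mem h.1) t).1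
    have e1 : p * (-a) * p = -(p * a) := by
      rw [mul_neg, neg_mul, mul_assoc, hA.2.1 a h.1 p hpA, ← mul_assoc, hp.isIdempotentElem.eq]
    rw [e1] at hpl
    have h1 := tr_mono hτ he.2 (hpC.rsmul t) (hpC.mul he.2 h.2.1).neg hpl
    rw [tr_rsmul, map_neg, Complex.neg_re, h.2.2 p hpA] at h1
    have h2 := tr_mul_nonneg hτ he.2 hpC hx hp.nonneg hx0
    have h3 := tr_nonneg hτ he.2 hpC hp.nonneg
    have h4 : (τ p).re = 0 := by nlinarith
    have hp0 : p = 0 := by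
      refine hτ.2.1 p hpC.1 hpC.2 (Complex.ext ?_ (hτ.1 p hpC.1 hpC.2).2)
      rw [hp.isSelfAdjoint.star_eq, hp.isIdempotentElem.eq, h4, Complex.zero_re]
    have h5 := (cut_above he.2 h.2.1.neg has.neg ht).2.2.2 e he.2 (by
      show e * p = 0
      rw [hp0, mul_zero])
    rw [mul_neg, neg_mul, h.2.1.2] at h5
    exact h5.trans (smul_le_smul_of_nonneg_left (proj_le_one he.2) ht.le)
  intro s hs
  by_contra hlt
  push Not at hlt
  have h1 := key (-s / 2) (by linarith)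
  rw [neg_le, ← neg_smul, ← Algebra.algebraMap_eq_smul_one] at h1
  have := (algebraMap_le_iff_le_spectrum has).1 h1 s hs
  linarith

include hA he hτ in
theorem IsExp.mono {x a x' a' : H →L[ℂ] H} (hx : Cor M e x) (hx' : Cor M e x')
    (h : IsExp M A e τ x a) (h' : IsExp M A e τ x' a') (hle : x ≤ x') : a ≤ a' := by
  refine sub_nonneg.1 (IsExp.nonneg hA he hτ (hx'.sub hx) (sub_nonneg.2 hle) ?_)
  exact ⟨sub_mem h'.1 h.1, h'.2.1.sub h.2.1, fun b hb => by
    rw [mul_sub, mul_sub, map_sub, map_sub, h.2.2 b hb, h'.2.2 b hb]⟩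

include hA he in
theorem pinch_alg {n : ℕ} {q : Fin n → (H →L[ℂ] H)} (hq : IsPartition A e q) {a : H →L[ℂ] H}
    (ha : a ∈ A) (hc : Cor M e a) : MKS.pinch q a = a := by
  simp only [MKS.pinch]
  calc ∑ i, q i * a * q i = ∑ i, a * q i := Finset.sum_congr rfl fun i _ => by
        rw [hA.2.1 _ (hq.1 i).1 a ha, mul_assoc, (hq.1 i).2.isIdempotentElem.eq]
    _ = a := by rw [← Finset.mul_sum, hq.2.2, hc.mul_right he.2]

include hA he hτ in
theorem tr_pinch {n : ℕ} {q : Fin n → (H →L[ℂ] H)} (hq : IsPartition A e q) {b x : H →L[ℂ] H}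
    (hb : b ∈ A) (hx : Cor M e x) : τ (b * MKS.pinch q x) = τ (b * x) := by
  calc τ (b * MKS.pinch q x) = ∑ i, τ (q i * b * x) := by
        rw [MKS.pinch, Finset.mul_sum, map_sum]
        refine Finset.sum_congr rfl fun i _ => ?_
        have hc := (cor_bmul hA he (mul_mem hb (hq.1 i).1) hx).1
        rw [← mul_assoc, ← mul_assoc, ← tr_bcomm hA he hτ (hq.1 i).1 hc, ← mul_assoc, ← mul_assoc,
          mul_assoc (q i) b, hA.2.1 b hb _ (hq.1 i).1, ← mul_assoc, (hq.1 i).2.isIdempotentElem.eq]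
    _ = τ (b * x) := by
        rw [← map_sum, ← Finset.sum_mul, ← Finset.sum_mul, hq.2.2, hA.2.1 e he.1 b hb, mul_assoc,
          hx.mul_left he.2]

end Masa

section Fine

variable (hA : IsMASA M A) (he : IsPr A e) (hτ : IsTrace M e τ) (hD : DiagLimitStatement)
include hA he hτ hD

theorem exists_exp {x : H →L[ℂ] H} (hx : Cor M e x) :
    ∃ a, IsExp M A e τ x a ∧
      Tendsto (fun c : Cut A e => n2 τ (MKS.pinch c.q x - a)) (fine A e) (𝓝 0) := by
  obtain ⟨a, ha, hac, -, hlim⟩ := hD H M A e τ hA he.1 he.2 hτ x hx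
  refine ⟨a, ⟨ha, hac, fun b hb => ?_⟩, hlim⟩
  have := fine_neBot hA he.1 he.2
  have hbc := cor_alg hA he hb
  have h : ∀ c : Cut A e, ‖τ (b * a) - τ (b * x)‖ ≤ n2 τ (star (b * e)) * n2 τ (MKS.pinch c.q x - a) :=
    fun c => by
    have hS := (cor_pinch hτ he.2 hA.1 c.part hx.1)
    rw [← tr_pinch hA he hτ c.part hb hx, ← map_sub, ← mul_sub, ← norm_neg, ← map_neg, ← mul_neg,
      neg_sub]
    have h1 := tr_cs hτ he.2 (hbc.star' he.2) (hS.sub hac)
    rwa [star_star, mul_assoc, (hS.sub hac).mul_left he.2] at h1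
  have h0 := ge_of_tendsto (by simpa using hlim.const_mul (n2 τ (star (b * e))))
    (Eventually.of_forall h)
  exact sub_eq_zero.1 (norm_le_zero_iff.1 h0)

end Fine

section Points

/-- The points of the corner. -/
abbrev Spot (A : VonNeumannAlgebra H) (e : H →L[ℂ] H) : Type :=
  {χ : Op.Pt A // Op.ev χ e = 1}

/-- A projection of `A` below `e`. -/
def Sub (A : VonNeumannAlgebra H) (e p : H →L[ℂ] H) : Prop := IsPr A p ∧ p * e = p

variable (hA : IsMASA M A) (he : IsPr A e)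
include hA he

theorem sub_cor {p : H →L[ℂ] H} (hp : Sub A e p) : Cor M e p := by
  have := cor_alg hA he hp.1.1
  rwa [hp.2] at this

theorem le_of_spot {a b : H →L[ℂ] H} (ha : a ∈ A) (hb : b ∈ A) (hac : Cor M e a)
    (hbc : Cor M e b) (has : IsSelfAdjoint a) (hbs : IsSelfAdjoint b)
    (h : ∀ χ : Spot A e, (Op.ev χ.1 a).re ≤ (Op.ev χ.1 b).re) : a ≤ b := by
  refine Op.le_of_ev hA.2.1 ha hb has hbs fun χ => ?_
  rcases Op.ev_proj χ he with h0 | h0
  · rw [← hac.mul_right he.2, ← hbc.mul_right he.2, Op.ev_mul χ ha he.1, Op.ev_mul χ hb he.1, h0]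
    simp
  · exact h ⟨χ, h0⟩

theorem eq_of_spot {a b : H →L[ℂ] H} (ha : a ∈ A) (hb : b ∈ A) (hac : Cor M e a)
    (hbc : Cor M e b) (h : ∀ χ : Spot A e, Op.ev χ.1 a = Op.ev χ.1 b) : a = b := by
  refine Op.eq_of_ev hA.2.1 ha hb fun χ => ?_
  rcases Op.ev_proj χ he with h0 | h0
  · rw [← hac.mul_right he.2, ← hbc.mul_right he.2, Op.ev_mul χ ha he.1, Op.ev_mul χ hb he.1, h0]
    simp
  · exact h ⟨χ, h0⟩

omit hA he in
theorem ev_sub_proj {p : H →L[ℂ] H} (hp : Sub A e p) (χ : Spot A e) :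
    Op.ev χ.1 p = 0 ∨ Op.ev χ.1 p = 1 :=
  Op.ev_proj χ.1 hp.1

theorem sub_mul' {p q : H →L[ℂ] H} (hp : IsPr A p) (hq : Sub A e q) : Sub A e (p * q) :=
  ⟨isPr_mul hA.2.1 hp hq.1, by rw [mul_assoc, hq.2]⟩

theorem sub_compl {p : H →L[ℂ] H} (hp : Sub A e p) : Sub A e (e - p) :=
  ⟨⟨sub_mem he.1 hp.1.1, sub_proj he.2 hp.1.2 hp.2⟩, by
    rw [sub_mul, he.2.isIdempotentElem.eq, hp.2]⟩

/-- A finite supremum of projections. -/
theorem exists_sup {ι : Type*} (s : Finset ι) {f : ι → (H →L[ℂ] H)}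
    (hf : ∀ i ∈ s, Sub A e (f i)) :
    ∃ P, Sub A e P ∧ ∀ χ : Spot A e, (Op.ev χ.1 P = 1 ↔ ∃ i ∈ s, Op.ev χ.1 (f i) = 1) := by
  classical
  induction s using Finset.induction_on with
  | empty => exact ⟨0, ⟨⟨zero_mem _, .zero _⟩, zero_mul e⟩, fun χ => by simp [Op.ev_zero]⟩
  | @insert i s hi ih =>
    obtain ⟨P, hP, hPev⟩ := ih fun j hj => hf j (Finset.mem_insert_of_mem hj)
    have hfi := hf i (Finset.mem_insert_self i s)
    have hQ := sub_compl hA he (sub_mul' hA he (sub_compl hA he hfi).1 (sub_compl hA he hP))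
    refine ⟨_, hQ, fun χ => ?_⟩
    have h1 := (sub_compl hA he hfi).1.1
    have h2 := (sub_compl hA he hP).1.1
    rw [Op.ev_sub χ.1 he.1 (mul_mem h1 h2), Op.ev_mul χ.1 h1 h2,
      Op.ev_sub χ.1 he.1 hfi.1.1, Op.ev_sub χ.1 he.1 hP.1.1, χ.2]
    rcases ev_sub_proj hfi χ with a | a <;> rcases ev_sub_proj hP χ with b | b <;>
      simp only [Finset.exists_mem_insert, ← hPev χ, a, b] <;> norm_num

/-- A threshold projection. -/
theorem exists_thr {a : H →L[ℂ] H} (ha : a ∈ A) (hac : Cor M e a) (has : IsSelfAdjoint a)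
    {d : ℝ} (hd : 0 < d) :
    ∃ P, Sub A e P ∧ ∀ χ : Spot A e, (Op.ev χ.1 P = 1 → d ≤ (Op.ev χ.1 a).re) ∧
      (Op.ev χ.1 P = 0 → (Op.ev χ.1 a).re ≤ d) := by
  obtain ⟨hpC, hp, hpl, hph⟩ := cut_above he.2 hac has hd
  set p := spProj a d
  have hpA := isPr_spProj ha d
  have hP : Sub A e p := ⟨hpA, hpC.mul_right he.2⟩
  have hq := sub_compl hA he hP
  have hqp : (e - p) * p = 0 := by
    rw [sub_mul, hpC.mul_left he.2, hp.isIdempotentElem.eq, sub_self]
  have key : ∀ (r : H →L[ℂ] H), r ∈ A → ∀ χ : Spot A e,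
      (Op.ev χ.1 (d • r)).re = d * (Op.ev χ.1 r).re := fun r hr χ => by
    rw [RCLike.real_smul_eq_coe_smul (K := ℂ), Op.ev_smul _ _ hr]
    exact Complex.re_ofReal_mul _ _
  refine ⟨p, hP, fun χ => ⟨fun h1 => ?_, fun h0 => ?_⟩⟩
  · have h := Op.ev_mono χ.1 (vn_smul A d hpA.1) (mul_mem (mul_mem hpA.1 ha) hpA.1) hpl
    rw [key p hpA.1 χ, Op.ev_mul _ (mul_mem hpA.1 ha) hpA.1, Op.ev_mul _ hpA.1 ha, h1, one_mul,
      mul_one, Complex.one_re, mul_one] at h
    exact h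
  · have h := Op.ev_mono χ.1 (mul_mem (mul_mem hq.1.1 ha) hq.1.1) (vn_smul A d hq.1.1)
      (hph _ hq.1.2 hqp)
    rw [key _ hq.1.1 χ, Op.ev_mul _ (mul_mem hq.1.1 ha) hq.1.1, Op.ev_mul _ hq.1.1 ha,
      Op.ev_sub _ he.1 hpA.1, χ.2, h0, sub_zero, one_mul, mul_one, Complex.one_re, mul_one] at h
    exact h

end Points

end Vale.Agent.P078.Orth.Atom
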