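import Vale.Agent.P078.Orth.Defs

/-!
Fine cuts, orthogonality to the normaliser, and cells.
-/

namespace Vale.Agent.P078.Orth

open Filter Topology MKS Singular

variable {H : Type} [NormedAddCommGroup H] [InnerProductSpace ℂ H] [CompleteSpace H]
variable {M A : VonNeumannAlgebra H} {e : H →L[ℂ] H} {τ : (H →L[ℂ] H) →ₗ[ℂ] ℂ}

theorem cut_proj (c : Cut A e) (i : Fin c.n) : IsPr A (c.q i) := c.part.1 i

theorem cut_mul (c : Cut A e) (i j : Fin c.n) : c.q i * c.q j = if i = j then c.q i else 0 := by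
  split_ifs with h
  · subst h; exact (c.part.1 i).2.isIdempotentElem.eq
  · exact c.part.2.1 i j h

theorem cut_star (c : Cut A e) (i : Fin c.n) : star (c.q i) = c.q i :=
  (c.part.1 i).2.isSelfAdjoint.star_eq

theorem cut_cor (hA : IsMASA M A) (he : IsStarProjection e) (c : Cut A e) (i : Fin c.n) :
    Cor M e (c.q i) :=
  Cor.of_abs he (hA.1 _ (c.part.1 i).1) (c.part.mul_e i).1 (c.part.mul_e i).2

/-- The cut with a single cell. -/
def topCut (heA : e ∈ A) (he : IsStarProjection e) : Cut A e :=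
  ⟨1, fun _ => e, fun _ => ⟨heA, he⟩, fun i j h => absurd (Subsingleton.elim i j) h, by simp⟩

theorem refines_refl (c : Cut A e) : c.Refines c :=
  fun i => Or.inr ⟨i, by rw [cut_mul, if_pos rfl]⟩

theorem refines_trans {a b c : Cut A e} (hab : a.Refines b) (hbc : b.Refines c) :
    a.Refines c := by
  intro i
  rcases hbc i with h | ⟨j, hj⟩
  · exact Or.inl h
  · rcases hab j with h | ⟨k, hk⟩
    · exact Or.inl (by rw [← hj, h, mul_zero])
    · exact Or.inr ⟨k, by
        conv_lhs => rw [← hj, mul_assoc, hk]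
        exact hj⟩

theorem refines_topCut (heA : e ∈ A) (he : IsStarProjection e) (c : Cut A e) :
    (topCut heA he).Refines c :=
  fun i => Or.inr ⟨⟨0, Nat.one_pos⟩, (c.part.mul_e i).2⟩

/-- The common refinement of two cuts. -/
def meet (hA : IsMASA M A) (a b : Cut A e) : Cut A e :=
  ⟨a.n * b.n, prodPart a.q b.q, isPartition_prod hA a.part b.part⟩

theorem refines_meet_right (hA : IsMASA M A) (a b : Cut A e) : b.Refines (meet hA a b) := by
  refine fun k => Or.inr ⟨(finProdFinEquiv.symm k).2, ?_⟩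
  show a.q _ * b.q _ * b.q _ = a.q _ * b.q _
  rw [mul_assoc, cut_mul, if_pos rfl]

theorem refines_meet_left (hA : IsMASA M A) (a b : Cut A e) : a.Refines (meet hA a b) := by
  refine fun k => Or.inr ⟨(finProdFinEquiv.symm k).1, ?_⟩
  show a.q (finProdFinEquiv.symm k).1 * b.q _ * a.q (finProdFinEquiv.symm k).1 = a.q _ * b.q _
  rw [mul_assoc, hA.2.1 _ (b.part.1 _).1 _ (a.part.1 _).1, ← mul_assoc, cut_mul, if_pos rfl]

theorem eventually_fine (hA : IsMASA M A) (heA : e ∈ A) (he : IsStarProjection e)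
    {p : Cut A e → Prop} :
    (∀ᶠ c in fine A e, p c) ↔ ∃ q₀ : Cut A e, ∀ c, q₀.Refines c → p c := by
  have : Nonempty (Cut A e) := ⟨topCut heA he⟩
  refine (hasBasis_iInf_principal ?_).eventually_iff.trans ?_
  · intro a b
    exact ⟨meet hA a b, fun c hc => refines_trans (refines_meet_left hA a b) hc,
      fun c hc => refines_trans (refines_meet_right hA a b) hc⟩
  · simp

theorem fine_neBot (hA : IsMASA M A) (heA : e ∈ A) (he : IsStarProjection e) :
    (fine A e).NeBot := by
  refine ⟨fun h => ?_⟩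
  obtain ⟨q₀, hq₀⟩ := (eventually_fine hA heA he (p := fun _ => False)).1
    (by rw [h]; exact eventually_bot)
  exact hq₀ q₀ (refines_refl q₀)

theorem eventually_refines (hA : IsMASA M A) (heA : e ∈ A) (he : IsStarProjection e)
    (q₀ : Cut A e) : ∀ᶠ c in fine A e, q₀.Refines c :=
  (eventually_fine hA heA he).2 ⟨q₀, fun _ h => h⟩

theorem tendsto_fine_zero (hA : IsMASA M A) (heA : e ∈ A) (he : IsStarProjection e)
    {f : Cut A e → ℝ} (h0 : ∀ c, 0 ≤ f c) (hmono : ∀ a b, a.Refines b → f b ≤ f a)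
    (hinf : ∀ η : ℝ, 0 < η → ∃ c, f c ≤ η) : Tendsto f (fine A e) (𝓝 0) := by
  refine Metric.tendsto_nhds.2 fun η hη => ?_
  obtain ⟨q₀, hq₀⟩ := hinf (η / 2) (half_pos hη)
  refine (eventually_fine hA heA he).2 ⟨q₀, fun c hc => ?_⟩
  rw [Real.dist_eq, sub_zero, abs_of_nonneg (h0 c)]
  linarith [hmono q₀ c hc]

theorem piece_of_refines {a c : Cut A e} (h : a.Refines c) (i : Fin c.n) (j : Fin a.n) :
    c.q i * a.q j = c.q i ∨ c.q i * a.q j = 0 := by
  rcases h i with h' | ⟨k, hk⟩
  · exact Or.inl (by rw [h', zero_mul])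
  · rcases eq_or_ne k j with rfl | hkj
    · exact Or.inl hk
    · exact Or.inr (by rw [← hk, mul_assoc, cut_mul, if_neg hkj, mul_zero])

theorem pinch_pinch_refines (hA : IsMASA M A) {a c : Cut A e} (h : a.Refines c)
    (y : H →L[ℂ] H) : MKS.pinch c.q (MKS.pinch a.q y) = MKS.pinch c.q y := by
  simp only [MKS.pinch, Finset.mul_sum, Finset.sum_mul]
  refine Finset.sum_congr rfl fun i _ => ?_
  have hc : ∀ j, a.q j * c.q i = c.q i * a.q j := fun j =>
    hA.2.1 _ (a.part.1 j).1 _ (c.part.1 i).1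
  rcases h i with h' | ⟨k, hk⟩
  · simp [h']
  · rw [Finset.sum_eq_single k]
    · calc c.q i * (a.q k * y * a.q k) * c.q i = c.q i * a.q k * y * (a.q k * c.q i) := by
            simp only [mul_assoc]
        _ = _ := by rw [hc, hk]
    · intro j _ hj
      have h0 : c.q i * a.q j = 0 := by rw [← hk, mul_assoc, cut_mul, if_neg (Ne.symm hj), mul_zero]
      calc c.q i * (a.q j * y * a.q j) * c.q i = c.q i * a.q j * y * (a.q j * c.q i) := by
            simp only [mul_assoc]
        _ = _ := by rw [h0, zero_mul, zero_mul]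
    · simp

theorem pinch_fix_cut (hA : IsMASA M A) (c : Cut A e) {a : H →L[ℂ] H} (ha : a ∈ A)
    (hae : a * e = a) : MKS.pinch c.q a = a := by
  calc MKS.pinch c.q a = ∑ i, a * c.q i := Finset.sum_congr rfl fun i _ => by
        rw [hA.2.1 _ (c.part.1 i).1 _ ha, mul_assoc, cut_mul, if_pos rfl]
    _ = a := by rw [← Finset.mul_sum, c.part.2.2, hae]

theorem n2_pinch_mono (hA : IsMASA M A) (he : IsStarProjection e) (hτ : IsTrace M e τ)
    {a c : Cut A e} (h : a.Refines c) {y : H →L[ℂ] H} (hy : Cor M e y) :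
    n2 τ (MKS.pinch c.q y) ≤ n2 τ (MKS.pinch a.q y) := by
  rw [← pinch_pinch_refines hA h y]
  exact n2_pinch_le hτ he hA.1 c.part (cor_pinch hτ he hA.1 a.part hy.1)

theorem normSpan_to_one {z : H →L[ℂ] H} (hz : z ∈ normSpan M A e) : z ∈ normSpan M A 1 :=
  Submodule.span_mono (fun w hw => by exact ⟨by simp, hw.2⟩) hz

theorem normSpan_of_cor (hA : IsMASA M A) (heA : e ∈ A) (he : IsStarProjection e)
    {z : H →L[ℂ] H} (hz : z ∈ normSpan M A 1) (hc : e * z * e = z) : z ∈ normSpan M A e :=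
  hc ▸ compress_mem hA heA he hz

theorem normSpan_mul' (hA : IsMASA M A) (heA : e ∈ A) (he : IsStarProjection e)
    {x y : H →L[ℂ] H} (hx : x ∈ normSpan M A e) (hy : y ∈ normSpan M A e) :
    x * y ∈ normSpan M A e :=
  normSpan_of_cor hA heA he (normSpan_mul hA (normSpan_to_one hx) (normSpan_to_one hy))
    ((normSpan_cor hA hx).mul he (normSpan_cor hA hy)).2

theorem normSpan_star' (hA : IsMASA M A) (heA : e ∈ A) (he : IsStarProjection e)
    {x : H →L[ℂ] H} (hx : x ∈ normSpan M A e) : star x ∈ normSpan M A e :=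
  normSpan_of_cor hA heA he (normSpan_star hA (normSpan_to_one hx))
    ((normSpan_cor hA hx).star' he).2

theorem nor_mem_normSpan {h : H →L[ℂ] H} (hn : h ∈ normaliser M A) (hc : e * h * e = h) :
    h ∈ normSpan M A e :=
  Submodule.subset_span ⟨hc, 1, one_mem A, h, hn, (one_mul h).symm⟩

theorem alg_mem_normSpan {a : H →L[ℂ] H} (ha : a ∈ A) (hc : e * a * e = a) :
    a ∈ normSpan M A e :=
  Submodule.subset_span ⟨hc, a, ha, 1, one_mem_normaliser, (mul_one a).symm⟩

theorem perp_zero : Perp M A e τ 0 := ⟨Cor.zero, fun z _ => by simp⟩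

theorem Perp.add {m m' : H →L[ℂ] H} (h : Perp M A e τ m) (h' : Perp M A e τ m') :
    Perp M A e τ (m + m') :=
  ⟨h.1.add h'.1, fun z hz => by rw [mul_add, map_add, h.2 z hz, h'.2 z hz, add_zero]⟩

theorem Perp.smul {m : H →L[ℂ] H} (c : ℂ) (h : Perp M A e τ m) : Perp M A e τ (c • m) :=
  ⟨h.1.csmul c, fun z hz => by rw [mul_smul_comm, map_smul, h.2 z hz, smul_zero]⟩

theorem Perp.mul_left (hA : IsMASA M A) (heA : e ∈ A) (he : IsStarProjection e)
    {m z : H →L[ℂ] H} (h : Perp M A e τ m) (hz : z ∈ normSpan M A e) :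
    Perp M A e τ (z * m) := by
  refine ⟨(normSpan_cor hA hz).mul he h.1, fun w hw => ?_⟩
  have := h.2 _ (normSpan_mul' hA heA he (normSpan_star' hA heA he hz) hw)
  rwa [star_mul, star_star, mul_assoc] at this

theorem Perp.mul_right (hA : IsMASA M A) (heA : e ∈ A) (he : IsStarProjection e)
    (hτ : IsTrace M e τ) {m z : H →L[ℂ] H} (h : Perp M A e τ m) (hz : z ∈ normSpan M A e) :
    Perp M A e τ (m * z) := by
  refine ⟨h.1.mul he (normSpan_cor hA hz), fun w hw => ?_⟩
  have hzc := normSpan_cor hA hz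
  have hwc := (normSpan_cor hA hw).star' he
  have := h.2 _ (normSpan_mul' hA heA he hw (normSpan_star' hA heA he hz))
  rw [star_mul, star_star] at this
  have hwm := hwc.mul he h.1
  rw [← mul_assoc, hτ.2.2.1 _ hwm.1 _ hzc.1 hwm.2 hzc.2, ← mul_assoc]
  exact this

theorem tr_star (he : IsStarProjection e) (hτ : IsTrace M e τ) (heM : e ∈ M) {x : H →L[ℂ] H}
    (hx : Cor M e x) : τ (star x) = star (τ x) := by
  have key : ∀ c : ℂ, (τ (star (e + c • x) * (e + c • x))).im = 0 := fun c =>
    (hτ.1 _ ((cor_proj heM he).add (hx.csmul c)).1 ((cor_proj heM he).add (hx.csmul c)).2).2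
  have e0 := (hτ.1 e heM (cor_proj heM he).2).2
  have x0 := (hτ.1 x hx.1 hx.2).2
  have hxs := hx.star' he
  rw [he.isSelfAdjoint.star_eq, he.isIdempotentElem.eq] at e0
  have h1 := key 1
  have h2 := key Complex.I
  simp only [star_add, star_smul, he.isSelfAdjoint.star_eq, add_mul, mul_add, smul_mul_assoc,
    mul_smul_comm, he.isIdempotentElem.eq, hx.mul_left he, hxs.mul_right he, map_add, map_smul,
    smul_eq_mul, one_mul, star_one, Complex.star_def, Complex.conj_I, Complex.add_im,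
    Complex.mul_im, Complex.mul_re, Complex.neg_re, Complex.neg_im, Complex.I_re, Complex.I_im]
    at h1 h2
  apply Complex.ext <;> simp only [Complex.star_def, Complex.conj_re, Complex.conj_im] <;> linarith

theorem Perp.star' (hA : IsMASA M A) (heA : e ∈ A) (he : IsStarProjection e)
    (hτ : IsTrace M e τ) {m : H →L[ℂ] H} (h : Perp M A e τ m) : Perp M A e τ (star m) := by
  refine ⟨h.1.star' he, fun z hz => ?_⟩
  have hzc := normSpan_cor hA hz
  have h' := h.2 _ (normSpan_star' hA heA he hz)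
  rw [star_star] at h'
  have hmz : τ (m * z) = 0 := by rw [hτ.2.2.1 m h.1.1 z hzc.1 h.1.2 hzc.2, h']
  have := tr_star he hτ (hA.1 e heA) (h.1.mul he hzc)
  rwa [hmz, star_zero, star_mul] at this

theorem Perp.pinch (hA : IsMASA M A) (heA : e ∈ A) (he : IsStarProjection e)
    (hτ : IsTrace M e τ) {r : ℕ} {P : Fin r → (H →L[ℂ] H)} (hP : IsPartition A e P)
    {m : H →L[ℂ] H} (h : Perp M A e τ m) : Perp M A e τ (MKS.pinch P m) := by
  have hp : ∀ i, P i ∈ normSpan M A e := fun i => alg_mem_normSpan (hP.1 i).1 (by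
    rw [(hP.mul_e i).1, (hP.mul_e i).2])
  refine ⟨cor_pinch hτ he hA.1 hP h.1.1, fun z hz => ?_⟩
  rw [MKS.pinch, Finset.mul_sum, map_sum]
  exact Finset.sum_eq_zero fun i _ =>
    ((h.mul_left hA heA he (hp i)).mul_right hA heA he hτ (hp i)).2 z hz

/-! ### Cells -/

theorem cell_mem {h : H →L[ℂ] H} (hn : h ∈ normaliser M A) (c : Cut A e) (i : Fin c.n) :
    cell h c i ∈ A :=
  (hn.2.2 _ (c.part.1 i).1).1

theorem cell_mul (hA : IsMASA M A) {h : H →L[ℂ] H} (hn : h ∈ normaliser M A) (c : Cut A e)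
    (i j : Fin c.n) : cell h c i * cell h c j = if i = j then cell h c i else 0 := by
  have hd : star h * h ∈ A := by simpa using (hn.2.2 1 (one_mem A)).2
  have : cell h c i * cell h c j = h * (c.q i * c.q j) * star h := by
    calc cell h c i * cell h c j = h * (c.q i * (star h * h)) * c.q j * star h := by
          simp only [cell, mul_assoc]
      _ = h * ((star h * h) * c.q i) * c.q j * star h := by
          rw [hA.2.1 _ (c.part.1 i).1 _ hd]
      _ = h * star h * h * (c.q i * c.q j) * star h := by simp only [mul_assoc]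
      _ = _ := by rw [hn.2.1]
  rw [this, cut_mul]
  split_ifs <;> simp [cell]

theorem cell_proj (hA : IsMASA M A) {h : H →L[ℂ] H} (hn : h ∈ normaliser M A) (c : Cut A e)
    (i : Fin c.n) : IsPr A (cell h c i) := by
  refine ⟨cell_mem hn c i, ?_, ?_⟩
  · show cell h c i * cell h c i = cell h c i
    rw [cell_mul hA hn, if_pos rfl]
  · show star (cell h c i) = cell h c i
    simp only [cell, star_mul, star_star, cut_star, mul_assoc]

theorem sum_cell {h : H →L[ℂ] H} (hc : h * e = h) (c : Cut A e) :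
    ∑ i, cell h c i = h * star h := by
  simp only [cell, ← Finset.sum_mul, ← Finset.mul_sum, c.part.2.2, hc]

end Vale.Agent.P078.Orth
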