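import Vale.Agent.P078.Orth.CoreBound

/-!
Decoupling: an alternating word of operators orthogonal to the normaliser and cells, in which every
block occurs twice, tends to trace zero. Two occurrences of one block at the least distance are
separated by signs in all other blocks.
-/

namespace Vale.Agent.P078.Orth

open Finset Filter Topology MKS Singular

variable {H : Type} [NormedAddCommGroup H] [InnerProductSpace ℂ H] [CompleteSpace H]
variable {M A : VonNeumannAlgebra H} {e : H →L[ℂ] H}
variable {k d : ℕ} {m : Fin k → (H →L[ℂ] H)} {B : Fin k → Finset (Fin d)}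
  {L : Fin k → Fin d → (H →L[ℂ] H)}

/-- A letter without its cell in the block `b`. -/
noncomputable def restLetter (B : Fin k → Finset (Fin d)) (L : Fin k → Fin d → (H →L[ℂ] H))
    (t : Fin k) (b : Fin d) : H →L[ℂ] H :=
  letter B (fun t' => Function.update (L t') b 1) t

theorem csmul_mem' (c : ℂ) {x : H →L[ℂ] H} (hx : x ∈ A) : c • x ∈ A :=
  A.toStarSubalgebra.smul_mem hx c

theorem letter_mem (hL : ∀ t b, L t b ∈ A) (t : Fin k) : letter B L t ∈ A :=
  list_prod_mem fun x hx => by
    obtain ⟨b, -, rfl⟩ := List.mem_map.1 hx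
    exact hL t b

theorem restLetter_mem (hL : ∀ t b, L t b ∈ A) (t : Fin k) (b : Fin d) : restLetter B L t b ∈ A :=
  letter_mem (fun t' b' => by
    by_cases h : b' = b
    · subst h; simp [one_mem]
    · simpa [Function.update_of_ne h] using hL t' b') t

theorem pull_front (hab : ∀ y ∈ A, ∀ z ∈ A, y * z = z * y) {α : Type*} [DecidableEq α]
    (g : α → (H →L[ℂ] H)) (hg : ∀ x, g x ∈ A) {a : α} :
    ∀ {l : List α}, l.Nodup → a ∈ l →
      (l.map g).prod = g a * (l.map (Function.update g a 1)).prod := by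
  intro l
  induction l with
  | nil => intro _ h; simp at h
  | cons x l ih =>
    intro hl ha
    rw [List.nodup_cons] at hl
    by_cases hx : x = a
    · subst hx
      have e : l.map (Function.update g x 1) = l.map g := List.map_congr_left fun y hy =>
        Function.update_of_ne (fun h : y = x => hl.1 (h ▸ hy)) _ _
      simp [List.map_cons, e]
    · simp only [List.map_cons, List.prod_cons, Function.update_of_ne hx,
        ih hl.2 ((List.mem_cons.1 ha).resolve_left (Ne.symm hx))]
      rw [← mul_assoc, hab _ (hg x) _ (hg a), mul_assoc]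

theorem letter_split (hab : ∀ y ∈ A, ∀ z ∈ A, y * z = z * y) (hL : ∀ t b, L t b ∈ A)
    (t : Fin k) {b : Fin d} (hb : b ∈ B t) : letter B L t = L t b * restLetter B L t b :=
  pull_front hab (L t) (hL t) ((List.nodup_finRange d).filter _) (by simpa using hb)

theorem norm_list_prod_le {α : Type*} (f : α → (H →L[ℂ] H)) {C : ℝ} :
    ∀ l : List α, (∀ x ∈ l, ‖f x‖ ≤ C) → ‖(l.map f).prod‖ ≤ C ^ l.length := by
  intro l
  induction l with
  | nil => intro _; rw [List.map_nil, List.prod_nil, List.length_nil, pow_zero]; exact ContinuousLinearMap.norm_id_le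
  | cons x l ih =>
    intro h
    rw [List.map_cons, List.prod_cons, List.length_cons, pow_succ']
    exact (norm_mul_le _ _).trans (mul_le_mul (h x List.mem_cons_self)
      (ih fun y hy => h y (List.mem_cons_of_mem _ hy)) (norm_nonneg _)
      ((norm_nonneg _).trans (h x List.mem_cons_self)))

theorem norm_letter_le (hL : ∀ t b, ‖L t b‖ ≤ 1) (t : Fin k) : ‖letter B L t‖ ≤ 1 :=
  (norm_list_prod_le (L t) _ fun b _ => hL t b).trans (one_pow _).le

theorem norm_restLetter_le (hL : ∀ t b, ‖L t b‖ ≤ 1) (t : Fin k) (b : Fin d) :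
    ‖restLetter B L t b‖ ≤ 1 :=
  norm_letter_le (fun t' b' => by
    by_cases h : b' = b
    · subst h; rw [Function.update_self]; exact ContinuousLinearMap.norm_id_le
    · simpa [Function.update_of_ne h] using hL t' b') t

theorem norm_seg_le (hL : ∀ t b, ‖L t b‖ ≤ 1) {C : ℝ} (hC : 1 ≤ C) (hm : ∀ t, ‖m t‖ ≤ C)
    (a b : ℕ) : ‖seg m B L a b‖ ≤ C ^ (b - a) := by
  refine (norm_list_prod_le _ _ fun i _ => ?_).trans (by rw [List.length_range'])
  unfold factor
  split_ifs with h
  · exact (norm_mul_le _ _).trans ((mul_le_mul (hm _) (norm_letter_le hL _) (norm_nonneg _)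
      (zero_le_one.trans hC)).trans (mul_one C).le)
  · exact ContinuousLinearMap.norm_id_le.trans hC

theorem cor_A_mul (hA : IsMASA M A) (heA : e ∈ A) {z x : H →L[ℂ] H} (hz : z ∈ A)
    (hx : Cor M e x) : Cor M e (z * x) :=
  ⟨mul_mem (hA.1 z hz) hx.1, by rw [← mul_assoc, hA.2.1 e heA z hz, mul_assoc, mul_assoc,
    ← mul_assoc e, hx.2]⟩

theorem cor_mul_A (hA : IsMASA M A) (heA : e ∈ A) {z x : H →L[ℂ] H} (hz : z ∈ A)
    (hx : Cor M e x) : Cor M e (x * z) :=
  ⟨mul_mem hx.1 (hA.1 z hz), by rw [mul_assoc, mul_assoc, hA.2.1 z hz e heA, ← mul_assoc x,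
    ← mul_assoc, ← mul_assoc, hx.2]⟩

variable (hA : IsMASA M A) (heA : e ∈ A) (he : IsStarProjection e)
include hA heA he

theorem cor_seg_mul (hm : ∀ t, Cor M e (m t)) (hL : ∀ t b, L t b ∈ A) (a b : ℕ)
    {x : H →L[ℂ] H} (hx : Cor M e x) : Cor M e (seg m B L a b * x) := by
  unfold seg
  induction List.range' a (b - a) with
  | nil => simpa using hx
  | cons i l ih =>
    rw [List.map_cons, List.prod_cons, mul_assoc]
    unfold factor
    split_ifs with h
    · exact (cor_mul_A hA heA (letter_mem hL _) (hm _)).mul he ih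
    · rwa [one_mul]

theorem cor_mul_seg (hm : ∀ t, Cor M e (m t)) (hL : ∀ t b, L t b ∈ A) (a b : ℕ)
    {x : H →L[ℂ] H} (hx : Cor M e x) : Cor M e (x * seg m B L a b) := by
  unfold seg
  generalize List.range' a (b - a) = l
  induction l generalizing x with
  | nil => simpa using hx
  | cons i l ih =>
    rw [List.map_cons, List.prod_cons, ← mul_assoc]
    refine ih ?_
    unfold factor
    split_ifs with h
    · exact hx.mul he (cor_mul_A hA heA (letter_mem hL _) (hm _))
    · rwa [mul_one]

omit hA heA he in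
/-- The cells of a partition combined with weights of absolute value at most one. -/
theorem norm_comb_le (hA : IsMASA M A) {h : H →L[ℂ] H} (hn : h ∈ normaliser M A)
    (hc : h * e = h) (c : Cut A e) {w : Fin c.n → ℂ} (hw : ∀ l, ‖w l‖ ≤ 1) :
    ‖∑ l, w l • cell h c l‖ ≤ 1 := by
  set S := ∑ l, w l • cell h c l
  have hcs : ∀ l, star (cell h c l) = cell h c l := fun l =>
    (cell_proj hA hn c l).2.isSelfAdjoint.star_eq
  have e1 : star S * S = ∑ l, ((‖w l‖ ^ 2 : ℝ) : ℂ) • cell h c l := by
    simp only [S, star_sum, star_smul, hcs, Finset.sum_mul, Finset.mul_sum, smul_mul_smul_comm,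
      cell_mul hA hn]
    refine Finset.sum_congr rfl fun i _ => ?_
    rw [Finset.sum_eq_single i (fun j _ hj => by simp [hj]) (by simp), if_pos rfl]
    congr 1
    rw [← starRingEnd_apply, ← Complex.normSq_eq_conj_mul_self, Complex.normSq_eq_norm_sq]
  have hp : IsStarProjection (h * star h) := ⟨by
      show h * star h * (h * star h) = h * star h
      rw [← mul_assoc, hn.2.1], IsSelfAdjoint.mul_star_self h⟩
  have h2 : star S * S ≤ (1 : H →L[ℂ] H) := by
    refine le_trans ?_ (proj_le_one hp)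
    rw [e1, ← sum_cell hc c]
    refine Finset.sum_le_sum fun l _ => ?_
    rw [show ((‖w l‖ ^ 2 : ℝ) : ℂ) = RCLike.ofReal (‖w l‖ ^ 2) from rfl,
      ← RCLike.real_smul_eq_coe_smul]
    exact (smul_le_smul_right' (pow_le_one₀ (norm_nonneg _) (hw l))
      (cell_proj hA hn c l).2.nonneg).trans_eq (one_smul _ _)
  have h3 : ‖star S * S‖ ≤ 1 := norm_le_of_bounds (IsSelfAdjoint.star_mul_self S) zero_le_one
    (le_trans (by simp) (star_mul_self_nonneg S)) (by rwa [one_smul])
  rw [CStarRing.norm_star_mul_self] at h3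
  nlinarith [norm_nonneg S]

omit hA heA he in
theorem core_ok (hAtom : AtomStatement) : CoreStatement := by
  intro H _ _ _ M A e τ hA heA he hτ k d m B h hk hm hB hrep hh
  classical
  -- the pair at the least distance
  obtain ⟨b₀, s, t, hst, hbs, hbt, hmin⟩ : ∃ (b : Fin d) (s t : Fin k), (s : ℕ) < t ∧ b ∈ B s ∧
      b ∈ B t ∧ ∀ (b' : Fin d) (u v : Fin k), (u : ℕ) < v → b' ∈ B u → b' ∈ B v →
        (t : ℕ) - s ≤ (v : ℕ) - u := by
    have hne : ((Finset.univ : Finset (Fin d × Fin k × Fin k)).filter fun x =>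
        (x.2.1 : ℕ) < x.2.2 ∧ x.1 ∈ B x.2.1 ∧ x.1 ∈ B x.2.2).Nonempty := by
      obtain ⟨b, -⟩ := hB ⟨0, hk⟩
      obtain ⟨u, v, huv, hu, hv⟩ := hrep b
      rcases lt_or_gt_of_ne (Fin.val_ne_of_ne huv) with hlt | hlt
      · exact ⟨(b, u, v), Finset.mem_filter.2 ⟨Finset.mem_univ _, hlt, hu, hv⟩⟩
      · exact ⟨(b, v, u), Finset.mem_filter.2 ⟨Finset.mem_univ _, hlt, hv, hu⟩⟩
    obtain ⟨x, hx, hxmin⟩ :=
      Finset.exists_min_image _ (fun x => (x.2.2 : ℕ) - (x.2.1 : ℕ)) hne
    obtain ⟨-, h1, h2, h3⟩ := Finset.mem_filter.1 hx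
    exact ⟨x.1, x.2.1, x.2.2, h1, h2, h3, fun b' u v huv hu hv =>
      hxmin (b', u, v) (Finset.mem_filter.2 ⟨Finset.mem_univ _, huv, hu, hv⟩)⟩
  have hout : ∀ b : Fin d, ∃ p : Pos B, p.1.2 = b ∧ ((p.1.1 : ℕ) ≤ s ∨ (t : ℕ) ≤ p.1.1) := by
    intro b
    by_contra hno
    push Not at hno
    obtain ⟨u, v, huv, hu, hv⟩ := hrep b
    have h1 := hno ⟨(u, b), hu⟩ rfl
    have h2 := hno ⟨(v, b), hv⟩ rfl
    simp only at h1 h2
    rcases lt_or_gt_of_ne (Fin.val_ne_of_ne huv) with hlt | hlt
    · have := hmin b u v hlt hu hv; omega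
    · have := hmin b v u hlt hv hu; omega
  choose t₀ ht₀ hto using hout
  have hcorm : ∀ i, Cor M e (m i) := fun i => (hm i).1
  have hcorh : ∀ i b, Cor M e (h i b) := fun i b => ⟨(hh i b).1.1, (hh i b).2⟩
  have hnorh : ∀ i b, ‖h i b‖ ≤ 1 := fun i b => by
    have hp : IsStarProjection (star (h i b) * h i b) := ⟨by
      show star (h i b) * h i b * (star (h i b) * h i b) = _
      rw [mul_assoc, ← mul_assoc (h i b), (hh i b).1.2.1], IsSelfAdjoint.star_mul_self _⟩
    have := hp.norm_le
    rw [CStarRing.norm_star_mul_self] at this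
    nlinarith [norm_nonneg (h i b)]
  have hspan : ∀ i b, h i b ∈ normSpan M A e := fun i b => nor_mem_normSpan (hh i b).1 (hh i b).2
  -- the operator seen by the bound
  set u : Fin k := ⟨(s : ℕ) + 1, by omega⟩ with hu
  obtain ⟨d₀, hd₀⟩ := hB u
  set m₁ : H →L[ℂ] H := star (h s b₀) * m t * h t b₀ with hm₁
  set m₂ : H →L[ℂ] H := star (h s b₀) * m u * h u d₀ with hm₂
  have hperp : ∀ i b x, Perp M A e τ (star (h s b₀) * m i * h x b) := fun i b x =>
    ((hm i).mul_left hA heA he (normSpan_star' hA heA he (hspan _ _))).mul_right hA heA he hτ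
      (hspan _ _)
  set C : ℝ := 1 + ∑ i, ‖m i‖ with hCdef
  have hC : 1 ≤ C := le_add_of_nonneg_right (Finset.sum_nonneg fun _ _ => norm_nonneg _)
  have hmC : ∀ i, ‖m i‖ ≤ C := fun i =>
    (Finset.single_le_sum (fun j _ => norm_nonneg (m j)) (Finset.mem_univ i)).trans (by linarith)
  set K : ℝ := C ^ (k + k) with hKdef
  have hK1 : 1 ≤ K := one_le_pow₀ hC
  have hK0 : 0 ≤ K := zero_le_one.trans hK1
  set T : ℝ := (τ e).re with hT
  have hT0 : 0 ≤ T := tr_nonneg hτ he (cor_proj (hA.1 e heA) he) he.nonneg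
  set G : Cut A e → ℝ := fun c => if (t : ℕ) = s + 1 then diag2 τ m₁ c
    else K ^ 2 * (Real.sqrt (block4 τ m₂ c) * Real.sqrt T) with hG
  have hG0 : Tendsto G (fine A e) (𝓝 0) := by
    simp only [hG]
    split_ifs with hadj
    · exact (hAtom H M A e τ hA heA he hτ m₁ (hperp _ _ _)).1
    · have h2 := (Real.continuous_sqrt.tendsto 0).comp
        ((hAtom H M A e τ hA heA he hτ m₂ (hperp _ _ _)).2)
      rw [Real.sqrt_zero] at h2
      simpa using (h2.mul_const (Real.sqrt T)).const_mul (K ^ 2)
  refine squeeze_zero_norm (a := fun c => (d : ℝ) ^ d * (K * Real.sqrt T * Real.sqrt (G c)))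
    (fun c => ?_) (by simpa using
      ((((Real.continuous_sqrt.tendsto 0).comp hG0).const_mul (K * Real.sqrt T)).const_mul
        ((d : ℝ) ^ d)))
  refine norm_sum_injective_le _ (by positivity) fun J => ?_
  -- the average over signs
  set a : Fin k → Fin d → Fin c.n → (H →L[ℂ] H) := fun i b l => cell (h i b) c l with ha
  have hword : ∀ i : Fin d → Fin c.n, τ (List.ofFn fun x : Fin k => m x *
      (((List.finRange d).filter fun b => b ∈ B x).map fun b => cell (h x b) c (i b)).prod).prod =
      τ (seg m B (fun x b => a x b (i b)) 0 k) := fun i => by rw [seg_univ]; rfl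
  simp only [hword]
  set N : ℕ := c.n * Fintype.card (Pos B) with hN
  set Ls : (Pos B → Fin c.n → Bool) → Fin c.n → Fin k → Fin d → (H →L[ℂ] H) :=
    fun σ j => ext1 fun p => ∑ l, cwt b₀ t₀ J σ j p l • a p.1.1 p.1.2 l with hLs
  have hwt : ∀ σ j p l, ‖cwt b₀ t₀ J σ j p l‖ ≤ 1 := fun σ j p l => by
    unfold cwt
    split_ifs
    · simp
    · simp
    · rw [norm_prod]
      refine le_of_eq (Finset.prod_eq_one fun q _ => ?_)
      split_ifs <;> simp [norm_sgn]
    · exact (norm_sgn _).le
    · simp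
  have hLA : ∀ σ j i b, Ls σ j i b ∈ A := fun σ j i b => by
    simp only [hLs, ext1]
    split_ifs
    · exact sum_mem fun l _ => csmul_mem' _ (cell_mem (hh i b).1 c l)
    · exact one_mem A
  have hLn : ∀ σ j i b, ‖Ls σ j i b‖ ≤ 1 := fun σ j i b => by
    simp only [hLs, ext1]
    split_ifs
    · exact norm_comb_le hA (hh i b).1 ((hcorh i b).mul_right he) c fun l => hwt _ _ _ _
    · exact ContinuousLinearMap.norm_id_le
  have hL0 : ∀ σ j i, b₀ ∈ B i → Ls σ j i b₀ = cell (h i b₀) c j := fun σ j i hi => by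
    simp only [hLs, ext1, dif_pos hi, ha]
    rw [Finset.sum_eq_single j]
    · simp [cwt]
    · intro l _ hl; simp [cwt, hl]
    · simp
  have hcellc : ∀ i b l, Cor M e (cell (h i b) c l) := fun i b l =>
    ((hcorh i b).mul he (cut_cor hA he c l)).mul he ((hcorh i b).star' he)
  set V : (Pos B → Fin c.n → Bool) → Fin c.n → (H →L[ℂ] H) := fun σ j =>
    cell (h s b₀) c j * (seg m B (Ls σ j) (s + 1) t * m t) * cell (h t b₀) c j with hV
  have hVc : ∀ σ j, Cor M e (V σ j) := fun σ j =>
    ((hcellc _ _ _).mul he (cor_seg_mul hA heA he hcorm (hLA σ j) _ _ (hcorm t))).mul he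
      (hcellc _ _ _)
  have hpow : ∀ {p q : ℕ}, p + q ≤ k + k → C ^ p * C ^ q ≤ K := fun hpq => by
    rw [← pow_add]; exact pow_le_pow_right₀ hC hpq
  have htk : (t : ℕ) < k := t.2
  -- the trace of a word against the separated piece
  have hone : ∀ σ j, ‖τ (seg m B (Ls σ j) 0 k)‖ ≤
      K * (n2 τ (V σ j) * n2 τ (cell (h s b₀) c j)) := by
    intro σ j
    set L := Ls σ j
    set p := cell (h s b₀) c j with hp
    set q := cell (h t b₀) c j with hq
    set Rs := restLetter B L s b₀
    set Rt := restLetter B L t b₀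
    have hpp : p * p = p := by rw [hp, cell_mul hA (hh _ _).1, if_pos rfl]
    have hqq : q * q = q := by rw [hq, cell_mul hA (hh _ _).1, if_pos rfl]
    have es : factor m B L s = m s * Rs * p := by
      rw [factor, dif_pos s.2, letter_split hA.2.1 (hLA σ j) s hbs, hL0 σ j s hbs, ← hp,
        hA.2.1 _ (cell_mem (hh _ _).1 c j) _ (restLetter_mem (hLA σ j) s b₀), mul_assoc]
    have et : factor m B L t = m t * q * Rt := by
      rw [factor, dif_pos t.2, letter_split hA.2.1 (hLA σ j) t hbt, hL0 σ j t hbt, ← hq,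
        mul_assoc]
    have e1 : seg m B L 0 k = (seg m B L 0 s * (m s * Rs * p)) *
        (V σ j * (q * Rt * seg m B L (t + 1) k)) := by
      calc seg m B L 0 k = seg m B L 0 s * (m s * Rs * p) *
          (seg m B L (s + 1) t * (m t * q * Rt * seg m B L (t + 1) k)) := by
            rw [← es, ← et, seg_split (Nat.zero_le (s : ℕ)) (by omega : (s : ℕ) ≤ k),
              seg_split (a := (s : ℕ)) (b := s + 1) (c := k) (by omega) (by omega), seg_succ,
              seg_split (a := (s : ℕ) + 1) (b := t) (c := k) (by omega) (by omega),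
              seg_split (a := (t : ℕ)) (b := t + 1) (c := k) (by omega) (by omega), seg_succ]
            simp only [mul_assoc]
        _ = seg m B L 0 s * (m s * Rs * (p * p)) *
          (seg m B L (s + 1) t * (m t * (q * q) * Rt * seg m B L (t + 1) k)) := by rw [hpp, hqq]
        _ = _ := by simp only [hV, ← hp, ← hq, L, mul_assoc]
    have hU : Cor M e (seg m B L 0 s * (m s * Rs * p)) :=
      cor_seg_mul hA heA he hcorm (hLA σ j) _ _
        ((cor_mul_A hA heA (restLetter_mem (hLA σ j) _ _) (hcorm s)).mul he (hcellc _ _ _))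
    have hW : Cor M e (q * Rt * seg m B L (t + 1) k) :=
      cor_mul_seg hA heA he hcorm (hLA σ j) _ _
        (cor_mul_A hA heA (restLetter_mem (hLA σ j) _ _) (hcellc _ _ _))
    have hVW := (hVc σ j).mul he hW
    rw [e1, hτ.2.2.1 _ hU.1 _ hVW.1 hU.2 hVW.2, mul_assoc]
    refine (norm_tr_le hτ he (hVc σ j) (hW.mul he hU)).trans ?_
    rw [mul_left_comm K]
    refine mul_le_mul_of_nonneg_left ?_ (n2_nonneg _)
    rw [show q * Rt * seg m B L (t + 1) k * (seg m B L 0 s * (m s * Rs * p)) =
      q * Rt * seg m B L (t + 1) k * seg m B L 0 s * m s * Rs * p by simp only [mul_assoc]]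
    refine (n2_mul_le hτ he ?_ (hcellc _ _ _)).trans (mul_le_mul_of_nonneg_right ?_ (n2_nonneg _))
    · have := hW.mul he hU
      simpa only [mul_assoc] using this
    · have b1 : ‖q‖ ≤ 1 := (cell_proj hA (hh _ _).1 c j).2.norm_le
      have b2 := norm_restLetter_le (B := B) (hLn σ j) t b₀
      have b3 := norm_seg_le (B := B) (hLn σ j) hC hmC ((t : ℕ) + 1) k
      have b4 := norm_seg_le (B := B) (hLn σ j) hC hmC 0 (s : ℕ)
      have b5 := norm_restLetter_le (B := B) (hLn σ j) s b₀
      calc ‖q * Rt * seg m B L (t + 1) k * seg m B L 0 s * m s * Rs‖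
          ≤ 1 * 1 * C ^ (k - (t + 1)) * C ^ ((s : ℕ) - 0) * C * 1 := by
            have hC0 : 0 ≤ C := zero_le_one.trans hC
            refine (norm_mul_le _ _).trans (mul_le_mul ((norm_mul_le _ _).trans (mul_le_mul
              ((norm_mul_le _ _).trans (mul_le_mul ((norm_mul_le _ _).trans (mul_le_mul
                ((norm_mul_le _ _).trans (mul_le_mul b1 b2 (norm_nonneg _) zero_le_one)) b3
                (norm_nonneg _) (by positivity))) b4 (norm_nonneg _) (by positivity)))
              (hmC s) (norm_nonneg _) (by positivity))) b5 (norm_nonneg _) (by positivity))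
        _ = C ^ (k - (t + 1)) * C ^ (((s : ℕ) - 0) + 1) := by rw [pow_succ]; ring
        _ ≤ K := hpow (by omega)
  have hsum : ∀ σ, ‖∑ j ∈ J b₀, τ (seg m B (Ls σ j) 0 k)‖ ≤
      K * Real.sqrt T * Real.sqrt (∑ j ∈ J b₀, n2 τ (V σ j) ^ 2) := by
    intro σ
    refine (norm_sum_le _ _).trans ((Finset.sum_le_sum fun j _ => hone σ j).trans ?_)
    rw [← Finset.mul_sum, mul_assoc]
    refine mul_le_mul_of_nonneg_left ?_ hK0
    refine (Real.sum_mul_le_sqrt_mul_sqrt _ _ _).trans ?_
    rw [mul_comm]
    refine mul_le_mul_of_nonneg_right (Real.sqrt_le_sqrt ?_) (Real.sqrt_nonneg _)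
    exact (Finset.sum_le_sum_of_subset_of_nonneg (Finset.subset_univ _)
      fun j _ _ => sq_nonneg _).trans (sum_cell_sq hτ he hA heA (hh _ _).1 (hh _ _).2 c)
  -- the separated piece is small on average
  have hV2 : ∑ σ, ∑ j ∈ J b₀, n2 τ (V σ j) ^ 2 ≤ 2 ^ N * G c := by
    have hcardσ : (Fintype.card (Pos B → Fin c.n → Bool) : ℝ) = 2 ^ N := by
      simp [hN, pow_mul]
    simp only [hG]
    split_ifs with hadj
    · rw [← hcardσ, show (Fintype.card (Pos B → Fin c.n → Bool) : ℝ) * diag2 τ m₁ c =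
          ∑ _σ : Pos B → Fin c.n → Bool, diag2 τ m₁ c by simp,
        ← sum_blocks_eq hτ he hA c (hperp _ _ _).1]
      refine Finset.sum_le_sum fun σ _ => (Finset.sum_le_sum fun j _ => ?_).trans
        (Finset.sum_le_sum_of_subset_of_nonneg (Finset.subset_univ _) fun j _ _ => sq_nonneg _)
      refine pow_le_pow_left₀ (n2_nonneg _) ?_ 2
      have hy : Cor M e (c.q j * m₁ * c.q j) :=
        ((cut_cor hA he c j).mul he (hperp _ _ _).1).mul he (cut_cor hA he c j)
      have e1 : V σ j = h s b₀ * (c.q j * m₁ * c.q j) * star (h t b₀) := by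
        simp only [hV, hadj, seg_self, one_mul, cell, hm₁, mul_assoc]
      have hy1 := (hcorh s b₀).mul he hy
      rw [e1]
      refine (n2_mul_right_le hτ he (hy1.mul he ((hcorh t b₀).star' he)) hy1).trans ?_
      refine (mul_le_of_le_one_left (n2_nonneg _) (by rw [norm_star]; exact hnorh _ _)).trans ?_
      exact (n2_mul_le hτ he hy1 hy).trans (mul_le_of_le_one_left (n2_nonneg _) (hnorh _ _))
    · have hsu : (s : ℕ) + 1 < t := by omega
      have hd0 : d₀ ≠ b₀ := fun hdb => by
        have := hmin b₀ u t (show (u : ℕ) < t from hsu) (hdb ▸ hd₀) hbt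
        simp only [hu] at this
        omega
      set q₀ : Pos B := ⟨(u, d₀), hd₀⟩ with hq₀
      have hq₀t : ∀ p : Pos B, p = t₀ p.1.2 → (p.1.1 : ℕ) ≤ s ∨ (t : ℕ) ≤ p.1.1 := fun p hp => by
        rw [hp]; exact hto _
      have hq₀n : q₀ ≠ t₀ q₀.1.2 := fun hp => by
        have := hq₀t q₀ hp
        simp only [hq₀, hu] at this
        omega
      set R : (Pos B → Fin c.n → Bool) → Fin c.n → (H →L[ℂ] H) := fun σ j =>
        restLetter B (Ls σ j) u d₀ * seg m B (Ls σ j) (s + 2) t * m t * cell (h t b₀) c j with hR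
      have hRc : ∀ σ j, Cor M e (R σ j) := fun σ j => by
        have := (cor_A_mul hA heA (restLetter_mem (B := B) (hLA σ j) u d₀)
          (cor_seg_mul (B := B) hA heA he hcorm (hLA σ j) (s + 2) t (hcorm t))).mul he
            (hcellc t b₀ j)
        simp only [hR]
        simpa only [mul_assoc] using this
      set y : (Pos B → Fin c.n → Bool) → Fin c.n → Fin c.n → (H →L[ℂ] H) := fun σ j l =>
        cell (h s b₀) c j * m u * cell (h u d₀) c l * R σ j with hy
      have hyc : ∀ σ j l, Cor M e (y σ j l) := fun σ j l =>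
        (((hcellc _ _ _).mul he (hcorm u)).mul he (hcellc _ _ _)).mul he (hRc σ j)
      have eV : ∀ σ j, V σ j = ∑ l ∈ J d₀, sgn (σ q₀ l) • y σ j l := by
        intro σ j
        have eS : Ls σ j u d₀ = ∑ l ∈ J d₀, sgn (σ q₀ l) • cell (h u d₀) c l := by
          simp only [hLs, ext1, dif_pos hd₀, ha]
          rw [← Finset.sum_subset (Finset.subset_univ (J d₀)) fun l _ hl => by
            simp [cwt, hd0, hl]]
          refine Finset.sum_congr rfl fun l hl => ?_
          congr 1
          simp only [cwt, if_neg hd0, if_pos hl]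
          exact if_neg hq₀n
        have ef : factor m B (Ls σ j) (s + 1) = m u * Ls σ j u d₀ * restLetter B (Ls σ j) u d₀ := by
          rw [factor, dif_pos u.2, letter_split hA.2.1 (hLA σ j) u hd₀, ← hu, mul_assoc]
        have e2 : seg m B (Ls σ j) (s + 1) t =
            m u * Ls σ j u d₀ * restLetter B (Ls σ j) u d₀ * seg m B (Ls σ j) (s + 2) t := by
          rw [← ef, ← seg_succ, ← seg_split (by omega) (by omega : (s : ℕ) + 1 + 1 ≤ t)]
        simp only [hV, hy, hR, e2, eS, Finset.mul_sum, Finset.sum_mul, mul_smul_comm,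
          smul_mul_assoc, mul_assoc]
      have eR : ∀ σ f j, R (Function.update σ q₀ f) j = R σ j := by
        intro σ f j
        have eL : ∀ (i : Fin k) (b : Fin d), (s : ℕ) < i → (i : ℕ) < t → (i, b) ≠ (u, d₀) →
            Ls (Function.update σ q₀ f) j i b = Ls σ j i b := by
          intro i b hi1 hi2 hne
          simp only [hLs, ext1]
          split_ifs with hb
          · refine Finset.sum_congr rfl fun l _ => ?_
            congr 1
            have hp : (⟨(i, b), hb⟩ : Pos B) ≠ t₀ b := fun hp => by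
              have := hq₀t ⟨(i, b), hb⟩ hp
              simp only at this
              omega
            have hq : (⟨(i, b), hb⟩ : Pos B) ≠ q₀ := fun hq => hne (congrArg Subtype.val hq)
            simp only [cwt, if_neg hp, Function.update_of_ne hq]
          · rfl
        have e1 : seg m B (Ls (Function.update σ q₀ f) j) (s + 2) t =
            seg m B (Ls σ j) (s + 2) t := seg_congr fun i hi1 hi2 b _ =>
          eL i b (by omega) hi2 (fun h => by
            have := congrArg (fun x : Fin k × Fin d => (x.1 : ℕ)) h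
            simp only [hu] at this; omega)
        have e2 : restLetter B (Ls (Function.update σ q₀ f) j) u d₀ =
            restLetter B (Ls σ j) u d₀ := by
          unfold restLetter letter
          congr 1
          refine List.map_congr_left fun b _ => ?_
          by_cases hb : b = d₀
          · subst hb; simp
          · simp only [Function.update_of_ne hb]
            exact eL u b (by simp [hu]) hsu (by simp [hb])
        simp only [hR, e1, e2]
      have hsplit : ∀ j, ∑ σ, n2 τ (V σ j) ^ 2 = ∑ σ, ∑ l ∈ J d₀, n2 τ (y σ j l) ^ 2 := by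
        intro j
        have h1 := sum_update q₀ fun σ => n2 τ (V σ j) ^ 2
        have h2 : ∀ σ, ∑ f : Fin c.n → Bool, n2 τ (V (Function.update σ q₀ f) j) ^ 2 =
            2 ^ c.n * ∑ l ∈ J d₀, n2 τ (y σ j l) ^ 2 := fun σ => by
          rw [← sum_sgn_n2 hτ he (J d₀) (hyc σ j)]
          refine Finset.sum_congr rfl fun f _ => ?_
          rw [eV]
          congr 2
          refine Finset.sum_congr rfl fun l _ => ?_
          simp only [hy, eR, Function.update_self]
        simp only [h2, ← Finset.mul_sum] at h1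
        rw [nsmul_eq_mul] at h1
        have hc2 : (Fintype.card (Fin c.n → Bool) : ℝ) = 2 ^ c.n := by simp
        rw [hc2] at h1
        exact (mul_left_cancel₀ (pow_ne_zero _ two_ne_zero) h1).symm
      rw [Finset.sum_comm, Finset.sum_congr rfl fun j _ => hsplit j, Finset.sum_comm,
        ← hcardσ, show (Fintype.card (Pos B → Fin c.n → Bool) : ℝ) *
          (K ^ 2 * (Real.sqrt (block4 τ m₂ c) * Real.sqrt T)) =
          ∑ _σ : Pos B → Fin c.n → Bool, K ^ 2 * (Real.sqrt (block4 τ m₂ c) * Real.sqrt T) by simp]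
      refine Finset.sum_le_sum fun σ _ => ?_
      set Z : Fin c.n → (H →L[ℂ] H) := fun j => star (h u d₀) * R σ j with hZ
      have hZc : ∀ j, Cor M e (Z j) := fun j => ((hcorh u d₀).star' he).mul he (hRc σ j)
      have hle : ∀ j l, n2 τ (y σ j l) ^ 2 ≤ n2 τ (c.q j * m₂ * c.q l * Z j) ^ 2 := fun j l => by
        refine pow_le_pow_left₀ (n2_nonneg _) ?_ 2
        have e1 : y σ j l = h s b₀ * (c.q j * m₂ * c.q l * Z j) := by
          simp only [hy, hZ, hm₂, cell, mul_assoc]
        rw [e1]
        have hx := (((cut_cor hA he c j).mul he (hperp u d₀ u).1).mul he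
          (cut_cor hA he c l)).mul he (hZc j)
        exact (n2_mul_le hτ he ((hcorh s b₀).mul he hx) hx).trans
          (mul_le_of_le_one_left (n2_nonneg _) (hnorh _ _))
      refine le_trans (Finset.sum_le_sum fun j _ => Finset.sum_le_sum fun l _ => hle j l) ?_
      refine le_trans ((Finset.sum_le_sum fun j _ => Finset.sum_le_sum_of_subset_of_nonneg
        (Finset.subset_univ _) fun l _ _ => sq_nonneg _).trans
        (Finset.sum_le_sum_of_subset_of_nonneg (Finset.subset_univ _)
          fun j _ _ => Finset.sum_nonneg fun l _ => sq_nonneg _)) ?_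
      refine (sum_blocks_le hτ he hA c (hperp u d₀ u).1 hZc hK0
        (z := fun j => n2 τ (cell (h t b₀) c j)) fun j => ?_).trans ?_
      · have b1 : ‖star (h u d₀)‖ ≤ 1 := by rw [norm_star]; exact hnorh _ _
        have b2 := norm_restLetter_le (B := B) (hLn σ j) u d₀
        have b3 := norm_seg_le (B := B) (hLn σ j) hC hmC ((s : ℕ) + 2) t
        have hC0 : 0 ≤ C := zero_le_one.trans hC
        have b4 : ‖star (h u d₀) * restLetter B (Ls σ j) u d₀ *
            seg m B (Ls σ j) (s + 2) t * m t‖ ≤ K := by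
          refine le_trans ((norm_mul_le _ _).trans (mul_le_mul ((norm_mul_le _ _).trans (mul_le_mul
            ((norm_mul_le _ _).trans (mul_le_mul b1 b2 (norm_nonneg _) zero_le_one)) b3
            (norm_nonneg _) (by positivity))) (hmC t) (norm_nonneg _) (by positivity))) ?_
          rw [one_mul, one_mul]
          calc C ^ ((t : ℕ) - (s + 2)) * C = C ^ ((t : ℕ) - (s + 2)) * C ^ 1 := by rw [pow_one]
            _ ≤ K := hpow (by omega)
        have e1 : Z j = star (h u d₀) * restLetter B (Ls σ j) u d₀ *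
            seg m B (Ls σ j) (s + 2) t * m t * cell (h t b₀) c j := by
          simp only [hZ, hR, mul_assoc]
        rw [e1]
        refine ⟨(norm_mul_le _ _).trans ((mul_le_mul b4 (cell_proj hA (hh _ _).1 c j).2.norm_le
          (norm_nonneg _) hK0).trans (mul_one K).le), ?_⟩
        exact (n2_mul_le hτ he (e1 ▸ hZc j) (hcellc _ _ _)).trans
          (mul_le_mul_of_nonneg_right b4 (n2_nonneg _))
      · exact mul_le_mul_of_nonneg_left (mul_le_mul_of_nonneg_left
          (Real.sqrt_le_sqrt (sum_cell_sq hτ he hA heA (hh _ _).1 (hh _ _).2 c))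
          (Real.sqrt_nonneg _)) (sq_nonneg K)
  -- combine
  have havg := word_average (m := m) τ a b₀ t₀ ht₀ J
  have h1 : (2 : ℝ) ^ N * ‖∑ i ∈ Fintype.piFinset J, τ (seg m B (fun x b => a x b (i b)) 0 k)‖ ≤
      ∑ σ : Pos B → Fin c.n → Bool, K * Real.sqrt T * Real.sqrt (∑ j ∈ J b₀, n2 τ (V σ j) ^ 2) := by
    have h0 := congrArg (fun z : ℂ => ‖z‖) havg
    simp only [norm_mul, norm_pow, Complex.norm_two] at h0
    rw [hN, ← h0]
    exact (norm_sum_le _ _).trans (Finset.sum_le_sum fun σ _ => hsum σ)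
  have h2 : ∑ σ : Pos B → Fin c.n → Bool, Real.sqrt (∑ j ∈ J b₀, n2 τ (V σ j) ^ 2) ≤
      2 ^ N * Real.sqrt (G c) := by
    have h3 := Real.sum_mul_le_sqrt_mul_sqrt Finset.univ (fun _ : Pos B → Fin c.n → Bool => (1 : ℝ))
      fun σ => Real.sqrt (∑ j ∈ J b₀, n2 τ (V σ j) ^ 2)
    simp only [one_mul, one_pow, Finset.sum_const, Finset.card_univ, nsmul_eq_mul, mul_one,
      Real.sq_sqrt (Finset.sum_nonneg fun j _ => sq_nonneg _)] at h3
    refine h3.trans ?_
    rw [show (Fintype.card (Pos B → Fin c.n → Bool) : ℝ) = 2 ^ N by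
      simp [hN, pow_mul]]
    refine (mul_le_mul_of_nonneg_left (Real.sqrt_le_sqrt hV2) (Real.sqrt_nonneg _)).trans ?_
    rw [Real.sqrt_mul (by positivity), ← mul_assoc, Real.mul_self_sqrt (by positivity)]
  rw [← Finset.mul_sum] at h1
  refine le_of_mul_le_mul_left (h1.trans ((mul_le_mul_of_nonneg_left h2 (by positivity)).trans
    (le_of_eq (by ring)))) (pow_pos two_pos N)

end Vale.Agent.P078.Orth
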