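import Vale.Agent.P078.Orth.Avg

/-!
The excess of a pinching is bounded by the moments of its blocks.
-/

namespace Vale.Agent.P078.Orth

open MKS Singular

variable {H : Type} [NormedAddCommGroup H] [InnerProductSpace ℂ H] [CompleteSpace H]
variable {M A : VonNeumannAlgebra H} {e : H →L[ℂ] H} {τ : (H →L[ℂ] H) →ₗ[ℂ] ℂ}

theorem pinch_pow {r : ℕ} {P : Fin r → (H →L[ℂ] H)} (hP : IsPartition A e P) (m : H →L[ℂ] H) :
    ∀ k : ℕ, MKS.pinch P m ^ (k + 1) = ∑ s, (P s * m * P s) ^ (k + 1)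
  | 0 => by simp [MKS.pinch]
  | k + 1 => by
    rw [pow_succ, pinch_pow hP m k, MKS.pinch, Finset.sum_mul]
    refine Finset.sum_congr rfl fun s _ => ?_
    rw [Finset.mul_sum, Finset.sum_eq_single s (fun t _ hts => ?_) (by simp), ← pow_succ]
    rw [pow_succ, mul_assoc, mul_assoc (P s * m) (P s), ← mul_assoc (P s) (P t * m),
      ← mul_assoc (P s) (P t), hP.2.1 s t (Ne.symm hts)]
    simp

/-- The two excesses of a pinching are bounded by the `2 k`-th moments of its blocks. -/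
theorem excess_moment (hA : IsMASA M A) (he : IsStarProjection e) (hτ : IsTrace M e τ) {r : ℕ}
    {P : Fin r → (H →L[ℂ] H)} (hP : IsPartition A e P) {m : H →L[ℂ] H} (hm : Cor M e m)
    (hms : IsSelfAdjoint m) {u : ℝ} (hu : 0 < u) {k : ℕ} (hk : 1 ≤ k) :
    (τ (excess u (MKS.pinch P m) * excess u (MKS.pinch P m))).re +
      (τ (excess u (-MKS.pinch P m) * excess u (-MKS.pinch P m))).re ≤
      2 * u ^ 2 / u ^ (2 * k) * ∑ s, n2 τ ((P s * m * P s) ^ k) ^ 2 := by
  set S := MKS.pinch P m with hS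
  have hSc : Cor M e S := cor_pinch hτ he hA.1 hP hm.1
  have hPs : ∀ s, star (P s) = P s := fun s => (hP.1 s).2.isSelfAdjoint.star_eq
  have hBc : ∀ s, Cor M e (P s * m * P s) := fun s => by
    have hc : Cor M e (P s) :=
      Cor.of_abs he (hA.1 _ (hP.1 s).1) (hP.mul_e s).1 (hP.mul_e s).2
    exact (hc.mul he hm).mul he hc
  have hBs : ∀ s, IsSelfAdjoint (P s * m * P s) := fun s => by
    show star (P s * m * P s) = _
    simp only [star_mul, hPs, hms.star_eq, mul_assoc]
  have hSs : IsSelfAdjoint S := by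
    show star S = S
    simp only [hS, MKS.pinch, star_sum]
    exact Finset.sum_congr rfl fun s _ => (hBs s).star_eq
  have hpow : ∀ {x : H →L[ℂ] H}, Cor M e x → ∀ j : ℕ, 1 ≤ j → Cor M e (x ^ j) := by
    intro x hx j hj
    induction j, hj using Nat.le_induction with
    | base => simpa using hx
    | succ j _ ih => rw [pow_succ]; exact ih.mul he hx
  set c := u ^ 2 / u ^ (2 * k) with hc
  have hle : ∀ T : H →L[ℂ] H, IsSelfAdjoint T → Cor M e T →
      (τ (excess u T * excess u T)).re ≤ c * (τ (T ^ (2 * k))).re := by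
    intro T hTs hT
    rw [← tr_rsmul]
    refine tr_mono hτ he ((cor_excess he hT hu hTs).mul he (cor_excess he hT hu hTs))
      ((hpow hT (2 * k) (by omega)).rsmul c) ?_
    rw [excess, ← cfc_mul _ _ T, ← cfc_pow_id (R := ℝ) T (2 * k) hTs, ← cfc_smul _ _ T]
    refine cfc_mono fun x _ => ?_
    have h2k : 0 ≤ x ^ (2 * k) := by rw [pow_mul]; positivity
    have hc0 : 0 ≤ c := by positivity
    rcases le_total x u with h | h
    · rw [max_eq_right (sub_nonpos.2 h), mul_zero, smul_eq_mul]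
      exact mul_nonneg hc0 h2k
    · rw [max_eq_left (sub_nonneg.2 h), smul_eq_mul]
      have h1 : (x / u) ^ 2 ≤ (x / u) ^ (2 * k) :=
        pow_le_pow_right₀ (by rw [le_div_iff₀ hu, one_mul]; exact h) (by omega)
      calc (x - u) * (x - u) ≤ u ^ 2 * (x / u) ^ 2 := by
            rw [div_pow, mul_div_cancel₀ _ (pow_ne_zero 2 hu.ne'), sq]
            exact mul_le_mul (by linarith) (by linarith) (sub_nonneg.2 h) (hu.le.trans h)
        _ ≤ u ^ 2 * (x / u) ^ (2 * k) := mul_le_mul_of_nonneg_left h1 (sq_nonneg u)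
        _ = c * x ^ (2 * k) := by rw [hc, div_pow]; ring
  have h1 := hle S hSs hSc
  have h2 := hle (-S) hSs.neg hSc.neg
  rw [(even_two_mul k).neg_pow] at h2
  have hsum : (τ (S ^ (2 * k))).re = ∑ s, n2 τ ((P s * m * P s) ^ k) ^ 2 := by
    obtain ⟨j, hj⟩ : ∃ j, 2 * k = j + 1 := ⟨2 * k - 1, by omega⟩
    rw [hS, hj, pinch_pow hP m j, map_sum, Complex.re_sum, ← hj]
    refine Finset.sum_congr rfl fun s _ => ?_
    rw [n2_sq hτ he (hpow (hBc s) k hk), ((hBs s).pow k).star_eq, ← pow_add, two_mul]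
  rw [← hsum, mul_div_assoc, ← hc]
  linarith

end Vale.Agent.P078.Orth
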