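import Vale.Agent.P078.Orth.Span
import Vale.Agent.P078.Orth.Excess
import Vale.Agent.P078.Orth.Core
import Vale.Agent.P078.Orth.Atom

/-!
Random fields with small mean pave operators orthogonal to the normaliser.
-/

namespace Vale.Agent.P078.Orth

open Filter Topology MKS Singular

set_option linter.unusedSectionVars false

variable {H : Type} [NormedAddCommGroup H] [InnerProductSpace ℂ H] [CompleteSpace H]
variable {M A : VonNeumannAlgebra H} {e : H →L[ℂ] H} {τ : (H →L[ℂ] H) →ₗ[ℂ] ℂ}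
variable {L : Type} [Fintype L] {μ : L → ℝ}

theorem real_lemma {y a V η ε : ℝ} (hη : 0 ≤ η) (hε : 0 ≤ ε) (hy : 0 ≤ y) (ha : 0 ≤ a) (hV : 0 ≤ V)
    (h : y ^ 2 ≤ (a * V + η) * y + ε) : y ≤ a * V + η + Real.sqrt ε := by
  by_contra hlt
  push Not at hlt
  have hs := Real.sqrt_nonneg ε
  have hs2 := Real.sq_sqrt hε
  nlinarith [mul_nonneg ha hV]

theorem step_arith {s M W V z y θ δ η : ℝ} (hs : 0 ≤ s) (hM : 0 ≤ M) (hW : 0 ≤ W) (hV : 0 ≤ V)
    (hθ : 0 < θ) (hδ : δ = θ ^ 2 / (4 * (V + 1))) (hη : 0 < η)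
    (hθη : 4 * (M + 1) * (s + 1) * θ = η) (hz : z ≤ W + θ / 4 + Real.sqrt (2 * δ))
    (hy : y ≤ s * W + θ / 4 + Real.sqrt (δ * (V + 1))) :
    s * (M * z) + θ + (M * y + M * (θ / 4)) ≤ 2 * s * M * W + η := by
  have h4 : δ * (4 * (V + 1)) = θ ^ 2 := by rw [hδ]; field_simp
  have hr1 : Real.sqrt (δ * (V + 1)) ≤ θ := Real.sqrt_le_iff.2 ⟨hθ.le, by nlinarith [sq_nonneg θ]⟩
  have hδ0 : 0 ≤ δ := by rw [hδ]; positivity
  have hr2 : Real.sqrt (2 * δ) ≤ θ :=
    Real.sqrt_le_iff.2 ⟨hθ.le, by nlinarith [sq_nonneg θ, mul_nonneg hδ0 hV]⟩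
  have k1 : s * (M * z) ≤ s * (M * (W + θ / 4 + θ)) :=
    mul_le_mul_of_nonneg_left (mul_le_mul_of_nonneg_left (by linarith) hM) hs
  have k2 : M * y ≤ M * (s * W + θ / 4 + θ) := mul_le_mul_of_nonneg_left (by linarith) hM
  nlinarith [mul_nonneg (mul_nonneg hs hM) hθ.le, mul_nonneg hM hθ.le, mul_nonneg hs hθ.le]

section

variable (S : Setting M A e τ μ)
include S

theorem poly_prod {a : H →L[ℂ] H} (ha : a ∈ A) (hc : Cor M e a) :
    ∀ {d : ℕ} (h : Fin d → (H →L[ℂ] H)) (_ : ∀ t, NorC M A e (h t)) (f : Fin d → L → ℝ),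
      VPoly M A e (fun c ω => a * (List.ofFn fun t => vee (h t) (f t) c ω).prod : Rand A e L)
  | 0, h, _, f => by
    convert (VPoly.base a ha hc : VPoly M A e (cst a : Rand A e L)) using 1
    funext c ω
    simp [cst]
  | d + 1, h, hn, f => by
    have h1 := (poly_prod ha hc (fun t => h t.castSucc) (fun t => hn t.castSucc)
      fun t => f t.castSucc).vee _ (h (Fin.last d)) (f (Fin.last d)) (hn _)
    convert h1 using 1
    funext c ω
    simp only [List.ofFn_succ', List.prod_concat, Pi.mul_apply, veeR, mul_assoc]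

theorem field_near_lin {F : Rand A e L} (hF : Good M F) (h : IsField M A e τ μ F) :
    Near M τ μ (Lin M A e μ) F := by
  have h1 : Near M τ μ (VPoly M A e) F := by
    intro η hη
    obtain ⟨N, a, d, h, f, ha, hh, hev⟩ := h (η ^ 2) (by positivity)
    set G : Rand A e L := ∑ j, fun c ω => a j * (List.ofFn fun t => vee (h j t) (f j t) c ω).prod
    have hP : VPoly M A e G := Finset.sum_induction _ (VPoly M A e) (fun x y => VPoly.add x y)
      (VPoly.base 0 (zero_mem A) Cor.zero)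
      fun j _ => poly_prod S (ha j).1 ⟨S.hA.1 _ (ha j).1, (ha j).2⟩ _ (hh j) _
    refine ⟨G, hP, poly_good S hP, ?_⟩
    filter_upwards [hev] with c hc
    rw [nr, Real.sqrt_le_iff]
    refine ⟨hη.le, le_trans (le_of_eq ?_) hc⟩
    simp [G, Finset.sum_apply]
  exact h1.bind S hF fun G hG _ => near_lin_of_poly S hG

theorem avg_val {d : ℕ} {h : Fin (d + 1) → (H →L[ℂ] H)} {f : Fin (d + 1) → L → ℝ}
    (hf : Centred μ f) (c : Cut A e) : avg μ (fun ω => val h f c ω) = 0 := by
  simp only [val, avg, Finset.smul_sum, smul_smul]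
  rw [Finset.sum_comm]
  refine Finset.sum_eq_zero fun i hi => ?_
  rw [← Finset.sum_smul]
  have h1 := avg_prod_blocks S f id i (mem_inj.1 hi)
  simp only [avg, id, smul_eq_mul] at h1
  simp only [weight]
  rw [h1, Finset.prod_eq_zero (Finset.mem_univ (0 : Fin (d + 1))), zero_smul]
  rw [show (Finset.univ.filter fun o : Fin (d + 1) => o = 0) = {0} by ext; simp]
  simpa using hf 0

/-- A combination of tuple sums is a constant plus a part with mean zero which turns words of the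
second kind into words of the first kind. -/
theorem lin_parts {G : Rand A e L} (hG : Lin M A e μ G) :
    ∃ a R, a ∈ A ∧ Cor M e a ∧ Good M R ∧ G = cst a + R ∧ (∀ c, avg μ (R c) = 0) ∧
      ∀ Q, PiW M A e τ μ Q → Sums (KW M A e τ μ) (R * Q) := by
  induction hG with
  | base a ha hc =>
    refine ⟨a, 0, ha, hc, Good.zero, (add_zero _).symm, fun c => by simp [avg], fun Q _ => ?_⟩
    rw [zero_mul]; exact Sums.zero
  | val a ha hc h hn f hf =>
    refine ⟨0, _, zero_mem A, Cor.zero, (good_cst hc).mul S.he (good_val S hn f),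
      (by rw [show (cst (0 : H →L[ℂ] H) : Rand A e L) = 0 from rfl, zero_add]), fun c => ?_,
      fun Q hQ => ?_⟩
    · have h0 := avg_val S hf c (h := h) (A := A)
      have h1 := (avg_map (μ := μ) (LinearMap.mulLeft ℝ a) fun ω => val h f c ω).symm
      simp only [LinearMap.mulLeft_apply, h0, mul_zero] at h1
      exact h1
    · rw [mul_assoc]
      exact Sums.single (cmul_kw S ha hc (Or.inr (FW.step ⟨_, h, f⟩ ⟨hn, hf⟩ Q hQ)))
  | add G G' _ _ h h' =>
    obtain ⟨a, R, ha, hac, hR, rfl, hR0, hRQ⟩ := h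
    obtain ⟨a', R', ha', hac', hR', rfl, hR0', hRQ'⟩ := h'
    refine ⟨a + a', R + R', add_mem ha ha', hac.add hac', hR.add hR', ?_, fun c => ?_,
      fun Q hQ => ?_⟩
    · rw [show (cst (a + a') : Rand A e L) = cst a + cst a' from rfl]; abel
    · rw [show (R + R') c = fun ω => R c ω + R' c ω from rfl, avg_add, hR0, hR0', add_zero]
    · rw [add_mul]; exact (hRQ Q hQ).add (hRQ' Q hQ)

theorem tendsto_inner_sums (hCore : CoreStatement) {Q K : Rand A e L}
    (hQ : Sums (PiW M A e τ μ) Q) (hK : Sums (KW M A e τ μ) K) :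
    Tendsto (etr τ μ (star Q * K)) (fine A e) (𝓝 0) := by
  have h0 : Tendsto (etr τ μ (0 : Rand A e L)) (fine A e) (𝓝 0) :=
    tendsto_const_nhds.congr fun c => by simp [etr, avg]
  induction hQ with
  | zero => rw [star_zero, zero_mul]; exact h0
  | cons G G' hG _ ih =>
    rw [star_add, add_mul]
    refine tendsto_etr_add S ?_ ih
    clear ih
    induction hK with
    | zero => rw [mul_zero]; exact h0
    | cons K K' hK _ ih => rw [mul_add]; exact tendsto_etr_add S (tendsto_inner S hCore hG hK) ih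

theorem n2_sum_le {ι : Type*} (s : Finset ι) {x : ι → (H →L[ℂ] H)} (h : ∀ i ∈ s, Cor M e (x i)) :
    n2 τ (∑ i ∈ s, x i) ≤ ∑ i ∈ s, n2 τ (x i) := by
  classical
  induction s using Finset.induction_on with
  | empty => simp [n2]
  | insert i s hi ih =>
    rw [Finset.sum_insert hi, Finset.sum_insert hi]
    exact (n2_add_le S.hτ S.he (h i (Finset.mem_insert_self i s))
      (Cor.sum s fun j hj => h j (Finset.mem_insert_of_mem hj))).trans
      (add_le_add le_rfl (ih fun j hj => h j (Finset.mem_insert_of_mem hj)))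

theorem n2_avg_le {F : Rand A e L} (hF : Good M F) (c : Cut A e) :
    n2 τ (avg μ (F c)) ≤ nr τ μ F c := by
  obtain ⟨_, _, hF⟩ := hF
  rw [avg_eq]
  refine (n2_sum_le S _ fun ω _ => (hF c ω).1.rsmul _).trans ?_
  simp only [n2_rsmul S.hτ S.he (wt_nonneg S _)]
  have h := avg_mul_le S (fun _ : Fin c.n → L => (1 : ℝ)) fun ω => n2 τ (F c ω)
  simp only [one_mul, one_pow, avg_const S, Real.sqrt_one, avg_eq, smul_eq_mul] at h
  exact h

theorem nr_proj_mul_le {p F : Rand A e L} (hp : ∀ c ω, Cor M e (p c ω) ∧ ‖p c ω‖ ≤ 1)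
    (hF : Good M F) (c : Cut A e) : nr τ μ (p * F) c ≤ nr τ μ F c := by
  simpa using nr_mul_le S zero_le_one hp hF c

/-- A random field with mean at most `κ` is small on words starting with an orthogonal operator. -/
theorem field_on_pi (hCore : CoreStatement) {p : Rand A e L}
    (hp : ∀ c ω, Cor M e (p c ω) ∧ IsStarProjection (p c ω)) (hpF : Near M τ μ (Lin M A e μ) p)
    {κ : ℝ} (hκ : ∀ᶠ c in fine A e, avg μ (p c) ≤ κ • e) {Q : Rand A e L}
    (hQ : Sums (PiW M A e τ μ) Q) {η : ℝ} (hη : 0 < η) :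
    ∀ᶠ c in fine A e, nr τ μ (p * Q) c ^ 2 ≤ κ * nr τ μ Q c ^ 2 + η := by
  have hQg := sums_good S (fun G => piW_good S) hQ
  have hpg : Good M p := ⟨1, zero_le_one, fun c ω => ⟨(hp c ω).1, (hp c ω).2.norm_le⟩⟩
  obtain ⟨C, hC, hQb⟩ := hQg
  have hQg : Good M Q := ⟨C, hC, hQb⟩
  set K := C ^ 2 * n2 τ e + 1
  have hK : 0 < K := by have := n2_nonneg (τ := τ) e; positivity
  obtain ⟨G, hG, hGg, hd⟩ := hpF (η / (4 * K)) (by positivity)
  obtain ⟨a, R, ha, hac, hR, rfl, hR0, hRQ⟩ := lin_parts S hG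
  have hRQ' : Sums (KW M A e τ μ) (R * Q) := hQ.map R fun Q' hQ' => hRQ Q' hQ'
  filter_upwards [hd, hκ, Metric.tendsto_nhds.1 (tendsto_inner_sums S hCore hQ hRQ') (η / 4)
    (by positivity)] with c hdc hkc hRc
  rw [dist_zero_right] at hRc
  set B := avg μ (p c) with hBdef
  have hBc : Cor M e B := by
    rw [hBdef, avg_eq]; exact Cor.sum _ fun ω _ => (hp c ω).1.rsmul _
  -- the projection
  have h1 : nr τ μ (p * Q) c ^ 2 = (etr τ μ (star Q * (p * Q)) c).re := by
    rw [← etr_star_self S (hpg.mul S.he hQg)]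
    congr 2
    funext c ω
    simp only [Pi.mul_apply, Pi.star_apply, star_mul, (hp c ω).2.isSelfAdjoint.star_eq]
    calc star (Q c ω) * p c ω * (p c ω * Q c ω) = star (Q c ω) * (p c ω * p c ω) * Q c ω := by
          simp only [mul_assoc]
      _ = star (Q c ω) * (p c ω * Q c ω) := by
          rw [(hp c ω).2.isIdempotentElem.eq, mul_assoc]
  have bnd : ∀ (T : Rand A e L), Good M T → ‖etr τ μ (star Q * (T * Q)) c‖ ≤
      C ^ 2 * n2 τ e * nr τ μ T c := by
    intro T hT
    refine (norm_etr_le S hQg (hT.mul S.he hQg) c).trans ?_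
    have hQe : nr τ μ Q c ≤ C * n2 τ e := by
      have h := nr_mul_le S hC hQb (good_cst (cor_e S) : Good M (cst e : Rand A e L)) c
      rwa [mul_cst_e S hQg, nr_cst S] at h
    refine (mul_le_mul hQe (nr_mul_right_le S hC hT hQb c) (nr_nonneg _ _)
      (mul_nonneg hC (n2_nonneg _))).trans (le_of_eq (by ring))
  -- the mean
  set D : Rand A e L := fun c' ω => a - avg μ (p c') with hD
  have hBb : ∀ c', Cor M e (avg μ (p c')) ∧ ‖avg μ (p c')‖ ≤ 1 := fun c' => by
    refine ⟨by rw [avg_eq]; exact Cor.sum _ fun ω _ => (hp c' ω).1.rsmul _, ?_⟩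
    rw [avg_eq]
    refine (norm_sum_le _ _).trans (le_trans (Finset.sum_le_sum fun ω _ => ?_) (sum_wt S _).le)
    rw [norm_smul, Real.norm_of_nonneg (wt_nonneg S ω)]
    exact mul_le_of_le_one_right (wt_nonneg S ω) (hp c' ω).2.norm_le
  have hDg : Good M D := ⟨‖a‖ + 1, by positivity, fun c' ω => ⟨hac.sub (hBb c').1,
    (norm_sub_le _ _).trans (add_le_add le_rfl (hBb c').2)⟩⟩
  have hDn : nr τ μ D c ≤ η / (4 * K) := by
    have hn : nr τ μ D c = n2 τ (a - B) := by
      simp only [nr, hD, avg_const S, Real.sqrt_sq (n2_nonneg _), hBdef]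
    rw [hn, ← n2_neg S.hτ S.he, neg_sub]
    refine le_trans (le_of_eq ?_) ((n2_avg_le S (hpg.sub hGg) c).trans hdc)
    congr 1
    show B - a = avg μ fun ω => p c ω - (a + R c ω)
    rw [avg_sub, avg_add, avg_const S, hR0, add_zero]
  have hsmall : ∀ T : Rand A e L, Good M T → nr τ μ T c ≤ η / (4 * K) →
      ‖etr τ μ (star Q * (T * Q)) c‖ ≤ η / 4 := by
    intro T hT hn
    refine (bnd T hT).trans ?_
    calc C ^ 2 * n2 τ e * nr τ μ T c ≤ K * (η / (4 * K)) :=
          mul_le_mul (by simp [K]) hn (nr_nonneg _ _) hK.le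
      _ = η / 4 := by field_simp
  have he1 := hsmall _ (hpg.sub hGg) hdc
  have he2 := hsmall D hDg hDn
  set Bc : Rand A e L := fun c' _ => avg μ (p c') with hBcdef
  have hsplit : star Q * (p * Q) =
      star Q * ((p - (cst a + R)) * Q) + (star Q * (D * Q) + (star Q * (R * Q) +
        star Q * (Bc * Q))) := by
    have hDB : (cst a : Rand A e L) = D + Bc := by funext c' ω; simp [hD, hBcdef, cst]
    rw [hDB, ← mul_add, ← mul_add, ← mul_add, ← add_mul, ← add_mul, ← add_mul]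
    congr 2
    abel
  have hB : (etr τ μ (star Q * (Bc * Q)) c).re ≤ κ * nr τ μ Q c ^ 2 := by
    rw [← etr_star_self S hQg]
    simp only [etr, avg_eq, Complex.re_sum, Complex.smul_re, Pi.mul_apply, Pi.star_apply, hBcdef]
    rw [Finset.mul_sum]
    refine Finset.sum_le_sum fun ω _ => ?_
    rw [smul_eq_mul, smul_eq_mul, mul_left_comm]
    refine mul_le_mul_of_nonneg_left ?_ (wt_nonneg S ω)
    have hq := (hQb c ω).1
    have hc1 : Cor M e (star (Q c ω) * (B * Q c ω)) := (hq.star' S.he).mul S.he (hBc.mul S.he hq)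
    rw [← tr_rsmul]
    refine tr_mono S.hτ S.he hc1 (((hq.star' S.he).mul S.he hq).rsmul κ) ?_
    have h2 := conj_le hkc (Q c ω)
    simp only [mul_smul_comm, smul_mul_assoc, mul_assoc, hq.mul_left S.he] at h2
    exact h2
  rw [h1, hsplit, etr_add, etr_add, etr_add]
  simp only [Complex.add_re]
  have r1 := Complex.re_le_norm (etr τ μ (star Q * ((p - (cst a + R)) * Q)) c)
  have r2 := Complex.re_le_norm (etr τ μ (star Q * (D * Q)) c)
  have r3 := Complex.re_le_norm (etr τ μ (star Q * (R * Q)) c)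
  linarith

/-- One block step loses a factor `2 √κ ‖m‖`. -/
theorem step_bound (hCore : CoreStatement) {p : Rand A e L}
    (hp : ∀ c ω, Cor M e (p c ω) ∧ IsStarProjection (p c ω)) (hpF : Near M τ μ (Lin M A e μ) p)
    {κ : ℝ} (hκ0 : 0 ≤ κ) (hκ : ∀ᶠ c in fine A e, avg μ (p c) ≤ κ • e) {m : H →L[ℂ] H}
    (hm : Perp M A e τ m) {v : Rand A e L} (hv : Good M v)
    (hu : Near M τ μ (Dec M A e τ μ) (p * v)) {η : ℝ} (hη : 0 < η) :
    ∀ᶠ c in fine A e, nr τ μ (p * cst m * (p * v)) c ≤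
      2 * Real.sqrt κ * ‖m‖ * nr τ μ v c + η := by
  have hpb : ∀ c ω, Cor M e (p c ω) ∧ ‖p c ω‖ ≤ 1 := fun c ω => ⟨(hp c ω).1, (hp c ω).2.norm_le⟩
  have hpg : Good M p := ⟨1, zero_le_one, hpb⟩
  set s := Real.sqrt κ
  have hs : 0 ≤ s := Real.sqrt_nonneg κ
  have hs2 : s ^ 2 = κ := Real.sq_sqrt hκ0
  obtain ⟨Cv, hCv, hvb⟩ := hv
  have hv : Good M v := ⟨Cv, hCv, hvb⟩
  set V := Cv * n2 τ e
  have hV0 : 0 ≤ V := mul_nonneg hCv (n2_nonneg _)
  set θ := η / (4 * (‖m‖ + 1) * (s + 1))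
  have hθ : 0 < θ := by positivity
  set δ := θ ^ 2 / (4 * (V + 1))
  have hδ : 0 < δ := by positivity
  set η₁ := θ / 4
  obtain ⟨G, ⟨K, Q, hK, hQ, rfl⟩, hGg, hd⟩ := hu η₁ (by positivity)
  have hKg := sums_good S (fun G => kw_good S) hK
  have hQg := sums_good S (fun G => piW_good S) hQ
  have hQ1 : Sums (PiW M A e τ μ) (cst m * K) := hK.map _ fun G hG => Sums.single (piW_kw S hm hG)
  have hug : Good M (p * v) := hpg.mul S.he hv
  have hT := (good_cst hm.1).mul S.he hug (F := (cst m : Rand A e L))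
  filter_upwards [hd, Metric.tendsto_nhds.1 (tendsto_inner_sums S hCore hQ hK) δ hδ,
    field_on_pi S hCore hp hpF hκ hQ (pow_pos hδ 2),
    field_on_pi S hCore hp hpF hκ hQ1 (pow_pos hθ 2)] with c hdc hip hpQ hpQ1
  rw [dist_zero_right] at hip
  have hvV : nr τ μ v c ≤ V := by
    have h := nr_mul_le S hCv hvb (good_cst (cor_e S) : Good M (cst e : Rand A e L)) c
    rwa [mul_cst_e S hv, nr_cst S] at h
  set y := nr τ μ Q c
  set z := nr τ μ K c
  set W := nr τ μ v c
  have hy : 0 ≤ y := nr_nonneg _ _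
  have hW : 0 ≤ W := nr_nonneg _ _
  have hQr : (etr τ μ (star Q * (K + Q)) c).re = (etr τ μ (star Q * K) c).re + y ^ 2 := by
    rw [mul_add, etr_add, Complex.add_re, etr_star_self S hQg]
  have hreK := abs_le.1 ((Complex.abs_re_le_norm (etr τ μ (star Q * K) c)).trans hip.le)
  -- the second part of the vector
  have hpQ' : nr τ μ (p * Q) c ≤ s * y + δ := by
    refine (sq_le_sq₀ (nr_nonneg _ _) (by positivity)).1 (hpQ.trans ?_)
    rw [← hs2]
    nlinarith [mul_nonneg (mul_nonneg hs hy) hδ.le]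
  have hy_le : y ≤ s * W + η₁ + Real.sqrt (δ * (V + 1)) := by
    refine real_lemma (by positivity) (by positivity) hy hs hW ?_
    have h1 : (etr τ μ (star Q * (p * v)) c).re ≤ (s * y + δ) * W := by
      refine ((Complex.re_le_norm _).trans ?_).trans (mul_le_mul_of_nonneg_right hpQ' hW)
      refine le_trans (le_of_eq ?_) (norm_etr_le S (hpg.mul S.he hQg) hv c)
      congr 2
      funext c ω
      simp only [Pi.mul_apply, Pi.star_apply, star_mul, (hp c ω).2.isSelfAdjoint.star_eq, mul_assoc]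
    have h2 := (Complex.re_le_norm _).trans
      (norm_etr_le S hQg ((hKg.add hQg).sub hug) c)
    rw [mul_sub, etr_sub, Complex.sub_re, hQr] at h2
    have h3 : nr τ μ (K + Q - p * v) c ≤ η₁ := by
      refine le_trans (le_of_eq ?_) hdc
      simp only [nr, avg, Pi.sub_apply, Pi.add_apply]
      congr 1
      refine Finset.sum_congr rfl fun ω _ => ?_
      rw [← n2_neg S.hτ S.he, neg_sub]
    have h4 : y * nr τ μ (K + Q - p * v) c ≤ y * η₁ := mul_le_mul_of_nonneg_left h3 hy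
    have h5 : δ * W ≤ δ * V := mul_le_mul_of_nonneg_left hvV hδ.le
    nlinarith
  have hz_le : z ≤ W + η₁ + Real.sqrt (2 * δ) := by
    have hKQ : nr τ μ (K + Q) c ≤ W + η₁ := by
      have := nr_add_le S ((hKg.add hQg).sub hug) hug c
      rw [sub_add_cancel] at this
      have h3 : nr τ μ (K + Q - p * v) c ≤ η₁ := by
        refine le_trans (le_of_eq ?_) hdc
        simp only [nr, avg, Pi.sub_apply, Pi.add_apply]
        congr 1
        refine Finset.sum_congr rfl fun ω _ => ?_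
        rw [← n2_neg S.hτ S.he, neg_sub]
      have := nr_proj_mul_le S hpb hv c
      linarith
    have e1 : nr τ μ (K + Q) c ^ 2 = z ^ 2 + y ^ 2 + 2 * (etr τ μ (star Q * K) c).re := by
      rw [← etr_star_self S (hKg.add hQg), ← etr_star_self S hKg, ← etr_star_self S hQg,
        star_add, add_mul, mul_add, mul_add, etr_add, etr_add, etr_add]
      have hc : (etr τ μ (star K * Q) c).re = (etr τ μ (star Q * K) c).re := by
        obtain ⟨_, _, hk⟩ := hKg
        obtain ⟨_, _, hq⟩ := hQg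
        simp only [etr, avg_eq, Complex.re_sum, Complex.smul_re, Pi.mul_apply, Pi.star_apply]
        exact Finset.sum_congr rfl fun ω _ => by rw [re_comm S.hτ S.he (hq c ω).1 (hk c ω).1]
      simp only [Complex.add_re, hc]
      ring
    refine (sq_le_sq₀ (nr_nonneg _ _) (by positivity)).1 ?_
    have h2 : nr τ μ (K + Q) c ^ 2 ≤ (W + η₁) ^ 2 := pow_le_pow_left₀ (nr_nonneg _ _) hKQ 2
    have hs2δ := Real.sq_sqrt (show (0 : ℝ) ≤ 2 * δ by positivity)
    have : 0 ≤ (W + η₁) * Real.sqrt (2 * δ) := by positivity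
    nlinarith
  -- the three parts
  have hTn : ∀ F : Rand A e L, Good M F → nr τ μ (p * (cst m * F)) c ≤ ‖m‖ * nr τ μ F c :=
    fun F hF => (nr_proj_mul_le S hpb ((good_cst hm.1).mul S.he hF) c).trans
      (nr_mul_le S (norm_nonneg m) (fun _ _ => ⟨hm.1, le_rfl⟩) hF c)
  have hpK : nr τ μ (p * (cst m * K)) c ≤ s * (‖m‖ * z) + θ := by
    refine (sq_le_sq₀ (nr_nonneg _ _) (add_nonneg
      (mul_nonneg hs (mul_nonneg (norm_nonneg m) (nr_nonneg _ _))) hθ.le)).1 (hpQ1.trans ?_)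
    have := pow_le_pow_left₀ (nr_nonneg _ _)
      (nr_mul_le S (norm_nonneg m) (fun _ _ => ⟨hm.1, le_rfl⟩) hKg c (F := cst m)) 2
    have := mul_le_mul_of_nonneg_left this hκ0
    rw [← hs2] at this ⊢
    nlinarith [mul_nonneg (mul_nonneg hs (mul_nonneg (norm_nonneg m) (nr_nonneg (τ := τ) (μ := μ) K c))) hθ.le]
  have hdec : p * cst m * (p * v) =
      p * (cst m * K) + (p * (cst m * Q) + p * (cst m * (p * v - (K + Q)))) := by
    rw [mul_assoc, ← mul_add, ← mul_add, ← mul_add, ← mul_add]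
    congr 2
    abel
  rw [hdec]
  have mK := (good_cst hm.1).mul S.he hKg (F := (cst m : Rand A e L))
  have mQ := (good_cst hm.1).mul S.he hQg (F := (cst m : Rand A e L))
  have mR := (good_cst hm.1).mul S.he (hug.sub (hKg.add hQg)) (F := (cst m : Rand A e L))
  refine (nr_add_le S (hpg.mul S.he mK) ((hpg.mul S.he mQ).add (hpg.mul S.he mR)) c).trans ?_
  refine (add_le_add hpK ((nr_add_le S (hpg.mul S.he mQ) (hpg.mul S.he mR) c).trans
    (add_le_add (hTn Q hQg) ((hTn _ (hug.sub (hKg.add hQg))).trans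
      (mul_le_mul_of_nonneg_left hdc (norm_nonneg m)))))).trans ?_
  exact step_arith hs (norm_nonneg m) hW hV0 hθ rfl hη (by simp only [θ]; field_simp) hz_le hy_le

/-- The blocks of a random field colour have small moments. -/
theorem power_bound (hCore : CoreStatement) {p : Rand A e L}
    (hp : ∀ c ω, Cor M e (p c ω) ∧ IsStarProjection (p c ω)) (hpF : Near M τ μ (Lin M A e μ) p)
    {κ : ℝ} (hκ0 : 0 ≤ κ) (hκ : ∀ᶠ c in fine A e, avg μ (p c) ≤ κ • e) {m : H →L[ℂ] H}
    (hm : Perp M A e τ m) : ∀ k : ℕ,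
    ∃ v : Rand A e L, Good M v ∧ (∀ c ω, v c ω = (p c ω * m * p c ω) ^ k * p c ω) ∧
      Near M τ μ (Dec M A e τ μ) v ∧ ∀ η : ℝ, 0 < η → ∀ᶠ c in fine A e,
        nr τ μ v c ≤ (2 * Real.sqrt κ * ‖m‖) ^ k * nr τ μ p c + η := by
  have hpg : Good M p := ⟨1, zero_le_one, fun c ω => ⟨(hp c ω).1, (hp c ω).2.norm_le⟩⟩
  have pDec : ∀ {v : Rand A e L}, Good M v → Near M τ μ (Dec M A e τ μ) v →
      Near M τ μ (Dec M A e τ μ) (p * v) := fun {v} hv h =>
    h.mul_left S hpg hv fun G hG hGg =>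
      hpF.mul_right S hGg hpg fun R hR _ => near_dec_lin S hR hG
  intro k
  induction k with
  | zero =>
    refine ⟨p, hpg, fun c ω => by simp, ?_, fun η hη => Eventually.of_forall fun c => by
      rw [pow_zero, one_mul]; linarith⟩
    have h := pDec (good_cst (cor_e S)) (Near.self
      (Dec.of_k (Sums.single (Or.inl ⟨e, e_mem_span S, rfl⟩))) (good_cst (cor_e S)))
    rwa [mul_cst_e S hpg] at h
  | succ k ih =>
    obtain ⟨v, hv, hveq, hvd, hvb⟩ := ih
    have hu := pDec hv hvd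
    have hmu : Good M (cst m * (p * v) : Rand A e L) := (good_cst hm.1).mul S.he (hpg.mul S.he hv)
    refine ⟨p * cst m * (p * v), (hpg.mul S.he (good_cst hm.1)).mul S.he (hpg.mul S.he hv),
      fun c ω => ?_, ?_, fun η hη => ?_⟩
    · simp only [Pi.mul_apply, cst, hveq, pow_succ', mul_assoc]
    · rw [mul_assoc]
      exact pDec hmu (hu.mul_left S (good_cst hm.1) (hpg.mul S.he hv)
        fun G hG _ => near_dec_cmul S hm.1 hG)
    · set ρ := 2 * Real.sqrt κ * ‖m‖
      have hρ : 0 ≤ ρ := by positivity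
      filter_upwards [step_bound S hCore hp hpF hκ0 hκ hm hv hu (half_pos hη),
        hvb (η / (2 * (ρ + 1))) (by positivity)] with c h1 h2
      refine h1.trans ?_
      have h3 := mul_le_mul_of_nonneg_left h2 hρ
      have h4 : ρ * (η / (2 * (ρ + 1))) ≤ η / 2 := by
        calc ρ * (η / (2 * (ρ + 1))) ≤ (ρ + 1) * (η / (2 * (ρ + 1))) := by gcongr; linarith
          _ = η / 2 := by field_simp
      rw [pow_succ]
      nlinarith

end

/-- Random fields with small mean pave operators orthogonal to the normaliser. -/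
theorem general_noise_of (hCore : CoreStatement) : GeneralNoiseStatement := by
  intro H _ _ _ M A e τ hA heA he hτ L _ μ hμ0 hμ1 r κ P hκ0 hP hF hmean m hm hms u δ hu hδ
  have S : Setting M A e τ μ := ⟨hA, heA, he, hτ, hμ0, hμ1⟩
  set ρ := 2 * Real.sqrt κ * ‖m‖
  have hρ : 0 ≤ ρ := by positivity
  have hu0 : 0 < u := lt_of_le_of_lt hρ hu
  have hτe : 0 ≤ (τ e).re := tr_nonneg hτ he (cor_proj (hA.1 e heA) he) he.nonneg
  have hq : ρ / u < 1 := (div_lt_one hu0).2 hu
  obtain ⟨k, hk⟩ := exists_pow_lt_of_lt_one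
    (show 0 < δ / (2 * (2 * u ^ 2 * ((τ e).re + 1))) by positivity) (y := (ρ / u) ^ 2)
    (by nlinarith [div_nonneg hρ hu0.le])
  set j := k + 1 with hj
  have hkj : ((ρ / u) ^ 2) ^ j ≤ ((ρ / u) ^ 2) ^ k :=
    pow_le_pow_of_le_one (sq_nonneg _) (by nlinarith [div_nonneg hρ hu0.le]) (by omega)
  set p : Fin r → Rand A e L := fun s c ω => P c ω s
  have hp : ∀ s c ω, Cor M e (p s c ω) ∧ IsStarProjection (p s c ω) := fun s c ω =>
    ⟨Cor.of_abs he (hA.1 _ ((hP c ω).1 s).1) ((hP c ω).mul_e s).1 ((hP c ω).mul_e s).2,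
      ((hP c ω).1 s).2⟩
  have hpg : ∀ s, Good M (p s) := fun s =>
    ⟨1, zero_le_one, fun c ω => ⟨(hp s c ω).1, (hp s c ω).2.norm_le⟩⟩
  set c₂ := 2 * u ^ 2 / u ^ (2 * j)
  have hc₂ : 0 ≤ c₂ := by positivity
  set E := ρ ^ j
  set N := n2 τ e
  set η := min 1 (δ / (2 * ((c₂ + 1) * (r + 1) * (2 * E * N + 1))))
  have hE : 0 ≤ E := by positivity
  have hN : 0 ≤ N := n2_nonneg _
  have hη : 0 < η := lt_min one_pos (by positivity)
  have hall : ∀ s, ∀ᶠ c in fine A e,
      (avg μ fun ω => n2 τ ((p s c ω * m * p s c ω) ^ j) ^ 2) ≤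
        (E * nr τ μ (p s) c + η) ^ 2 := by
    intro s
    obtain ⟨v, hv, hveq, -, hvb⟩ := power_bound S hCore (hp s) (field_near_lin S (hpg s) (hF s))
      hκ0 (hmean.mono fun c hc => hc s) hm j
    filter_upwards [hvb η hη] with c hc
    have e1 : ∀ ω, v c ω = (p s c ω * m * p s c ω) ^ j := fun ω => by
      rw [hveq, hj, pow_succ, mul_assoc, mul_assoc (p s c ω * m),
        (hp s c ω).2.isIdempotentElem.eq]
    simp only [← e1, ← nr_sq S]
    exact pow_le_pow_left₀ (nr_nonneg _ _) hc 2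
  filter_upwards [eventually_all.2 hall] with c hc
  refine (avg_mono S fun ω => excess_moment hA he hτ (hP c ω) hm.1 hms hu0 (k := j) (by omega)).trans
    ?_
  have e2 : (avg μ fun ω => c₂ * ∑ s, n2 τ ((P c ω s * m * P c ω s) ^ j) ^ 2) =
      c₂ * ∑ s, avg μ fun ω => n2 τ ((p s c ω * m * p s c ω) ^ j) ^ 2 := by
    simp only [avg_eq, smul_eq_mul, Finset.mul_sum]
    rw [Finset.sum_comm]
    exact Finset.sum_congr rfl fun s _ => Finset.sum_congr rfl fun ω _ => by simp only [p]; ring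
  rw [e2]
  have hnrp : ∀ s, nr τ μ (p s) c ≤ N := fun s => by
    have h := nr_mul_le S zero_le_one (fun c ω => ⟨(hp s c ω).1, (hp s c ω).2.norm_le⟩)
      (good_cst (cor_e S) : Good M (cst e : Rand A e L)) c
    rwa [mul_cst_e S (hpg s), nr_cst S, one_mul] at h
  have hsum : ∑ s, nr τ μ (p s) c ^ 2 = (τ e).re := by
    simp only [nr_sq S, avg_eq, smul_eq_mul]
    rw [Finset.sum_comm]
    have h1 : ∀ ω : Fin c.n → L, ∑ s, wt μ ω * n2 τ (p s c ω) ^ 2 = wt μ ω * (τ e).re := by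
      intro ω
      rw [← Finset.mul_sum]
      congr 1
      rw [← (hP c ω).2.2, map_sum, Complex.re_sum]
      exact Finset.sum_congr rfl fun s _ => by
        rw [n2_sq hτ he (hp s c ω).1, (hp s c ω).2.isSelfAdjoint.star_eq,
          (hp s c ω).2.isIdempotentElem.eq]
    rw [Finset.sum_congr rfl fun ω _ => h1 ω, ← Finset.sum_mul, sum_wt S, one_mul]
  have hb : ∑ s, (avg μ fun ω => n2 τ ((p s c ω * m * p s c ω) ^ j) ^ 2) ≤
      E ^ 2 * (τ e).re + r * ((2 * E * N + 1) * η) := by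
    refine (Finset.sum_le_sum fun s _ => (hc s).trans (?_ :
      _ ≤ E ^ 2 * nr τ μ (p s) c ^ 2 + (2 * E * N + 1) * η)).trans (le_of_eq ?_)
    · have h5 : 2 * E * nr τ μ (p s) c ≤ 2 * E * N :=
        mul_le_mul_of_nonneg_left (hnrp s) (by positivity)
      have h6 : η ≤ 1 := min_le_left _ _
      nlinarith [mul_le_mul_of_nonneg_right h5 hη.le, mul_le_mul_of_nonneg_left h6 hη.le]
    · rw [Finset.sum_add_distrib, ← Finset.mul_sum, hsum, Finset.sum_const, Finset.card_univ,
        Fintype.card_fin, nsmul_eq_mul]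
  refine (mul_le_mul_of_nonneg_left hb hc₂).trans ?_
  have hmain : c₂ * (E ^ 2 * (τ e).re) ≤ δ / 2 := by
    have e3 : c₂ * E ^ 2 = 2 * u ^ 2 * ((ρ / u) ^ 2) ^ j := by
      simp only [c₂, E, div_pow, ← pow_mul]
      field_simp
      ring_nf
    calc c₂ * (E ^ 2 * (τ e).re) = 2 * u ^ 2 * ((ρ / u) ^ 2) ^ j * (τ e).re := by
          rw [← mul_assoc, e3]
      _ ≤ 2 * u ^ 2 * (δ / (2 * (2 * u ^ 2 * ((τ e).re + 1)))) * ((τ e).re + 1) :=
          mul_le_mul (mul_le_mul_of_nonneg_left (hkj.trans hk.le) (by positivity)) (by linarith)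
            hτe (by positivity)
      _ = δ / 2 := by field_simp
  have hsmall : c₂ * (r * ((2 * E * N + 1) * η)) ≤ δ / 2 := by
    have h7 : η ≤ δ / (2 * ((c₂ + 1) * (r + 1) * (2 * E * N + 1))) := min_le_right _ _
    calc c₂ * (r * ((2 * E * N + 1) * η)) ≤
          (c₂ + 1) * ((r + 1) * ((2 * E * N + 1) * η)) := by gcongr <;> linarith
      _ ≤ (c₂ + 1) * ((r + 1) * ((2 * E * N + 1) *
            (δ / (2 * ((c₂ + 1) * (r + 1) * (2 * E * N + 1)))))) := by gcongr
      _ = δ / 2 := by field_simp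
  rw [mul_add]
  linarith

/-- The random field bound, with the statements it rests on filled in. -/
theorem general_noise_ok : GeneralNoiseStatement :=
  general_noise_of (core_ok (atom_ok complete_ok diag_limit_ok))

end Vale.Agent.P078.Orth
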