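import Vale.Agent.P078.Orth.AssemblySq
import Vale.Agent.P078.Singular.Main
import Vale.Agent.P078.MKS.TypeI.Paving

/-!
So-paving with `O(ε⁻²)` pieces for a MASA whose separated part is filled up by traces.
-/

namespace Vale.Agent.P078.Orth

open MKS Singular

/-- So-paving with `C ε⁻²` pieces of every self-adjoint operator, whenever, above every projection
`p₀` of the MASA beyond which normal central functionals separate, traces on corners of the MASA
fill up `1 - p₀`. -/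
def MasaPavingSqStatement : Prop :=
  ∃ C : ℕ, ∀ (H : Type) [NormedAddCommGroup H] [InnerProductSpace ℂ H] [CompleteSpace H]
    (M A : VonNeumannAlgebra H), IsMASA M A →
    (∀ p₀ ∈ A, IsStarProjection p₀ →
      (∀ e ∈ A, IsStarProjection e → e * p₀ = 0 → e ≠ 0 →
        ∃ f, IsNormalCentral M A f ∧ f e ≠ 0) →
      ∀ (F : Finset H) (δ : ℝ), 0 < δ → ∃ (e : H →L[ℂ] H) (τ : (H →L[ℂ] H) →ₗ[ℂ] ℂ),
        e ∈ A ∧ IsStarProjection e ∧ e * (1 - p₀) = e ∧ IsTrace M e τ ∧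
          ∀ ξ ∈ F, ‖((1 - p₀) - e) ξ‖ < δ) →
    ∀ x ∈ M, IsSelfAdjoint x → ∀ (ε : ℝ) (r : ℕ), 0 < ε → ε < 1 → (C : ℝ) ≤ ε ^ 2 * r →
      SoPavable M A 1 x ε r

/-- The separated part by traces, the rest without central functionals. -/
theorem masa_paving_sq_of (h : AllPavingSqStatement) : MasaPavingSqStatement := by
  obtain ⟨C, hC⟩ := h
  refine ⟨C + 2, fun H _ _ _ M A hA hfill x hxM hx ε r hε hε1 hr => ?_⟩
  obtain ⟨-, ⟨p₀, hp₀, hp₀P, -, hsep, hglue⟩, -⟩ := Singular.main H M A hA.1 hA.2.1 hA.2.2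
  set r₀ := ⌊1 / ε⌋₊ + 1 with hr₀def
  have hεr₀ : 1 < ε * r₀ := by
    have := Nat.lt_floor_add_one (1 / ε)
    rw [div_lt_iff₀ hε] at this
    rw [hr₀def]; push_cast
    linarith
  have hr₀le : ε ^ 2 * r₀ ≤ 2 := by
    have := Nat.floor_le (one_div_pos.2 hε).le
    rw [le_div_iff₀ hε] at this
    rw [hr₀def]; push_cast
    nlinarith
  push_cast at hr
  have hr₀r : r₀ ≤ r := by
    by_contra h
    have h' : (r : ℝ) < r₀ := by exact_mod_cast not_le.1 h
    nlinarith [(Nat.cast_nonneg C : (0 : ℝ) ≤ C)]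
  have hs : (C : ℝ) ≤ ε ^ 2 * ((r - r₀ : ℕ) : ℝ) := by
    rw [Nat.cast_sub hr₀r]; linarith
  have hq : (1 - p₀) ∈ A := sub_mem (one_mem _) hp₀
  have hsa : IsSelfAdjoint ((1 - p₀) * x * (1 - p₀)) := by
    have := hx.conjugate (1 - p₀)
    rwa [hp₀P.one_sub.isSelfAdjoint.star_eq] at this
  have := hglue x hxM hx ε r₀ (r - r₀) hεr₀ (hC H M A hA (1 - p₀) hq hp₀P.one_sub
    (hfill p₀ hp₀ hp₀P hsep) _ (mul_mem (mul_mem (hA.1 _ hq) hxM) (hA.1 _ hq)) hsa ε (r - r₀)
    hε hε1 hs)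
  rwa [Nat.add_sub_cancel' hr₀r] at this

/-- The general MASA theorem from the two random statements. -/
theorem masa_paving_sq (hR : RandomTwoSidedStatement) (hN : GeneralNoiseStatement) :
    MasaPavingSqStatement :=
  masa_paving_sq_of (all_paving_sq hR hN)

end Vale.Agent.P078.Orth
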