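import Vale.Agent.P078.Orth.CoreWord

/-!
The inequalities behind the decoupling: the trace against a 2-norm, orthogonal blocks and one
average over signs.
-/

namespace Vale.Agent.P078.Orth

open Finset MKS Singular

variable {H : Type} [NormedAddCommGroup H] [InnerProductSpace ℂ H] [CompleteSpace H]
variable {M A : VonNeumannAlgebra H} {e : H →L[ℂ] H} {τ : (H →L[ℂ] H) →ₗ[ℂ] ℂ}

theorem n2_smul_unit (u : ℂ) (hu : ‖u‖ = 1) (y : H →L[ℂ] H) : n2 τ (u • y) = n2 τ y := by
  have : star u * u = 1 := by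
    rw [← starRingEnd_apply, ← Complex.normSq_eq_conj_mul_self, Complex.normSq_eq_norm_sq, hu]
    simp
  rw [n2, n2, star_smul, smul_mul_smul_comm, this, one_smul]

theorem norm_tr_le (hτ : IsTrace M e τ) (he : IsStarProjection e) {x y : H →L[ℂ] H}
    (hx : Cor M e x) (hy : Cor M e y) : ‖τ (x * y)‖ ≤ n2 τ x * n2 τ y := by
  rcases eq_or_ne (τ (x * y)) 0 with h0 | h0
  · rw [h0, norm_zero]; exact mul_nonneg (n2_nonneg _) (n2_nonneg _)
  set u : ℂ := star (τ (x * y)) / (‖τ (x * y)‖ : ℂ) with hu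
  have hn : ‖u‖ = 1 := by
    rw [hu, norm_div, norm_star, Complex.norm_real, norm_norm, div_self (norm_ne_zero_iff.2 h0)]
  have h := re_inner_le hτ he (hx.star' he) (hy.csmul u)
  rw [star_star, n2_star hτ he hx, n2_smul_unit u hn, mul_smul_comm, map_smul, smul_eq_mul] at h
  refine le_trans (le_of_eq ?_) h
  rw [hu, div_mul_eq_mul_div, ← starRingEnd_apply, ← Complex.normSq_eq_conj_mul_self,
    Complex.normSq_eq_norm_sq, Complex.div_ofReal_re, Complex.ofReal_re, sq, mul_div_assoc,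
    div_self (norm_ne_zero_iff.2 h0), mul_one]

variable (hτ : IsTrace M e τ) (he : IsStarProjection e)
include hτ he

/-- The average over signs of the square of the 2-norm of a signed sum. -/
theorem sum_sgn_n2 {n : ℕ} (s : Finset (Fin n)) {y : Fin n → (H →L[ℂ] H)}
    (hy : ∀ l, Cor M e (y l)) :
    ∑ f : Fin n → Bool, n2 τ (∑ l ∈ s, sgn (f l) • y l) ^ 2 =
      2 ^ n * ∑ l ∈ s, n2 τ (y l) ^ 2 := by
  have hcor : ∀ f : Fin n → Bool, Cor M e (∑ l ∈ s, sgn (f l) • y l) := fun f =>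
    Cor.sum _ fun l _ => (hy l).csmul _
  simp only [n2_sq hτ he (hcor _), n2_sq hτ he (hy _), ← Complex.re_sum]
  rw [show ((2 : ℝ) ^ n * (∑ l ∈ s, τ (star (y l) * y l)).re) =
    ((2 : ℂ) ^ n * ∑ l ∈ s, τ (star (y l) * y l)).re by
      rw [show ((2 : ℂ) ^ n) = (((2 : ℝ) ^ n : ℝ) : ℂ) by push_cast; ring, Complex.re_ofReal_mul]]
  congr 1
  simp only [star_sum, star_smul, star_sgn, Finset.sum_mul, Finset.mul_sum, smul_mul_smul_comm,
    map_sum, map_smul, smul_eq_mul]
  rw [Finset.sum_comm]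
  refine Finset.sum_congr rfl fun i hi => ?_
  rw [Finset.sum_comm, Finset.sum_eq_single i]
  · rw [← Finset.sum_mul, sum_sgn_pair, if_pos rfl]
  · intro j _ hji
    rw [← Finset.sum_mul, sum_sgn_pair, if_neg (by tauto), zero_mul]
  · exact fun h => absurd hi h

variable (hA : IsMASA M A)
include hA

/-- Orthogonal blocks: the adjacent case. -/
theorem sum_blocks_eq (c : Cut A e) {m : H →L[ℂ] H} (hm : Cor M e m) :
    ∑ j, n2 τ (c.q j * m * c.q j) ^ 2 = diag2 τ m c := by
  have hc := fun j => cut_cor hA he c j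
  have hp : Cor M e (MKS.pinch c.q m) := cor_pinch hτ he hA.1 c.part hm.1
  rw [diag2, n2_sq hτ he hp]
  simp only [n2_sq hτ he (((hc _).mul he hm).mul he (hc _))]
  rw [← Complex.re_sum, ← map_sum]
  congr 2
  simp only [MKS.pinch, star_sum, Finset.sum_mul, Finset.mul_sum]
  refine Finset.sum_congr rfl fun i _ => (Finset.sum_eq_single (f := fun j => star (c.q j * m * c.q j) * (c.q i * m * c.q i)) i ?_
    (fun h => absurd (Finset.mem_univ i) h)).symm
  intro j _ hji
  calc star (c.q j * m * c.q j) * (c.q i * m * c.q i)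
      = c.q j * star m * (c.q j * c.q i) * m * c.q i := by
        simp only [star_mul, cut_star, mul_assoc]
    _ = 0 := by rw [cut_mul, if_neg hji]; simp

/-- One average over signs: the separated case. -/
theorem sum_blocks_le (c : Cut A e) {m : H →L[ℂ] H} (hm : Cor M e m)
    {Z : Fin c.n → (H →L[ℂ] H)} (hZ : ∀ j, Cor M e (Z j)) {K : ℝ} (hK : 0 ≤ K)
    {z : Fin c.n → ℝ} (hz : ∀ j, ‖Z j‖ ≤ K ∧ n2 τ (Z j) ≤ K * z j) :
    ∑ j, ∑ l, n2 τ (c.q j * m * c.q l * Z j) ^ 2 ≤
      K ^ 2 * (Real.sqrt (block4 τ m c) * Real.sqrt (∑ j, z j ^ 2)) := by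
  have hc := fun j => cut_cor hA he c j
  have hW : ∀ j, Cor M e (star m * c.q j * m) := fun j =>
    ((hm.star' he).mul he (hc j)).mul he hm
  have hP : ∀ j, Cor M e (MKS.pinch c.q (star m * c.q j * m)) := fun j =>
    cor_pinch hτ he hA.1 c.part (hW j).1
  have key : ∀ j, ∑ l, n2 τ (c.q j * m * c.q l * Z j) ^ 2 ≤
      n2 τ (MKS.pinch c.q (star m * c.q j * m)) * (K ^ 2 * z j) := by
    intro j
    have e1 : ∑ l, n2 τ (c.q j * m * c.q l * Z j) ^ 2 =
        (τ (star (Z j) * (MKS.pinch c.q (star m * c.q j * m) * Z j))).re := by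
      simp only [n2_sq hτ he ((((hc j).mul he hm).mul he (hc _)).mul he (hZ j))]
      rw [← Complex.re_sum, ← map_sum]
      congr 2
      simp only [MKS.pinch, Finset.sum_mul, Finset.mul_sum]
      refine Finset.sum_congr rfl fun l _ => ?_
      calc star (c.q j * m * c.q l * Z j) * (c.q j * m * c.q l * Z j)
          = star (Z j) * c.q l * star m * (c.q j * c.q j) * m * c.q l * Z j := by
            simp only [star_mul, cut_star, mul_assoc]
        _ = _ := by rw [cut_mul, if_pos rfl]; simp only [mul_assoc]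
    have hPZ := (hP j).mul he (hZ j)
    have hZs := (hZ j).star' he
    rw [e1, hτ.2.2.1 _ hZs.1 _ hPZ.1 hZs.2 hPZ.2, mul_assoc]
    refine (Complex.re_le_norm _).trans ((norm_tr_le hτ he (hP j) ((hZ j).mul he hZs)).trans
      (mul_le_mul_of_nonneg_left ?_ (n2_nonneg _)))
    refine (n2_mul_le hτ he ((hZ j).mul he hZs) hZs).trans ?_
    rw [n2_star hτ he (hZ j), sq, mul_assoc]
    exact mul_le_mul (hz j).1 (hz j).2 (n2_nonneg _) hK
  refine (Finset.sum_le_sum fun j _ => key j).trans ?_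
  rw [Finset.sum_congr rfl fun j _ => show _ * (K ^ 2 * z j) =
    K ^ 2 * (n2 τ (MKS.pinch c.q (star m * c.q j * m)) * z j) by ring, ← Finset.mul_sum]
  exact mul_le_mul_of_nonneg_left (Real.sum_mul_le_sqrt_mul_sqrt _ _ _) (sq_nonneg K)

/-- The cells of a translate carry at most the trace of the corner. -/
theorem sum_cell_sq (heA : e ∈ A) {h : H →L[ℂ] H} (hn : h ∈ normaliser M A)
    (hc : e * h * e = h) (c : Cut A e) : ∑ j, n2 τ (cell h c j) ^ 2 ≤ (τ e).re := by
  have hh : Cor M e h := ⟨hn.1, hc⟩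
  have hcell : ∀ j, Cor M e (cell h c j) := fun j =>
    (hh.mul he (cut_cor hA he c j)).mul he (hh.star' he)
  have h1 : ∀ j, n2 τ (cell h c j) ^ 2 = (τ (cell h c j)).re := fun j => by
    rw [n2_sq hτ he (hcell j), (cell_proj hA hn c j).2.isSelfAdjoint.star_eq,
      (cell_proj hA hn c j).2.isIdempotentElem.eq]
  simp only [h1]
  rw [← Complex.re_sum, ← map_sum, sum_cell (hh.mul_right he)]
  have hhh := hh.mul he (hh.star' he)
  have hp : IsStarProjection (h * star h) := ⟨by
      show h * star h * (h * star h) = h * star h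
      rw [← mul_assoc, hn.2.1], IsSelfAdjoint.mul_star_self h⟩
  refine tr_mono hτ he hhh (cor_proj (hA.1 e heA) he) (sub_nonneg.1 ?_)
  refine IsStarProjection.nonneg (p := e - h * star h) ⟨?_, he.isSelfAdjoint.sub hp.isSelfAdjoint⟩
  show (e - h * star h) * (e - h * star h) = e - h * star h
  rw [sub_mul, mul_sub, mul_sub, he.isIdempotentElem.eq, hhh.mul_left he, hhh.mul_right he,
    hp.isIdempotentElem.eq]
  abel

end Vale.Agent.P078.Orth
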