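import Mathlib

/-!
Averages over random signs and over random colourings, used to separate the blocks of a word.
-/

namespace Vale.Agent.P078.Orth

open Finset

/-- The sign of a bit. -/
def sgn (x : Bool) : ℂ := if x then 1 else -1

lemma norm_sgn (x : Bool) : ‖sgn x‖ = 1 := by cases x <;> simp [sgn]

lemma sgn_mul_self (x : Bool) : sgn x * sgn x = 1 := by cases x <;> simp [sgn]

lemma star_sgn (x : Bool) : star (sgn x) = sgn x := by cases x <;> simp [sgn]

/-- Two random signs are independent unless they sit at the same place. -/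
lemma sum_sgn_pair {n : ℕ} (a b : Fin n) :
    ∑ f : Fin n → Bool, sgn (f a) * sgn (f b) = if a = b then (2 : ℂ) ^ n else 0 := by
  classical
  have e : ∀ f : Fin n → Bool, sgn (f a) * sgn (f b) =
      ∏ l, (if l = a then sgn (f l) else 1) * (if l = b then sgn (f l) else 1) := fun f => by
    rw [Finset.prod_mul_distrib]; simp
  simp only [e, ← Fintype.prod_sum (fun l v => (if l = a then sgn v else 1) * if l = b then sgn v else 1)]
  split_ifs with h
  · subst h
    rw [Finset.prod_congr rfl fun l _ => (?_ : (∑ v : Bool, (if l = a then sgn v else 1) *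
      if l = a then sgn v else 1) = 2)]
    · simp
    · by_cases hl : l = a <;> simp [hl, sgn_mul_self, one_add_one_eq_two]
  · exact Finset.prod_eq_zero (Finset.mem_univ a) (by simp [h, sgn])

/-- Averaging one coordinate. -/
lemma sum_update {Q α R : Type*} [Fintype Q] [DecidableEq Q] [Fintype α] [AddCommMonoid R]
    (q : Q) (g : (Q → α) → R) :
    ∑ σ : Q → α, ∑ f : α, g (Function.update σ q f) = Fintype.card α • ∑ σ : Q → α, g σ := by
  have key : ∀ F : (Q → α) → R, ∑ σ : Q → α, F σ =
      ∑ x : α × ({j // j ≠ q} → α), F ((Equiv.piSplitAt q fun _ => α).symm x) := fun F =>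
    ((Equiv.piSplitAt q fun _ => α).symm.sum_comp F).symm
  rw [key (fun σ => ∑ f : α, g (Function.update σ q f)), key g, Fintype.sum_prod_type,
    Fintype.sum_prod_type, Finset.sum_comm (γ := α) (α := {j // j ≠ q} → α)]
  have e : ∀ (x : α) (y : {j // j ≠ q} → α) (f : α),
      Function.update ((Equiv.piSplitAt q fun _ => α).symm (x, y)) q f =
        (Equiv.piSplitAt q fun _ => α).symm (f, y) := fun x y f => by
    funext j
    by_cases hj : j = q
    · subst hj; simp
    · simp [hj]
  simp only [e]
  rw [Finset.sum_comm (γ := {j // j ≠ q} → α) (α := α)]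
  rw [Finset.sum_const, Finset.card_univ, Finset.sum_comm]

/-- A sum over injective choices is bounded by the sums over products of sets. -/
lemma norm_sum_injective_le {n d : ℕ} (F : (Fin d → Fin n) → ℂ) {K : ℝ} (hK : 0 ≤ K)
    (h : ∀ J : Fin d → Finset (Fin n), ‖∑ i ∈ Fintype.piFinset J, F i‖ ≤ K) :
    ‖∑ i ∈ (Finset.univ : Finset (Fin d → Fin n)).filter Function.Injective, F i‖ ≤
      (d : ℝ) ^ d * K := by
  classical
  set I := (Finset.univ : Finset (Fin d → Fin n)).filter Function.Injective with hI
  rcases I.eq_empty_or_nonempty with he | ⟨i₀, hi₀⟩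
  · rw [he, Finset.sum_empty, norm_zero]
    exact mul_nonneg (pow_nonneg (Nat.cast_nonneg _) _) hK
  rcases Nat.eq_zero_or_pos d with hd0 | hd
  · subst hd0
    have e : I = Fintype.piFinset fun _ : Fin 0 => (∅ : Finset (Fin n)) := by
      ext i; simp [hI, Function.Injective]
    rw [e, pow_zero, one_mul]
    exact h _
  have hdn : d ≤ n := by
    simpa using Fintype.card_le_of_injective i₀ (Finset.mem_filter.1 hi₀).2
  set J : (Fin n → Fin d) → Fin d → Finset (Fin n) :=
    fun χ b => Finset.univ.filter fun j => χ j = b with hJ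
  have hcnt : ∀ i : Fin d → Fin n,
      (∑ χ : Fin n → Fin d, if i ∈ Fintype.piFinset (J χ) then F i else 0) =
        if Function.Injective i then ((d : ℂ) ^ (n - d)) * F i else 0 := by
    intro i
    by_cases hi : Function.Injective i
    · rw [if_pos hi, ← Finset.sum_filter, Finset.sum_const, nsmul_eq_mul]
      congr 1
      have e : (Finset.univ.filter fun χ : Fin n → Fin d => i ∈ Fintype.piFinset (J χ)) =
          Fintype.piFinset fun j => if j ∈ univ.image i then univ.filter (fun b => i b = j)
            else univ := by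
        ext χ
        simp only [hJ, Finset.mem_filter, Finset.mem_univ, true_and, Fintype.mem_piFinset]
        constructor
        · intro hχ j
          split_ifs with hj
          · obtain ⟨b, -, rfl⟩ := Finset.mem_image.1 hj
            simp [hχ b]
          · simp
        · intro hχ b
          have := hχ (i b)
          rw [if_pos (Finset.mem_image_of_mem i (Finset.mem_univ b))] at this
          exact hi (Finset.mem_filter.1 this).2
      rw [e, Fintype.card_piFinset]
      have hc : ∀ j : Fin n, (if j ∈ univ.image i then univ.filter (fun b => i b = j)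
          else (univ : Finset (Fin d))).card = if j ∈ univ.image i then 1 else d := fun j => by
        split_ifs with hj
        · obtain ⟨b, -, rfl⟩ := Finset.mem_image.1 hj
          rw [Finset.card_eq_one]
          exact ⟨b, by ext b'; simp [hi.eq_iff]⟩
        · simp
      simp only [hc]
      rw [Finset.prod_ite, Finset.prod_const_one, one_mul, Finset.prod_const, Nat.cast_pow]
      congr 1
      rw [show (univ.filter fun j : Fin n => ¬j ∈ univ.image i) = (univ.image i)ᶜ by ext; simp,
        Finset.card_compl, Finset.card_image_of_injective _ hi]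
      simp
    · rw [if_neg hi]
      refine Finset.sum_eq_zero fun χ _ => if_neg fun hχ => hi fun a b hab => ?_
      simp only [hJ, Fintype.mem_piFinset, Finset.mem_filter, Finset.mem_univ, true_and] at hχ
      rw [← hχ a, hab, hχ b]
  have key : ((d : ℂ) ^ (n - d)) * ∑ i ∈ I, F i =
      ∑ χ : Fin n → Fin d, ∑ i ∈ Fintype.piFinset (J χ), F i := by
    rw [Finset.mul_sum, hI, Finset.sum_filter, ← Finset.sum_congr rfl fun i _ => hcnt i,
      Finset.sum_comm]
    refine Finset.sum_congr rfl fun χ _ => ?_
    rw [← Finset.sum_filter]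
    congr 1
    ext i; simp
  have h1 : ‖∑ χ : Fin n → Fin d, ∑ i ∈ Fintype.piFinset (J χ), F i‖ ≤ (d : ℝ) ^ n * K := by
    refine (norm_sum_le _ _).trans ((Finset.sum_le_sum fun χ _ => h (J χ)).trans (le_of_eq ?_))
    simp
  rw [← key, norm_mul, norm_pow, Complex.norm_natCast] at h1
  rw [show (d : ℝ) ^ n = (d : ℝ) ^ (n - d) * (d : ℝ) ^ d by
    rw [← pow_add, Nat.sub_add_cancel hdn], mul_assoc] at h1
  refine le_of_mul_le_mul_left h1 ?_
  positivity

end Vale.Agent.P078.Orth
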