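import Vale.Agent.P078.Orth.Basic
import Vale.Agent.P078.Orth.CoreSigns

/-!
Cyclic words of operators and cells: segments, linearity in every cell and the average over signs
which separates the blocks.
-/

namespace Vale.Agent.P078.Orth

open Finset MKS Singular

variable {H : Type} [NormedAddCommGroup H] [InnerProductSpace ℂ H] [CompleteSpace H]
variable {k d : ℕ}

/-- The cells of the `t`th letter. -/
noncomputable def letter (B : Fin k → Finset (Fin d)) (L : Fin k → Fin d → (H →L[ℂ] H)) (t : Fin k) :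
    H →L[ℂ] H :=
  (((List.finRange d).filter fun b => b ∈ B t).map (L t)).prod

/-- The `t`th operator with its cells, `1` from `k` on. -/
noncomputable def factor (m : Fin k → (H →L[ℂ] H)) (B : Fin k → Finset (Fin d))
    (L : Fin k → Fin d → (H →L[ℂ] H)) (i : ℕ) : H →L[ℂ] H :=
  if h : i < k then m ⟨i, h⟩ * letter B L ⟨i, h⟩ else 1

/-- The product of the factors with index in `[a, b)`. -/
noncomputable def seg (m : Fin k → (H →L[ℂ] H)) (B : Fin k → Finset (Fin d))
    (L : Fin k → Fin d → (H →L[ℂ] H)) (a b : ℕ) : H →L[ℂ] H :=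
  ((List.range' a (b - a)).map (factor m B L)).prod

variable {m : Fin k → (H →L[ℂ] H)} {B : Fin k → Finset (Fin d)}
  {L L' : Fin k → Fin d → (H →L[ℂ] H)}

omit [CompleteSpace H] in
lemma seg_self (a : ℕ) : seg m B L a a = 1 := by simp [seg]

omit [CompleteSpace H] in
lemma seg_split {a b c : ℕ} (hab : a ≤ b) (hbc : b ≤ c) :
    seg m B L a c = seg m B L a b * seg m B L b c := by
  simp only [seg, ← List.prod_append, ← List.map_append]
  congr 2
  have h := @List.range'_append_1 a (b - a) (c - b)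
  rw [Nat.add_sub_cancel' hab] at h
  rw [h]
  congr 1
  omega

omit [CompleteSpace H] in
lemma seg_succ (a : ℕ) : seg m B L a (a + 1) = factor m B L a := by simp [seg]

omit [CompleteSpace H] in
lemma seg_univ : seg m B L 0 k = (List.ofFn fun t => m t * letter B L t).prod := by
  simp only [seg, Nat.sub_zero]
  congr 1
  refine List.ext_getElem (by simp) fun i h1 h2 => ?_
  have hik : i < k := by simpa using h2
  simp [factor, hik]

omit [CompleteSpace H] in
lemma seg_congr {a b : ℕ}
    (h : ∀ t : Fin k, a ≤ (t : ℕ) → (t : ℕ) < b → ∀ c ∈ B t, L t c = L' t c) :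
    seg m B L a b = seg m B L' a b := by
  simp only [seg]
  congr 1
  refine List.map_congr_left fun i hi => ?_
  rw [List.mem_range'_1] at hi
  unfold factor
  split_ifs with hk
  · unfold letter
    rw [List.map_congr_left fun c hc => h ⟨i, hk⟩ hi.1 (show i < b by omega) c
      (by simpa using (List.mem_filter.1 hc).2)]
  · rfl

/-- A product over a list with one place changed. -/
lemma prod_map_update {α R : Type*} [DecidableEq α] [Monoid R] {l : List α} (hl : l.Nodup)
    {a : α} (ha : a ∈ l) (g : α → R) :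
    ∃ u w : R, ∀ x, (l.map (Function.update g a x)).prod = u * x * w := by
  obtain ⟨l₁, l₂, rfl⟩ := List.mem_iff_append.1 ha
  refine ⟨(l₁.map g).prod, (l₂.map g).prod, fun x => ?_⟩
  rw [List.nodup_middle, List.nodup_cons] at hl
  simp only [List.mem_append, not_or] at hl
  have e : ∀ l' : List α, a ∉ l' → l'.map (Function.update g a x) = l'.map g := fun l' h =>
    List.map_congr_left fun b hb => Function.update_of_ne (fun hb' : b = a => h (hb' ▸ hb)) _ _
  simp [e l₁ hl.1.1, e l₂ hl.1.2, mul_assoc]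

/-- The positions of a word. -/
abbrev Pos (B : Fin k → Finset (Fin d)) : Type := {p : Fin k × Fin d // p.2 ∈ B p.1}

/-- Extend a choice on the positions to all places. -/
noncomputable def ext1 (L : Pos B → (H →L[ℂ] H)) : Fin k → Fin d → (H →L[ℂ] H) :=
  fun t b => if h : b ∈ B t then L ⟨(t, b), h⟩ else 1

omit [CompleteSpace H] in
lemma word_linear (L : Pos B → (H →L[ℂ] H)) (q : Pos B) :
    ∃ u w : H →L[ℂ] H, ∀ x, seg m B (ext1 (Function.update L q x)) 0 k = u * x * w := by
  obtain ⟨⟨t, b⟩, hb⟩ := q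
  classical
  obtain ⟨u₁, w₁, h₁⟩ := prod_map_update (l := List.finRange k) (List.nodup_finRange k)
    (List.mem_finRange t) fun t' => m t' * letter B (ext1 L) t'
  obtain ⟨u₂, w₂, h₂⟩ := prod_map_update ((List.nodup_finRange d).filter fun c => c ∈ B t)
    (a := b) (by simpa using hb) (ext1 L t)
  refine ⟨u₁ * (m t * u₂), w₂ * w₁, fun x => ?_⟩
  have e : (fun t' => m t' * letter B (ext1 (Function.update L ⟨(t, b), hb⟩ x)) t') =
      Function.update (fun t' => m t' * letter B (ext1 L) t') t (m t * (u₂ * x * w₂)) := by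
    funext t'
    by_cases ht : t' = t
    · subst ht
      rw [Function.update_self, ← h₂ x]
      congr 1
      refine congrArg List.prod (List.map_congr_left fun c hc => ?_)
      have hc' : c ∈ B t' := by simpa using (List.mem_filter.1 hc).2
      by_cases hcb : c = b
      · subst hcb; simp [ext1, hb]
      · simp [ext1, hc', hcb]
    · rw [Function.update_of_ne ht]
      congr 1
      refine congrArg List.prod (List.map_congr_left fun c hc => ?_)
      have hc' : c ∈ B t' := by simpa using (List.mem_filter.1 hc).2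
      simp [ext1, hc', ht]
  rw [seg_univ, List.ofFn_eq_map, e, h₁]
  simp only [mul_assoc]

/-- The trace of a word as a multilinear form in the cells. -/
noncomputable def wordForm (τ : (H →L[ℂ] H) →ₗ[ℂ] ℂ) (m : Fin k → (H →L[ℂ] H))
    (B : Fin k → Finset (Fin d)) : MultilinearMap ℂ (fun _ : Pos B => H →L[ℂ] H) ℂ where
  toFun L := τ (seg m B (ext1 L) 0 k)
  map_update_add' := by
    intro inst L q x y
    obtain rfl : inst = fun a b => Subtype.instDecidableEq a b := Subsingleton.elim _ _
    obtain ⟨u, w, h⟩ := word_linear (m := m) L q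
    rw [h x, h y, h (x + y), mul_add, add_mul, map_add]
  map_update_smul' := by
    intro inst L q c x
    obtain rfl : inst = fun a b => Subtype.instDecidableEq a b := Subsingleton.elim _ _
    obtain ⟨u, w, h⟩ := word_linear (m := m) L q
    rw [h x, h (c • x), mul_smul_comm, smul_mul_assoc, map_smul]

omit [CompleteSpace H] in
/-- Expansion of a word whose cells are combinations. -/
lemma word_expand (τ : (H →L[ℂ] H) →ₗ[ℂ] ℂ) {n : ℕ} (w : Pos B → Fin n → ℂ)
    (a : Pos B → Fin n → (H →L[ℂ] H)) :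
    τ (seg m B (ext1 fun p => ∑ l, w p l • a p l) 0 k) =
      ∑ r : Pos B → Fin n, (∏ p, w p (r p)) * τ (seg m B (ext1 fun p => a p (r p)) 0 k) := by
  classical
  have h := (wordForm τ m B).map_sum fun p l => w p l • a p l
  refine h.trans (Finset.sum_congr rfl fun r _ => ?_)
  exact ((wordForm τ m B).map_smul_univ (fun p => w p (r p)) fun p => a p (r p)).trans (smul_eq_mul _ _)

/-- The weights which select the cells of a block: a single cell in the block `b₀`, signs in the
other blocks, their product at the place `t₀ b` and fresh signs elsewhere. -/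
noncomputable def cwt {n : ℕ} (b₀ : Fin d) (t₀ : Fin d → Pos B) (J : Fin d → Finset (Fin n))
    (σ : Pos B → Fin n → Bool) (j : Fin n) (p : Pos B) (l : Fin n) : ℂ :=
  if p.1.2 = b₀ then (if l = j then 1 else 0)
  else if l ∈ J p.1.2 then
    (if p = t₀ p.1.2 then
      ∏ q : Pos B, if q.1.2 = p.1.2 ∧ q ≠ p then sgn (σ q l) else 1
    else sgn (σ p l))
  else 0

/-- The signs average to the constraint that every block has one cell. -/
lemma sum_cwt {n : ℕ} (b₀ : Fin d) (t₀ : Fin d → Pos B) (ht₀ : ∀ b, (t₀ b).1.2 = b)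
    (J : Fin d → Finset (Fin n)) (r : Pos B → Fin n) :
    ∑ σ : Pos B → Fin n → Bool, ∑ j ∈ J b₀, ∏ p, cwt b₀ t₀ J σ j p (r p) =
      if (∀ p, r p = r (t₀ p.1.2)) ∧ ∀ b, r (t₀ b) ∈ J b then
        (2 : ℂ) ^ (n * Fintype.card (Pos B)) else 0 := by
  classical
  -- the factor carried by the sign at `q`
  set g : Pos B → (Fin n → Bool) → ℂ := fun q f =>
    if q.1.2 = b₀ ∨ q = t₀ q.1.2 then 1 else sgn (f (r q)) * sgn (f (r (t₀ q.1.2))) with hg
  set c : Fin n → Pos B → ℂ := fun j p =>
    if p.1.2 = b₀ then (if r p = j then 1 else 0) else if r p ∈ J p.1.2 then 1 else 0 with hc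
  have key : ∀ σ j, ∏ p, cwt b₀ t₀ J σ j p (r p) = (∏ p, c j p) * ∏ q, g q (σ q) := by
    intro σ j
    have e : ∀ p, cwt b₀ t₀ J σ j p (r p) = c j p *
        ((if p.1.2 ≠ b₀ ∧ p = t₀ p.1.2 then
            ∏ q : Pos B, if q.1.2 = p.1.2 ∧ q ≠ p then sgn (σ q (r p)) else 1 else 1) *
          if p.1.2 ≠ b₀ ∧ p ≠ t₀ p.1.2 then sgn (σ p (r p)) else 1) := by
      intro p
      by_cases hb : p.1.2 = b₀
      · simp only [cwt, hc, if_pos hb, hb, ne_eq, not_true_eq_false, false_and, if_false, if_true, mul_one]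
      by_cases hl : r p ∈ J p.1.2
      · by_cases hp : p = t₀ p.1.2
        · simp only [cwt, hc, if_neg hb, if_pos hl, if_pos hp, if_pos (And.intro hb hp),
            if_neg (fun h : p.1.2 ≠ b₀ ∧ p ≠ t₀ p.1.2 => h.2 hp), one_mul, mul_one]
        · simp only [cwt, hc, if_neg hb, if_pos hl, if_neg hp,
            if_neg (fun h : p.1.2 ≠ b₀ ∧ p = t₀ p.1.2 => hp h.2), if_pos (And.intro hb hp), one_mul]
      · simp only [cwt, hc, if_neg hb, if_neg hl, zero_mul]
    rw [Finset.prod_congr rfl fun p _ => e p, Finset.prod_mul_distrib, Finset.prod_mul_distrib]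
    congr 1
    have e2 : ∀ p : Pos B, (if p.1.2 ≠ b₀ ∧ p = t₀ p.1.2 then
        ∏ q : Pos B, (if q.1.2 = p.1.2 ∧ q ≠ p then sgn (σ q (r p)) else 1) else 1) =
        ∏ q : Pos B, if p = t₀ q.1.2 then
          (if q.1.2 ≠ b₀ ∧ q ≠ t₀ q.1.2 then sgn (σ q (r (t₀ q.1.2))) else 1) else 1 := by
      intro p
      by_cases hp : p.1.2 ≠ b₀ ∧ p = t₀ p.1.2
      · rw [if_pos hp]
        refine Finset.prod_congr rfl fun q _ => ?_
        by_cases hq : q.1.2 = p.1.2
        · rw [hq, if_pos hp.2, ← hp.2]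
          by_cases hqp : q = p
          · simp [hqp]
          · simp [hqp, hp.1]
        · rw [if_neg fun h => hq h.1, if_neg]
          intro h
          exact hq (by rw [h, ht₀])
      · rw [if_neg hp]
        refine (Finset.prod_eq_one fun q _ => ?_).symm
        split_ifs with h1 h2
        · exact absurd ⟨by rw [h1, ht₀]; exact h2.1, by rw [h1, ht₀]⟩ hp
        · rfl
        · rfl
    rw [Finset.prod_congr rfl fun p _ => e2 p, Finset.prod_comm]
    simp only [Finset.prod_ite_eq', Finset.mem_univ, if_true, ← Finset.prod_mul_distrib]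
    refine Finset.prod_congr rfl fun q _ => ?_
    by_cases hb : q.1.2 = b₀ <;> by_cases hq : q = t₀ q.1.2
    · simp [hg, hb]
    · simp [hg, hb]
    · simp only [hg, hb, ne_eq, not_false_eq_true, true_and, if_neg (not_not.2 hq), mul_one,
        if_pos (Or.inr hq : q.1.2 = b₀ ∨ q = t₀ q.1.2)]
    · simp [hg, hb, hq, mul_comm]
  simp only [key]
  rw [Finset.sum_congr rfl fun σ _ => (Finset.sum_mul _ _ _).symm, ← Finset.mul_sum,
    ← Fintype.prod_sum g]
  have hgs : ∀ q, ∑ f, g q f = if q.1.2 = b₀ ∨ r q = r (t₀ q.1.2) then (2 : ℂ) ^ n else 0 := by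
    intro q
    simp only [hg]
    by_cases h : q.1.2 = b₀ ∨ q = t₀ q.1.2
    · have h' : q.1.2 = b₀ ∨ r q = r (t₀ q.1.2) := h.imp id fun h => congrArg r h
      simp [h, h']
    · push Not at h
      simp [h.1, h.2, sum_sgn_pair]
  simp only [hgs]
  by_cases hcons : (∀ p, r p = r (t₀ p.1.2)) ∧ ∀ b, r (t₀ b) ∈ J b
  · rw [if_pos hcons, Finset.sum_eq_single (r (t₀ b₀))]
    · rw [Finset.prod_eq_one fun p _ => ?_, one_mul, Finset.prod_congr rfl fun q _ =>
        if_pos (Or.inr (hcons.1 q)), Finset.prod_const, Finset.card_univ, pow_mul]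
      have h2 : r p ∈ J p.1.2 := by rw [hcons.1 p]; exact hcons.2 _
      by_cases hb : p.1.2 = b₀
      · have : r p = r (t₀ b₀) := by rw [hcons.1 p, hb]
        simp [hc, hb, this]
      · simp [hc, hb, h2]
    · intro j _ hj
      refine Finset.prod_eq_zero (Finset.mem_univ (t₀ b₀)) ?_
      simp [hc, ht₀, Ne.symm hj]
    · exact fun h => absurd (hcons.2 b₀) h
  · rw [if_neg hcons]
    by_contra hne
    obtain ⟨h1, h2⟩ := mul_ne_zero_iff.1 hne
    obtain ⟨j, hj, hj'⟩ := Finset.exists_ne_zero_of_sum_ne_zero h1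
    have hcp := fun p => Finset.prod_ne_zero_iff.1 hj' p (Finset.mem_univ p)
    have hb0 : ∀ p : Pos B, p.1.2 = b₀ → r p = j := fun p hp => by
      have := hcp p
      simp only [hc, if_pos hp] at this
      by_contra h; exact this (if_neg h)
    refine hcons ⟨fun p => ?_, fun b => ?_⟩
    · by_cases hp : p.1.2 = b₀
      · rw [hb0 p hp, hp, hb0 _ (ht₀ _)]
      · have := Finset.prod_ne_zero_iff.1 h2 p (Finset.mem_univ p)
        by_contra h; exact this (if_neg (by tauto))
    · by_cases hb : b = b₀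
      · subst hb; rw [hb0 _ (ht₀ _)]; exact hj
      · have := hcp (t₀ b)
        simp only [hc, ht₀, if_neg hb] at this
        by_contra h; exact this (if_neg h)

omit [CompleteSpace H] in
/-- A sum of words over a product of sets as an average over signs. -/
lemma word_average (τ : (H →L[ℂ] H) →ₗ[ℂ] ℂ) {n : ℕ} (a : Fin k → Fin d → Fin n → (H →L[ℂ] H))
    (b₀ : Fin d) (t₀ : Fin d → Pos B) (ht₀ : ∀ b, (t₀ b).1.2 = b)
    (J : Fin d → Finset (Fin n)) :
    ∑ σ : Pos B → Fin n → Bool, ∑ j ∈ J b₀,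
      τ (seg m B (ext1 fun p => ∑ l, cwt b₀ t₀ J σ j p l • a p.1.1 p.1.2 l) 0 k) =
    (2 : ℂ) ^ (n * Fintype.card (Pos B)) *
      ∑ i ∈ Fintype.piFinset J, τ (seg m B (fun t b => a t b (i b)) 0 k) := by
  classical
  simp only [word_expand]
  rw [Finset.sum_congr rfl fun σ _ => Finset.sum_comm, Finset.sum_comm]
  simp only [← Finset.sum_mul, sum_cwt b₀ t₀ ht₀ J, ite_mul, zero_mul]
  rw [← Finset.sum_filter, Finset.mul_sum]
  refine Finset.sum_nbij' (fun r b => r (t₀ b)) (fun i p => i p.1.2) ?_ ?_ ?_ ?_ ?_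
  · intro r hr
    exact Fintype.mem_piFinset.2 (Finset.mem_filter.1 hr).2.2
  · intro i hi
    refine Finset.mem_filter.2 ⟨Finset.mem_univ _, fun p => by simp only [ht₀], fun b => ?_⟩
    simp only [ht₀]; exact Fintype.mem_piFinset.1 hi b
  · intro r hr
    funext p
    exact ((Finset.mem_filter.1 hr).2.1 p).symm
  · intro i _
    funext b
    show i (t₀ b).1.2 = i b
    rw [ht₀]
  · intro r hr
    congr 2
    refine seg_congr fun t _ _ b hb => ?_
    simp only [ext1, dif_pos hb]
    rw [(Finset.mem_filter.1 hr).2.1 ⟨(t, b), hb⟩]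

end Vale.Agent.P078.Orth
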