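import Vale.Agent.P078.MKS.Assembly.Approx

/-!
Paving of operators orthogonal to the normaliser of a MASA by random colours: definitions and the
statements of the steps.
-/

namespace Vale.Agent.P078.Orth

open Filter Topology MKS Singular

variable {H : Type} [NormedAddCommGroup H] [InnerProductSpace ℂ H] [CompleteSpace H]

/-- A finite partition of `e` in `A`. -/
structure Cut (A : VonNeumannAlgebra H) (e : H →L[ℂ] H) where
  /-- The number of cells. -/
  n : ℕ
  /-- The cells. -/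
  q : Fin n → (H →L[ℂ] H)
  part : IsPartition A e q

/-- Every cell of the second cut lies in one of the first. -/
def Cut.Refines {A : VonNeumannAlgebra H} {e : H →L[ℂ] H} (q₀ q : Cut A e) : Prop :=
  ∀ i, q.q i = 0 ∨ ∃ j, q.q i * q₀.q j = q.q i

/-- The filter of arbitrarily fine cuts. -/
def fine (A : VonNeumannAlgebra H) (e : H →L[ℂ] H) : Filter (Cut A e) :=
  ⨅ q₀ : Cut A e, 𝓟 {q | Cut.Refines q₀ q}

/-- `m` lies in the corner at `e` and is orthogonal to the span of `A` times the normaliser. -/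
def Perp (M A : VonNeumannAlgebra H) (e : H →L[ℂ] H) (τ : (H →L[ℂ] H) →ₗ[ℂ] ℂ)
    (m : H →L[ℂ] H) : Prop :=
  Cor M e m ∧ ∀ z ∈ normSpan M A e, τ (star z * m) = 0

/-- The squared 2-norm of the block diagonal of `m`. -/
noncomputable def diag2 {A : VonNeumannAlgebra H} {e : H →L[ℂ] H}
    (τ : (H →L[ℂ] H) →ₗ[ℂ] ℂ) (m : H →L[ℂ] H) (c : Cut A e) : ℝ :=
  n2 τ (MKS.pinch c.q m) ^ 2

/-- The fourth power of the 4-norm of the family of blocks of `m`. -/
noncomputable def block4 {A : VonNeumannAlgebra H} {e : H →L[ℂ] H}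
    (τ : (H →L[ℂ] H) →ₗ[ℂ] ℂ) (m : H →L[ℂ] H) (c : Cut A e) : ℝ :=
  ∑ i, n2 τ (MKS.pinch c.q (star m * c.q i * m)) ^ 2

/-- The translate of a cell by a normalising partial isometry. -/
noncomputable def cell {A : VonNeumannAlgebra H} {e : H →L[ℂ] H} (h : H →L[ℂ] H) (c : Cut A e) (i : Fin c.n) :
    H →L[ℂ] H :=
  h * c.q i * star h

/-- The average over independent labels of the cells with weights `μ`. -/
def avg {L : Type} [Fintype L] {n : ℕ} {E : Type} [AddCommMonoid E] [Module ℝ E] (μ : L → ℝ)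
    (g : (Fin n → L) → E) : E :=
  ∑ ω, (∏ i, μ (ω i)) • g ω

/-- The translate by `h` of the function `f` of the labels of the cells. -/
noncomputable def vee {A : VonNeumannAlgebra H} {e : H →L[ℂ] H} {L : Type} (h : H →L[ℂ] H)
    (f : L → ℝ) (c : Cut A e) (ω : Fin c.n → L) : H →L[ℂ] H :=
  ∑ i, f (ω i) • cell h c i

/-- A random element which is approximated in the 2-norm by fixed polynomials, with coefficients
in `A`, of translated functions of the labels. -/
def IsField (M A : VonNeumannAlgebra H) (e : H →L[ℂ] H) (τ : (H →L[ℂ] H) →ₗ[ℂ] ℂ)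
    {L : Type} [Fintype L] (μ : L → ℝ)
    (F : (c : Cut A e) → (Fin c.n → L) → (H →L[ℂ] H)) : Prop :=
  ∀ η : ℝ, 0 < η → ∃ (N : ℕ) (a : Fin N → (H →L[ℂ] H)) (d : Fin N → ℕ)
    (h : ∀ j, Fin (d j) → (H →L[ℂ] H)) (f : ∀ j, Fin (d j) → L → ℝ),
    (∀ j, a j ∈ A ∧ e * a j * e = a j) ∧
    (∀ j t, h j t ∈ normaliser M A ∧ e * h j t * e = h j t) ∧
    ∀ᶠ c in fine A e, avg μ (fun ω =>
      n2 τ (F c ω - ∑ j, a j * (List.ofFn fun t => vee (h j t) (f j t) c ω).prod) ^ 2) ≤ η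

/-- Bounded sequences which are Cauchy in the 2-norm converge in it. -/
def CompleteStatement : Prop :=
  ∀ (H : Type) [NormedAddCommGroup H] [InnerProductSpace ℂ H] [CompleteSpace H]
    (M : VonNeumannAlgebra H) (e : H →L[ℂ] H) (τ : (H →L[ℂ] H) →ₗ[ℂ] ℂ),
    e ∈ M → IsStarProjection e → IsTrace M e τ →
    ∀ (T : ℕ → (H →L[ℂ] H)) (C : ℝ), (∀ n, Cor M e (T n) ∧ ‖T n‖ ≤ C) →
      (∀ η : ℝ, 0 < η → ∃ N, ∀ i ≥ N, ∀ j ≥ N, n2 τ (T i - T j) ≤ η) →
      ∃ L : H →L[ℂ] H, Cor M e L ∧ ‖L‖ ≤ C ∧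
        Tendsto (fun n => n2 τ (T n - L)) atTop (𝓝 0)

/-- The trace-preserving conditional expectation onto the algebra of the normaliser. -/
def SplitStatement : Prop :=
  ∀ (H : Type) [NormedAddCommGroup H] [InnerProductSpace ℂ H] [CompleteSpace H]
    (M A : VonNeumannAlgebra H) (e : H →L[ℂ] H) (τ : (H →L[ℂ] H) →ₗ[ℂ] ℂ)
    (hA : IsMASA M A), e ∈ A → IsStarProjection e → IsTrace M e τ →
    ∀ x : H →L[ℂ] H, Cor M e x → IsSelfAdjoint x →
      ∃ y : H →L[ℂ] H, Cor M e y ∧ IsSelfAdjoint y ∧ ‖y‖ ≤ ‖x‖ ∧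
        y ∈ Set.centralizer (Set.centralizer (normStar hA : Set (H →L[ℂ] H))) ∧
        Perp M A e τ (x - y)

/-- Pinchings by fine cuts converge in the 2-norm to an element of `A`. -/
def DiagLimitStatement : Prop :=
  ∀ (H : Type) [NormedAddCommGroup H] [InnerProductSpace ℂ H] [CompleteSpace H]
    (M A : VonNeumannAlgebra H) (e : H →L[ℂ] H) (τ : (H →L[ℂ] H) →ₗ[ℂ] ℂ),
    IsMASA M A → e ∈ A → IsStarProjection e → IsTrace M e τ →
    ∀ x : H →L[ℂ] H, Cor M e x → ∃ a ∈ A, Cor M e a ∧ ‖a‖ ≤ 2 * ‖x‖ ∧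
      Tendsto (fun c : Cut A e => n2 τ (MKS.pinch c.q x - a)) (fine A e) (𝓝 0)

/-- Operators orthogonal to the normaliser have no atoms. -/
def AtomStatement : Prop :=
  ∀ (H : Type) [NormedAddCommGroup H] [InnerProductSpace ℂ H] [CompleteSpace H]
    (M A : VonNeumannAlgebra H) (e : H →L[ℂ] H) (τ : (H →L[ℂ] H) →ₗ[ℂ] ℂ),
    IsMASA M A → e ∈ A → IsStarProjection e → IsTrace M e τ →
    ∀ m : H →L[ℂ] H, Perp M A e τ m →
      Tendsto (fun c : Cut A e => diag2 τ m c) (fine A e) (𝓝 0) ∧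
      Tendsto (fun c : Cut A e => block4 τ m c) (fine A e) (𝓝 0)

/-- A cyclic alternation of operators orthogonal to the normaliser and translated cells, with
distinct cells for distinct blocks and every block in at least two places, has small trace. -/
def CoreStatement : Prop :=
  ∀ (H : Type) [NormedAddCommGroup H] [InnerProductSpace ℂ H] [CompleteSpace H]
    (M A : VonNeumannAlgebra H) (e : H →L[ℂ] H) (τ : (H →L[ℂ] H) →ₗ[ℂ] ℂ),
    IsMASA M A → e ∈ A → IsStarProjection e → IsTrace M e τ →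
    ∀ (k d : ℕ) (m : Fin k → (H →L[ℂ] H)) (B : Fin k → Finset (Fin d))
      (h : Fin k → Fin d → (H →L[ℂ] H)),
      0 < k → (∀ t, Perp M A e τ (m t)) → (∀ t, (B t).Nonempty) →
      (∀ b, ∃ s t, s ≠ t ∧ b ∈ B s ∧ b ∈ B t) →
      (∀ t b, h t b ∈ normaliser M A ∧ e * h t b * e = h t b) →
      Tendsto (fun c : Cut A e =>
        ∑ i ∈ (Finset.univ : Finset (Fin d → Fin c.n)).filter Function.Injective,
          τ (List.ofFn fun t : Fin k => m t *
            (((List.finRange d).filter fun b => b ∈ B t).map fun b =>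
              cell (h t b) c (i b)).prod).prod)
        (fine A e) (𝓝 0)

/-- One partition paves an operator orthogonal to the normaliser on both sides: the excess of
`±` the pinching above `u`, `u > 2 ‖m‖ / √r`, is small in the 2-norm. -/
def NoiseStatement : Prop :=
  ∀ (H : Type) [NormedAddCommGroup H] [InnerProductSpace ℂ H] [CompleteSpace H]
    (M A : VonNeumannAlgebra H) (e : H →L[ℂ] H) (τ : (H →L[ℂ] H) →ₗ[ℂ] ℂ),
    IsMASA M A → e ∈ A → IsStarProjection e → IsTrace M e τ →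
    ∀ m : H →L[ℂ] H, Perp M A e τ m → IsSelfAdjoint m →
      ∀ (r : ℕ) (u δ : ℝ), 0 < r → 2 * ‖m‖ / Real.sqrt r < u → 0 < δ →
        ∃ P : Fin r → (H →L[ℂ] H), IsPartition A e P ∧
          (τ (excess u (MKS.pinch P m) * excess u (MKS.pinch P m))).re ≤ δ ∧
          (τ (excess u (-MKS.pinch P m) * excess u (-MKS.pinch P m))).re ≤ δ

/-- A random partition by fields with mean at most `κ` paves an operator orthogonal to the
normaliser: on average the excesses of `±` the pinching above `u`, `u > 2 √κ ‖m‖`, are small in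
the 2-norm. -/
def GeneralNoiseStatement : Prop :=
  ∀ (H : Type) [NormedAddCommGroup H] [InnerProductSpace ℂ H] [CompleteSpace H]
    (M A : VonNeumannAlgebra H) (e : H →L[ℂ] H) (τ : (H →L[ℂ] H) →ₗ[ℂ] ℂ),
    IsMASA M A → e ∈ A → IsStarProjection e → IsTrace M e τ →
    ∀ (L : Type) [Fintype L] (μ : L → ℝ), (∀ l, 0 ≤ μ l) → ∑ l, μ l = 1 →
    ∀ (r : ℕ) (κ : ℝ) (P : (c : Cut A e) → (Fin c.n → L) → Fin r → (H →L[ℂ] H)),
      0 ≤ κ → (∀ c ω, IsPartition A e (P c ω)) →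
      (∀ s, IsField M A e τ μ fun c ω => P c ω s) →
      (∀ᶠ c in fine A e, ∀ s, avg μ (fun ω => P c ω s) ≤ κ • e) →
    ∀ m : H →L[ℂ] H, Perp M A e τ m → IsSelfAdjoint m →
      ∀ u δ : ℝ, 2 * Real.sqrt κ * ‖m‖ < u → 0 < δ →
        ∀ᶠ c in fine A e, avg μ (fun ω =>
          (τ (excess u (MKS.pinch (P c ω) m) * excess u (MKS.pinch (P c ω) m))).re +
          (τ (excess u (-MKS.pinch (P c ω) m) * excess u (-MKS.pinch (P c ω) m))).re) ≤ δ

/-- So-paving with `O(ε⁻⁴)` pieces of every self-adjoint operator of `M`, whenever traces on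
corners of the MASA fill up the space. -/
def AllPavingStatement : Prop :=
  ∃ C : ℕ, ∀ (H : Type) [NormedAddCommGroup H] [InnerProductSpace ℂ H] [CompleteSpace H]
    (M A : VonNeumannAlgebra H), IsMASA M A →
    (∀ (F : Finset H) (δ : ℝ), 0 < δ → ∃ (e : H →L[ℂ] H) (τ : (H →L[ℂ] H) →ₗ[ℂ] ℂ),
      e ∈ A ∧ IsStarProjection e ∧ IsTrace M e τ ∧ ∀ ξ ∈ F, ‖(1 - e) ξ‖ < δ) →
    ∀ x ∈ M, IsSelfAdjoint x → ∀ (ε : ℝ) (r : ℕ), 0 < ε → ε < 1 → (C : ℝ) ≤ ε ^ 4 * r →
      SoPavable M A 1 x ε r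

end Vale.Agent.P078.Orth
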