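import Vale.Agent.P078.Orth.Avg

/-!
Approximation of random operators by members of a class, in the averaged 2-norm.
-/

namespace Vale.Agent.P078.Orth

open Filter Topology MKS Singular

variable {H : Type} [NormedAddCommGroup H] [InnerProductSpace ℂ H] [CompleteSpace H]
variable {M A : VonNeumannAlgebra H} {e : H →L[ℂ] H} {τ : (H →L[ℂ] H) →ₗ[ℂ] ℂ}
variable {L : Type} [Fintype L] {μ : L → ℝ}

/-- `F` is approximated by bounded members of `P`, eventually along fine cuts. -/
def Near (M : VonNeumannAlgebra H) (τ : (H →L[ℂ] H) →ₗ[ℂ] ℂ) (μ : L → ℝ) (P : Rand A e L → Prop)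
    (F : Rand A e L) : Prop :=
  ∀ η : ℝ, 0 < η → ∃ G, P G ∧ Good M G ∧ ∀ᶠ c in fine A e, nr τ μ (F - G) c ≤ η

variable {P Q R : Rand A e L → Prop} {F G : Rand A e L}

theorem Near.self (hP : P F) (hF : Good M F) : Near M τ μ P F :=
  fun η hη => ⟨F, hP, hF, Eventually.of_forall fun c => by simpa [nr, n2, avg] using hη.le⟩

theorem Near.of_tendsto (hP : P G) (hG : Good M G)
    (h : Tendsto (nr τ μ (F - G)) (fine A e) (𝓝 0)) : Near M τ μ P F :=
  fun _ hη => ⟨G, hP, hG, h.eventually (eventually_le_nhds hη)⟩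

theorem Near.bind (S : Setting M A e τ μ) (hF : Good M F) (h : Near M τ μ P F)
    (hPQ : ∀ G, P G → Good M G → Near M τ μ Q G) : Near M τ μ Q F := by
  intro η hη
  obtain ⟨G, hG, hGg, h1⟩ := h (η / 2) (half_pos hη)
  obtain ⟨G', hG', hG'g, h2⟩ := hPQ G hG hGg (η / 2) (half_pos hη)
  refine ⟨G', hG', hG'g, ?_⟩
  filter_upwards [h1, h2] with c a b
  have := nr_add_le S (hF.sub hGg) (hGg.sub hG'g) c
  rw [show F - G + (G - G') = F - G' by abel] at this
  linarith

theorem Near.mono (h : Near M τ μ P F) (hPQ : ∀ G, P G → Q G) : Near M τ μ Q F := fun η hη => by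
  obtain ⟨G, hG, hGg, h'⟩ := h η hη
  exact ⟨G, hPQ G hG, hGg, h'⟩

theorem Near.add (S : Setting M A e τ μ) (hF : Good M F) (hG : Good M G) (h : Near M τ μ P F)
    (h' : Near M τ μ Q G) (hR : ∀ a b, P a → Q b → R (a + b)) : Near M τ μ R (F + G) := by
  intro η hη
  obtain ⟨a, ha, hag, h1⟩ := h (η / 2) (half_pos hη)
  obtain ⟨b, hb, hbg, h2⟩ := h' (η / 2) (half_pos hη)
  refine ⟨a + b, hR a b ha hb, hag.add hbg, ?_⟩
  filter_upwards [h1, h2] with c x y
  have := nr_add_le S (hF.sub hag) (hG.sub hbg) c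
  rw [show F - a + (G - b) = F + G - (a + b) by abel] at this
  linarith

theorem Near.sum (S : Setting M A e τ μ) {ι : Type*} (s : Finset ι) {F : ι → Rand A e L}
    (hadd : ∀ a b, P a → P b → P (a + b)) (h0 : P 0) (hF : ∀ i ∈ s, Good M (F i))
    (h : ∀ i ∈ s, Near M τ μ P (F i)) : Near M τ μ P (∑ i ∈ s, F i) := by
  classical
  induction s using Finset.induction_on with
  | empty => simpa using Near.self (τ := τ) (μ := μ) h0 Good.zero
  | insert i s hi ih =>
    rw [Finset.sum_insert hi]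
    exact Near.add S (hF i (Finset.mem_insert_self i s))
      (Good.sum s fun j hj => hF j (Finset.mem_insert_of_mem hj))
      (h i (Finset.mem_insert_self i s))
      (ih (fun j hj => hF j (Finset.mem_insert_of_mem hj))
        fun j hj => h j (Finset.mem_insert_of_mem hj)) hadd

theorem Near.mul_left (S : Setting M A e τ μ) {K : Rand A e L} (hK : Good M K) (hF : Good M F)
    (h : Near M τ μ P F) (hPQ : ∀ G, P G → Good M G → Near M τ μ Q (K * G)) :
    Near M τ μ Q (K * F) := by
  have : Near M τ μ (fun G => Near M τ μ Q G) (K * F) := by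
    intro η hη
    obtain ⟨C, hC, hK'⟩ := hK
    obtain ⟨G, hG, hGg, h'⟩ := h (η / (C + 1)) (by positivity)
    refine ⟨K * G, hPQ G hG hGg, Good.mul S.he ⟨C, hC, hK'⟩ hGg, ?_⟩
    filter_upwards [h'] with c hc
    rw [← mul_sub]
    calc nr τ μ (K * (F - G)) c ≤ C * nr τ μ (F - G) c := nr_mul_le S hC hK' (hF.sub hGg) c
      _ ≤ C * (η / (C + 1)) := mul_le_mul_of_nonneg_left hc hC
      _ ≤ (C + 1) * (η / (C + 1)) := by gcongr; linarith
      _ = η := by field_simp
  exact this.bind S (Good.mul S.he hK hF) fun G hG _ => hG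

theorem Near.mul_right (S : Setting M A e τ μ) {K : Rand A e L} (hK : Good M K) (hF : Good M F)
    (h : Near M τ μ P F) (hPQ : ∀ G, P G → Good M G → Near M τ μ Q (G * K)) :
    Near M τ μ Q (F * K) := by
  have : Near M τ μ (fun G => Near M τ μ Q G) (F * K) := by
    intro η hη
    obtain ⟨C, hC, hK'⟩ := hK
    obtain ⟨G, hG, hGg, h'⟩ := h (η / (C + 1)) (by positivity)
    refine ⟨G * K, hPQ G hG hGg, Good.mul S.he hGg ⟨C, hC, hK'⟩, ?_⟩
    filter_upwards [h'] with c hc
    rw [← sub_mul]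
    calc nr τ μ ((F - G) * K) c ≤ C * nr τ μ (F - G) c :=
          nr_mul_right_le S hC (hF.sub hGg) hK' c
      _ ≤ C * (η / (C + 1)) := mul_le_mul_of_nonneg_left hc hC
      _ ≤ (C + 1) * (η / (C + 1)) := by gcongr; linarith
      _ = η := by field_simp
  exact this.bind S (Good.mul S.he hF hK) fun G hG _ => hG

end Vale.Agent.P078.Orth
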