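import Vale.Agent.P078.Orth.Merge
import Vale.Agent.P078.Orth.Near

/-!
Sums over tuples of distinct cells weighted by functions of their labels.
-/

namespace Vale.Agent.P078.Orth

open Filter Topology MKS Singular

set_option linter.unusedSectionVars false

variable {H : Type} [NormedAddCommGroup H] [InnerProductSpace ℂ H] [CompleteSpace H]
variable {M A : VonNeumannAlgebra H} {e : H →L[ℂ] H} {τ : (H →L[ℂ] H) →ₗ[ℂ] ℂ}
variable {L : Type} [Fintype L] {μ : L → ℝ}

/-- The weight of a tuple of cells. -/
def weight {d n : ℕ} (f : Fin d → L → ℝ) (ω : Fin n → L) (i : Fin d → Fin n) : ℝ :=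
  ∏ t, f t (ω (i t))

/-- The sum over tuples of distinct cells of translated cells weighted by functions of the
labels. -/
noncomputable def val {d : ℕ} (h : Fin d → (H →L[ℂ] H)) (f : Fin d → L → ℝ) : Rand A e L :=
  fun c ω => ∑ i ∈ inj d c.n, weight f ω i • cells h c i

/-- The translate by `h` of a function of the labels, as a random operator. -/
noncomputable def veeR (h : H →L[ℂ] H) (f : L → ℝ) : Rand A e L := fun c ω => vee h f c ω

/-- A bound for the absolute value of a weight. -/
def weightBound {d : ℕ} (f : Fin d → L → ℝ) : ℝ := ∏ t, ∑ l, |f t l|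

theorem abs_weight_le {d n : ℕ} (f : Fin d → L → ℝ) (ω : Fin n → L) (i : Fin d → Fin n) :
    |weight f ω i| ≤ weightBound f := by
  rw [weight, Finset.abs_prod]
  exact Finset.prod_le_prod (fun t _ => abs_nonneg _) fun t _ =>
    Finset.single_le_sum (f := fun l => |f t l|) (fun l _ => abs_nonneg _) (Finset.mem_univ _)

theorem weightBound_nonneg {d : ℕ} (f : Fin d → L → ℝ) : 0 ≤ weightBound f :=
  Finset.prod_nonneg fun _ _ => Finset.sum_nonneg fun _ _ => abs_nonneg _

theorem weight_snoc {d n : ℕ} (f : Fin d → L → ℝ) (g : L → ℝ) (ω : Fin n → L)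
    (i : Fin d → Fin n) (x : Fin n) :
    weight (Fin.snoc f g) ω (Fin.snoc i x : Fin (d + 1) → Fin n) = weight f ω i * g (ω x) := by
  simp [weight, Fin.prod_univ_castSucc]

theorem weight_update {d n : ℕ} (f : Fin d → L → ℝ) (s : Fin d) (g : L → ℝ) (ω : Fin n → L)
    (i : Fin d → Fin n) :
    weight (Function.update f s g) ω i = g (ω (i s)) * ∏ t ∈ Finset.univ.erase s, f t (ω (i t)) := by
  rw [weight, ← Finset.mul_prod_erase Finset.univ _ (Finset.mem_univ s), Function.update_self]
  exact congrArg _ (Finset.prod_congr rfl fun t ht => by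
    rw [Function.update_of_ne (Finset.ne_of_mem_erase ht)])

theorem weight_update_mul {d n : ℕ} (f : Fin d → L → ℝ) (s : Fin d) (g : L → ℝ) (ω : Fin n → L)
    (i : Fin d → Fin n) :
    weight (Function.update f s (f s * g)) ω i = weight f ω i * g (ω (i s)) := by
  rw [weight_update, weight, ← Finset.mul_prod_erase Finset.univ _ (Finset.mem_univ s),
    Pi.mul_apply]
  ring

theorem val_zero {h : Fin 0 → (H →L[ℂ] H)} (f : Fin 0 → L → ℝ) :
    (val h f : Rand A e L) = cst e := by
  funext c ω
  have : inj 0 c.n = Finset.univ :=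
    Finset.filter_true_of_mem fun i _ => fun a => a.elim0
  simp [val, cst, this, weight, cells_zero]

theorem val_perm (S : Setting M A e τ μ) {d : ℕ} {h : Fin d → (H →L[ℂ] H)}
    (hn : ∀ t, NorC M A e (h t)) (f : Fin d → L → ℝ) (σ : Equiv.Perm (Fin d)) :
    (val (h ∘ σ) (f ∘ σ) : Rand A e L) = val h f := by
  funext c ω
  refine (Finset.sum_equiv (Equiv.arrowCongr σ.symm (Equiv.refl _)) ?_ fun i _ => ?_).symm
  · intro i
    simp only [mem_inj]
    exact (Equiv.injective_comp σ i).symm
  · have e1 : (Equiv.arrowCongr σ.symm (Equiv.refl (Fin c.n))) i = i ∘ σ := rfl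
    rw [e1, cells_perm S.hA S.heA S.he (fun t => (hn t).1)]
    congr 1
    exact (Equiv.prod_comp σ fun t => f t (ω (i t))).symm

theorem sum_split_cells {d n : ℕ} {E : Type} [AddCommMonoid E]
    (G : (Fin d → Fin n) → Fin n → E) :
    ∑ i ∈ inj d n, ∑ x, G i x = (∑ z ∈ inj (d + 1) n, G (Fin.init z) (z (Fin.last d))) +
      ∑ s, ∑ i ∈ inj d n, G i (i s) := by
  classical
  have h1 : ∑ z ∈ inj (d + 1) n, G (Fin.init z) (z (Fin.last d)) =
      ∑ i ∈ inj d n, ∑ x ∈ Finset.univ.filter (fun x => x ∉ Finset.univ.image i), G i x := by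
    rw [Finset.sum_sigma']
    refine Finset.sum_nbij' (fun z => ⟨Fin.init z, z (Fin.last d)⟩)
      (fun p => Fin.snoc p.1 p.2) ?_ ?_ ?_ ?_ ?_
    · intro z hz
      rw [mem_inj, ← Fin.snoc_init_self z, Fin.snoc_injective_iff] at hz
      simp only [Finset.mem_sigma, mem_inj, Finset.mem_filter, Finset.mem_image, Finset.mem_univ,
        true_and]
      exact ⟨hz.1, fun h => hz.2 h⟩
    · intro p hp
      simp only [Finset.mem_sigma, mem_inj, Finset.mem_filter, Finset.mem_image, Finset.mem_univ,
        true_and] at hp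
      rw [mem_inj, Fin.snoc_injective_iff]
      exact ⟨hp.1, fun h => hp.2 h⟩
    · exact fun z _ => Fin.snoc_init_self z
    · exact fun p _ => by simp
    · exact fun z _ => rfl
  rw [h1, Finset.sum_comm (t := inj d n), ← Finset.sum_add_distrib]
  refine Finset.sum_congr rfl fun i hi => ?_
  rw [mem_inj] at hi
  have h2 : ∑ s, G i (i s) = ∑ x ∈ Finset.univ.image i, G i x :=
    (Finset.sum_image fun a _ b _ h => hi h).symm
  rw [h2, Finset.filter_not, ← Finset.compl_eq_univ_sdiff,
    show ((Finset.univ.filter fun x => x ∈ Finset.univ.image i)) = Finset.univ.image i by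
      ext x; simp, Finset.sum_compl_add_sum]

/-- The part of a product of a tuple sum and one translate in which the new cell repeats the
`s`th one. -/
noncomputable def merge {d : ℕ} (h : Fin d → (H →L[ℂ] H)) (f : Fin d → L → ℝ) (k : H →L[ℂ] H)
    (g : L → ℝ) (s : Fin d) : Rand A e L :=
  fun c ω => ∑ i ∈ inj d c.n, (weight f ω i * g (ω (i s))) • (cells h c i * cell k c (i s))

theorem val_mul_vee {d : ℕ} (h : Fin d → (H →L[ℂ] H)) (f : Fin d → L → ℝ) (k : H →L[ℂ] H)
    (g : L → ℝ) :
    (val h f * veeR k g : Rand A e L) = val (Fin.snoc h k) (Fin.snoc f g) +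
      ∑ s, merge h f k g s := by
  funext c ω
  simp only [Pi.mul_apply, Pi.add_apply, Finset.sum_apply, val, veeR, vee, merge,
    Finset.sum_mul, Finset.mul_sum, smul_mul_smul_comm]
  rw [Finset.sum_comm, sum_split_cells fun i x => (weight f ω i * g (ω x)) • (cells h c i * cell k c x)]
  congr 1
  refine Finset.sum_congr rfl fun z _ => ?_
  conv_rhs => rw [← Fin.snoc_init_self z]
  rw [cells_snoc, weight_snoc]

section Setting

variable (S : Setting M A e τ μ)
include S

theorem good_val {d : ℕ} {h : Fin d → (H →L[ℂ] H)} (hn : ∀ t, NorC M A e (h t))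
    (f : Fin d → L → ℝ) : Good M (val h f : Rand A e L) := by
  refine ⟨weightBound f, weightBound_nonneg f, fun c ω => ⟨Cor.sum _ fun i _ =>
    (cells_corner S.hA S.heA S.he (fun t => (hn t).1) c i).rsmul _, ?_⟩⟩
  exact norm_sum_proj_le S.hA S.heA S.he _ (fun i _ => cells_proj S.hA S.heA S.he
    (fun t => (hn t).1) c i) (fun i _ j _ h => cells_orth S.hA S.heA S.he (fun t => (hn t).1) c h)
    (weightBound_nonneg f) fun i _ => abs_weight_le f ω i

theorem val_mem_alg {d : ℕ} {h : Fin d → (H →L[ℂ] H)} (hn : ∀ t, NorC M A e (h t))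
    (f : Fin d → L → ℝ) (c : Cut A e) (ω : Fin c.n → L) : val h f c ω ∈ A :=
  sum_mem fun i _ => vn_smul A _ (cells_mem S.heA (fun t => (hn t).1) c i)

theorem val_comm {d : ℕ} {h : Fin d → (H →L[ℂ] H)} (hn : ∀ t, NorC M A e (h t))
    (f : Fin d → L → ℝ) {a : H →L[ℂ] H} (ha : a ∈ A) :
    (val h f * cst a : Rand A e L) = cst a * val h f := by
  funext c ω
  exact S.hA.2.1 _ (val_mem_alg S hn f c ω) _ ha

theorem veeR_mem_alg {k : H →L[ℂ] H} (kn : NorC M A e k) (g : L → ℝ) (c : Cut A e)
    (ω : Fin c.n → L) : veeR k g c ω ∈ A := by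
  simp only [veeR, vee]
  exact sum_mem fun i _ => vn_smul A _ (cell_mem kn.1 c i)

theorem good_vee {k : H →L[ℂ] H} (kn : NorC M A e k) (g : L → ℝ) :
    Good M (veeR k g : Rand A e L) := by
  refine ⟨∑ l, |g l|, Finset.sum_nonneg fun l _ => abs_nonneg _, fun c ω => ⟨?_, ?_⟩⟩ <;>
    simp only [veeR, vee]
  · exact Cor.sum _ fun i _ =>
      ((kn.cor.mul S.he (cut_cor S.hA S.he c i)).mul S.he (kn.cor.star' S.he)).rsmul _
  · exact norm_sum_proj_le S.hA S.heA S.he _ (fun i _ => cell_proj S.hA kn.1 c i)
      (fun i _ j _ h => by rw [cell_mul S.hA kn.1, if_neg h])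
      (Finset.sum_nonneg fun l _ => abs_nonneg _) fun i _ =>
      Finset.single_le_sum (f := fun l => |g l|) (fun l _ => abs_nonneg _) (Finset.mem_univ _)

theorem good_merge {d : ℕ} {h : Fin d → (H →L[ℂ] H)} (hn : ∀ t, NorC M A e (h t))
    (f : Fin d → L → ℝ) {k : H →L[ℂ] H} (kn : NorC M A e k) (g : L → ℝ) (s : Fin d) :
    Good M (merge h f k g s : Rand A e L) := by
  refine ⟨weightBound (Function.update f s (f s * g)), weightBound_nonneg _, fun c ω => ⟨?_, ?_⟩⟩
  · exact Cor.sum _ fun i _ => ((cells_corner S.hA S.heA S.he (fun t => (hn t).1) c i).mul S.he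
      (Cor.of_abs S.he (S.hA.1 _ (cell_mem kn.1 c _))
        ((kn.cor.mul S.he (cut_cor S.hA S.he c _)).mul S.he (kn.cor.star' S.he) |>.mul_left S.he)
        ((kn.cor.mul S.he (cut_cor S.hA S.he c _)).mul S.he (kn.cor.star' S.he)
          |>.mul_right S.he))).rsmul _
  · refine norm_sum_proj_le S.hA S.heA S.he _ (fun i _ => isPr_mul S.hA.2.1
      (cells_proj S.hA S.heA S.he (fun t => (hn t).1) c i) (cell_proj S.hA kn.1 c _))
      (fun i _ j _ hij => ?_) (weightBound_nonneg _) fun i _ => ?_
    · have hj := cells_mem S.heA (fun t => (hn t).1) c j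
      have hk := cell_mem (A := A) kn.1 c (i s)
      rw [mul_assoc, ← mul_assoc (cell k c (i s)), S.hA.2.1 _ hk _ hj, mul_assoc, ← mul_assoc,
        cells_orth S.hA S.heA S.he (fun t => (hn t).1) c hij, zero_mul]
    · rw [← weight_update_mul]; exact abs_weight_le _ ω i

/-- A repeated cell is one cell times an element of `A`. -/
theorem merge_approx {d : ℕ} {h : Fin d → (H →L[ℂ] H)} (hn : ∀ t, NorC M A e (h t))
    (f : Fin d → L → ℝ) {k : H →L[ℂ] H} (kn : NorC M A e k) (g : L → ℝ) (s : Fin d) :
    ∃ a ∈ A, Cor M e a ∧ Tendsto (nr τ μ (merge h f k g s -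
      cst a * val h (Function.update f s (f s * g)) : Rand A e L)) (fine A e) (𝓝 0) := by
  obtain ⟨a, ha, hac, hlim⟩ := exists_merge_coef S.hA S.heA S.he S.hτ (hn s) kn
  refine ⟨a, ha, hac, ?_⟩
  set C := weightBound (Function.update f s (f s * g))
  set D : (c : Cut A e) → Fin c.n → (H →L[ℂ] H) :=
    fun c x => cell (h s) c x * cell k c x - cell (h s) c x * a with hD
  refine squeeze_zero (fun c => nr_nonneg _ _) (fun c => ?_)
    (by simpa using (hlim.sqrt).const_mul C)
  rw [← Real.sqrt_sq (show 0 ≤ C from weightBound_nonneg _), ← Real.sqrt_mul (sq_nonneg _)]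
  refine Real.sqrt_le_sqrt ((avg_mono S fun ω => ?_).trans (le_of_eq (avg_const S _)))
  have hcs := fun i => cells_corner S.hA S.heA S.he (fun t => (hn t).1) c i
  have hcm := fun i => cells_mem S.heA (fun t => (hn t).1) c i
  have hDA : ∀ x, D c x ∈ A := fun x => sub_mem
    (mul_mem (cell_mem (hn s).1 c x) (cell_mem kn.1 c x)) (mul_mem (cell_mem (hn s).1 c x) ha)
  have hDc : ∀ x, Cor M e (D c x) := fun x => by
    have h1 := ((hn s).cor.mul S.he (cut_cor S.hA S.he c x)).mul S.he ((hn s).cor.star' S.he)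
    have h2 := (kn.cor.mul S.he (cut_cor S.hA S.he c x)).mul S.he (kn.cor.star' S.he)
    exact (h1.mul S.he h2).sub (h1.mul S.he hac)
  set ψ := weight (Function.update f s (f s * g)) ω
  have hX : (merge h f k g s - cst a * val h (Function.update f s (f s * g)) : Rand A e L) c ω =
      ∑ i ∈ inj d c.n, ψ i • (cells h c i * D c (i s)) := by
    simp only [Pi.sub_apply, Pi.mul_apply, merge, val, cst, Finset.mul_sum,
      ← Finset.sum_sub_distrib, ← weight_update_mul]
    refine Finset.sum_congr rfl fun i _ => ?_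
    rw [mul_smul_comm, ← smul_sub, hD]
    congr 1
    simp only [mul_sub, ← mul_assoc, cells_absorb S.hA S.heA S.he (fun t => (hn t).1) c i s]
    rw [S.hA.2.1 a ha _ (hcm i)]
  rw [hX]
  have hXc : Cor M e (∑ i ∈ inj d c.n, ψ i • (cells h c i * D c (i s))) :=
    Cor.sum _ fun i _ => ((hcs i).mul S.he (hDc _)).rsmul _
  have hDD : ∀ x, Cor M e (star (D c x) * D c x) := fun x => ((hDc x).star' S.he).mul S.he (hDc x)
  rw [n2_sq S.hτ S.he hXc]
  have hsum : C ^ 2 * ∑ x, n2 τ (D c x) ^ 2 =
      (τ (C ^ 2 • ∑ x, star (D c x) * D c x)).re := by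
    rw [tr_rsmul, map_sum, Complex.re_sum]
    exact congrArg _ (Finset.sum_congr rfl fun x _ => n2_sq S.hτ S.he (hDc x))
  rw [hsum]
  refine tr_mono S.hτ S.he ((hXc.star' S.he).mul S.he hXc)
    ((Cor.sum _ fun x _ => hDD x).rsmul _) ?_
  calc star (∑ i ∈ inj d c.n, ψ i • (cells h c i * D c (i s))) *
        ∑ i ∈ inj d c.n, ψ i • (cells h c i * D c (i s))
      = ∑ i ∈ inj d c.n, (ψ i * ψ i) • (star (D c (i s)) * cells h c i * D c (i s)) := by
        rw [star_sum, Finset.sum_mul]
        refine Finset.sum_congr rfl fun i hi => ?_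
        rw [star_smul, star_trivial, star_mul,
          (cells_proj S.hA S.heA S.he (fun t => (hn t).1) c i).2.isSelfAdjoint.star_eq,
          Finset.mul_sum, Finset.sum_eq_single i]
        · rw [smul_mul_smul_comm, mul_assoc _ (cells h c i) (cells h c i * _),
            ← mul_assoc (cells h c i) (cells h c i),
            (cells_proj S.hA S.heA S.he (fun t => (hn t).1) c i).2.isIdempotentElem.eq,
            ← mul_assoc]
        · intro j _ hji
          rw [smul_mul_smul_comm, mul_assoc _ (cells h c i) (cells h c j * _),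
            ← mul_assoc (cells h c i) (cells h c j),
            cells_orth S.hA S.heA S.he (fun t => (hn t).1) c (Ne.symm hji), zero_mul, mul_zero,
            smul_zero]
        · exact fun hn' => absurd hi hn'
    _ ≤ ∑ i ∈ inj d c.n, C ^ 2 • (star (D c (i s)) * cells h c i * D c (i s)) := by
        refine Finset.sum_le_sum fun i _ => smul_le_smul_right' ?_ ?_
        · rw [← pow_two, ← sq_abs]
          exact pow_le_pow_left₀ (abs_nonneg _) (abs_weight_le _ ω i) 2
        · exact star_left_conjugate_nonneg (cells_proj S.hA S.heA S.he (fun t => (hn t).1) c i).2.nonneg _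
    _ = C ^ 2 • ∑ x, star (D c x) * (∑ i ∈ (inj d c.n).filter (fun i => i s = x), cells h c i) *
          D c x := by
        rw [← Finset.smul_sum]
        congr 1
        simp only [Finset.mul_sum, Finset.sum_mul]
        rw [← Finset.sum_fiberwise (inj d c.n) (fun i => i s)]
        exact Finset.sum_congr rfl fun x _ => Finset.sum_congr rfl fun i hi => by
          rw [(Finset.mem_filter.1 hi).2]
    _ ≤ C ^ 2 • ∑ x, star (D c x) * D c x := by
        refine smul_le_smul_of_nonneg_left (Finset.sum_le_sum fun x _ => ?_) (sq_nonneg _)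
        have hp := sum_proj_le S.hA S.heA S.he ((inj d c.n).filter fun i => i s = x)
          (p := cells h c)
          (fun i _ => cells_proj S.hA S.heA S.he (fun t => (hn t).1) c i)
          (fun i _ j _ hij => cells_orth S.hA S.heA S.he (fun t => (hn t).1) c hij)
        simpa using conj_le (proj_le_one hp.2) (D c x)

/-- The translated sum moves past a normalising partial isometry. -/
theorem val_mul_nor {d : ℕ} {h : Fin d → (H →L[ℂ] H)} (hn : ∀ t, NorC M A e (h t))
    (f : Fin d → L → ℝ) {g : H →L[ℂ] H} (gn : NorC M A e g) :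
    (val h f * cst g : Rand A e L) = cst g * val (fun t => star g * h t) f := by
  funext c ω
  have key : ∀ {d : ℕ} {h : Fin d → (H →L[ℂ] H)}, (∀ t, NorC M A e (h t)) →
      ∀ i : Fin d → Fin c.n, cells h c i * g = g * cells (fun t => star g * h t) c i := by
    intro d
    induction d with
    | zero => intro h _ i; rw [cells_zero, cells_zero, gn.cor.mul_left S.he, gn.cor.mul_right S.he]
    | succ d ih =>
      intro h hn i
      have hr := gn.dom_mem.2
      have hcell : cell (h (Fin.last d)) c (i (Fin.last d)) * g =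
          g * cell (star g * h (Fin.last d)) c (i (Fin.last d)) := by
        calc cell (h (Fin.last d)) c (i (Fin.last d)) * g
            = cell (h (Fin.last d)) c (i (Fin.last d)) * (g * star g) * g := by
              rw [mul_assoc, gn.1.2.1]
          _ = (g * star g) * cell (h (Fin.last d)) c (i (Fin.last d)) * g := by
              rw [S.hA.2.1 _ (cell_mem (hn _).1 c _) _ hr]
          _ = _ := by simp only [cell, star_mul, star_star, mul_assoc]
      rw [cells_succ, cells_succ (fun t => star g * h t), mul_assoc, hcell, ← mul_assoc,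
        ih (h := Fin.init h) (fun t => hn t.castSucc) (Fin.init i), mul_assoc]
      rfl
  simp only [Pi.mul_apply, val, cst, Finset.sum_mul, Finset.mul_sum, smul_mul_assoc,
    mul_smul_comm, key hn]

end Setting

end Vale.Agent.P078.Orth
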