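import Vale.Agent.P078.Orth.Avg
import Vale.Agent.P078.MKS.Cells

/-!
Uniform colours: paving by equally likely colours from paving by fields.
-/

namespace Vale.Agent.P078.Orth

open Filter Topology MKS Singular

variable {H : Type} [NormedAddCommGroup H] [InnerProductSpace ℂ H] [CompleteSpace H]
variable {M A : VonNeumannAlgebra H} {e : H →L[ℂ] H} {τ : (H →L[ℂ] H) →ₗ[ℂ] ℂ}

/-- The colour classes of a labelling of the cells. -/
def colours {r : ℕ} (c : Cut A e) (ω : Fin c.n → Fin r) (s : Fin r) : H →L[ℂ] H :=
  ∑ i, if ω i = s then c.q i else 0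

theorem colours_partition {r : ℕ} (c : Cut A e) (ω : Fin c.n → Fin r) :
    IsPartition A e (colours c ω) := by
  have hmul : ∀ s t, colours c ω s * colours c ω t = if s = t then colours c ω s else 0 := by
    intro s t
    simp only [colours, Finset.sum_mul, Finset.mul_sum]
    rcases eq_or_ne s t with rfl | hst
    · rw [if_pos rfl]
      refine Finset.sum_congr rfl fun i _ => ?_
      rw [Finset.sum_eq_single i (fun j _ hji => ?_) (by simp)]
      · split_ifs <;> simp [(c.part.1 i).2.isIdempotentElem.eq]
      · split_ifs <;> simp [c.part.2.1 j i hji]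
    · rw [if_neg hst]
      refine Finset.sum_eq_zero fun i _ => Finset.sum_eq_zero fun j _ => ?_
      rcases eq_or_ne i j with rfl | hij
      · by_cases h : ω i = s
        · simp [show ω i ≠ t from fun h' => hst (h.symm.trans h')]
        · simp [h]
      · split_ifs <;> simp [c.part.2.1 j i (Ne.symm hij)]
  refine ⟨fun s => ⟨sum_mem fun i _ => by split_ifs; exacts [(c.part.1 i).1, zero_mem A],
    ⟨by show colours c ω s * colours c ω s = colours c ω s; rw [hmul, if_pos rfl], ?_⟩⟩,
    fun s t h => by rw [hmul, if_neg h], ?_⟩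
  · show star (colours c ω s) = colours c ω s
    simp only [colours, star_sum]
    exact Finset.sum_congr rfl fun i _ => by split_ifs <;> simp [cut_star]
  · simp only [colours]
    rw [Finset.sum_comm]
    simp [c.part.2.2]

/-- Paving by equally likely colours. -/
theorem noise_of_general (h : GeneralNoiseStatement) : NoiseStatement := by
  classical
  intro H _ _ _ M A e τ hA heA he hτ m hm hms r u δ hr hu hδ
  set μ : Fin r → ℝ := fun _ => (r : ℝ)⁻¹ with hμ
  have hμ0 : ∀ l, 0 ≤ μ l := fun l => by positivity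
  have hr' : (r : ℝ) ≠ 0 := by positivity
  have hμ1 : ∑ l, μ l = 1 := by simp [hμ, mul_inv_cancel₀ hr']
  have S : Setting M A e τ μ := ⟨hA, heA, he, hτ, hμ0, hμ1⟩
  have hcell : ∀ (c : Cut A e) i, cell e c i = c.q i := fun c i => by
    rw [cell, he.isSelfAdjoint.star_eq, (c.part.mul_e i).1, (c.part.mul_e i).2]
  have hfield : ∀ s, IsField M A e τ μ fun c ω => colours c ω s := by
    intro s η hη
    refine ⟨1, fun _ => e, fun _ => 1, fun _ _ => e, fun _ _ l => if l = s then 1 else 0,
      fun _ => ⟨heA, by rw [he.isIdempotentElem.eq, he.isIdempotentElem.eq]⟩,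
      fun _ _ => ⟨Op.proj_mem_nor hA ⟨heA, he⟩, by
        rw [he.isIdempotentElem.eq, he.isIdempotentElem.eq]⟩,
      Eventually.of_forall fun c => ?_⟩
    have h0 : ∀ ω : Fin c.n → Fin r, vee e (fun l => if l = s then (1 : ℝ) else 0) c ω =
        colours c ω s := fun ω => by
      simp only [vee, colours, hcell]
      exact Finset.sum_congr rfl fun i _ => by split_ifs <;> simp
    have h1 : ∀ ω : Fin c.n → Fin r, e * colours c ω s = colours c ω s := fun ω =>
      ((colours_partition c ω).mul_e s).1
    simp [h0, h1, n2, avg, hη.le]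
  have hmean : ∀ (c : Cut A e) s, avg μ (fun ω => colours c ω s) = (r : ℝ)⁻¹ • e := by
    intro c s
    have hmarg : ∀ i, ∑ ω : Fin c.n → Fin r,
        wt μ ω * (if ω i = s then (1 : ℝ) else 0) = (r : ℝ)⁻¹ := by
      intro i
      have h1 : ∀ ω : Fin c.n → Fin r, wt μ ω * (if ω i = s then (1 : ℝ) else 0) =
          ∏ j, μ (ω j) * (if j = i then (if ω j = s then 1 else 0) else 1) := fun ω => by
        rw [Finset.prod_mul_distrib, Finset.prod_ite_eq' Finset.univ i]
        simp [wt]
      simp only [h1]
      rw [← Fintype.prod_sum fun j (l : Fin r) =>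
        μ l * (if j = i then (if l = s then 1 else 0) else 1), Finset.prod_eq_single i]
      · simp [hμ]
      · intro j _ hj
        simp only [if_neg hj, mul_one, hμ1]
      · simp
    calc avg μ (fun ω => colours c ω s)
        = ∑ ω, ∑ i, (wt μ ω * (if ω i = s then (1 : ℝ) else 0)) • c.q i := by
          rw [avg_eq]
          refine Finset.sum_congr rfl fun ω _ => ?_
          rw [colours, Finset.smul_sum]
          exact Finset.sum_congr rfl fun i _ => by split_ifs <;> simp
      _ = ∑ i, (r : ℝ)⁻¹ • c.q i := by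
          rw [Finset.sum_comm]
          exact Finset.sum_congr rfl fun i _ => by rw [← Finset.sum_smul, hmarg i]
      _ = (r : ℝ)⁻¹ • e := by rw [← Finset.smul_sum, c.part.2.2]
  have hκ : 2 * Real.sqrt (r : ℝ)⁻¹ * ‖m‖ < u := by
    rw [Real.sqrt_inv]
    calc 2 * (Real.sqrt r)⁻¹ * ‖m‖ = 2 * ‖m‖ / Real.sqrt r := by ring
      _ < u := hu
  have hev := h H M A e τ hA heA he hτ (Fin r) μ hμ0 hμ1 r (r : ℝ)⁻¹ (fun c ω => colours c ω)
    (by positivity) colours_partition hfield (Eventually.of_forall fun c s => (hmean c s).le)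
    m hm hms u δ hκ hδ
  have := fine_neBot hA heA he
  obtain ⟨c, hc⟩ := hev.exists
  have : Nonempty (Fin r) := ⟨⟨0, hr⟩⟩
  set g : (Fin c.n → Fin r) → ℝ := fun ω =>
    (τ (excess u (MKS.pinch (colours c ω) m) * excess u (MKS.pinch (colours c ω) m))).re +
    (τ (excess u (-MKS.pinch (colours c ω) m) * excess u (-MKS.pinch (colours c ω) m))).re with hg
  obtain ⟨ω, hω⟩ := Finite.exists_min g
  have hle : g ω ≤ δ := by
    refine le_trans ?_ hc
    calc g ω = avg μ (fun _ : Fin c.n → Fin r => g ω) := (avg_const S _).symm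
      _ ≤ avg μ g := avg_mono S hω
  have hnn : ∀ X : H →L[ℂ] H, Cor M e X → IsSelfAdjoint X → 0 ≤ (τ (excess u X * excess u X)).re :=
    fun X hX hXs => by
      have h0 : 0 < u := lt_of_le_of_lt (by positivity) hu
      have := hτ.1 _ (cor_excess he hX h0 hXs).1 (cor_excess he hX h0 hXs).2
      rw [(isSelfAdjoint_excess u X).star_eq] at this
      exact this.1
  have hPc := colours_partition c ω
  have hTc : Cor M e (MKS.pinch (colours c ω) m) := cor_pinch hτ he hA.1 hPc hm.1.1
  have hTs : IsSelfAdjoint (MKS.pinch (colours c ω) m) := pinch_selfAdjoint' hPc hms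
  refine ⟨colours c ω, hPc, ?_, ?_⟩
  · have := hnn _ hTc.neg hTs.neg
    simp only [hg] at hle
    linarith
  · have := hnn _ hTc hTs
    simp only [hg] at hle
    linarith

end Vale.Agent.P078.Orth
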