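import Vale.Agent.P078.Orth.Bound
import Vale.Agent.P078.Orth.Uniform

/-!
Uniform random colours pave operators orthogonal to the normaliser.
-/

namespace Vale.Agent.P078.Orth

/-- The uniform colouring case. -/
theorem noise_ok : NoiseStatement :=
  noise_of_general general_noise_ok

end Vale.Agent.P078.Orth
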