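import Vale.Agent.P078.Orth.Avg

/-!
Products of translated cells and sums over tuples of distinct cells.
-/

namespace Vale.Agent.P078.Orth

open Filter Topology MKS Singular

set_option linter.unusedSectionVars false

variable {H : Type} [NormedAddCommGroup H] [InnerProductSpace ℂ H] [CompleteSpace H]
variable {M A : VonNeumannAlgebra H} {e : H →L[ℂ] H}

/-- A normalising partial isometry of the corner. -/
def NorC (M A : VonNeumannAlgebra H) (e h : H →L[ℂ] H) : Prop :=
  h ∈ normaliser M A ∧ e * h * e = h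

theorem NorC.cor {h : H →L[ℂ] H} (hn : NorC M A e h) : Cor M e h := ⟨hn.1.1, hn.2⟩

theorem NorC.mul (hA : IsMASA M A) (he : IsStarProjection e) {h k : H →L[ℂ] H}
    (hn : NorC M A e h) (kn : NorC M A e k) : NorC M A e (h * k) :=
  ⟨normaliser_mul hA hn.1 kn.1, (hn.cor.mul he kn.cor).2⟩

theorem NorC.star' (he : IsStarProjection e) {h : H →L[ℂ] H} (hn : NorC M A e h) :
    NorC M A e (star h) :=
  ⟨normaliser_star hn.1, (hn.cor.star' he).2⟩

theorem NorC.dom_mem {h : H →L[ℂ] H} (hn : NorC M A e h) :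
    star h * h ∈ A ∧ h * star h ∈ A :=
  ⟨by simpa using (hn.1.2.2 1 (one_mem A)).2, by simpa using (hn.1.2.2 1 (one_mem A)).1⟩

theorem NorC.norm_le {h : H →L[ℂ] H} (hn : NorC M A e h) : ‖h‖ ≤ 1 := by
  have hp : IsStarProjection (star h * h) := by
    refine ⟨?_, IsSelfAdjoint.star_mul_self h⟩
    show star h * h * (star h * h) = star h * h
    calc star h * h * (star h * h) = star h * (h * star h * h) := by simp only [mul_assoc]
      _ = _ := by rw [hn.1.2.1]
  have h1 := hp.norm_le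
  rw [CStarRing.norm_star_mul_self] at h1
  nlinarith [norm_nonneg h]

section Lists

/-- The product of translated cells at a tuple. -/
noncomputable def cells {d : ℕ} (h : Fin d → (H →L[ℂ] H)) (c : Cut A e) (i : Fin d → Fin c.n) :
    H →L[ℂ] H :=
  e * (List.ofFn fun t => cell (h t) c (i t)).prod

theorem prod_mem_alg {l : List (H →L[ℂ] H)} (h : ∀ x ∈ l, x ∈ A) : l.prod ∈ A :=
  list_prod_mem h

theorem cells_mem (heA : e ∈ A) {d : ℕ} {h : Fin d → (H →L[ℂ] H)}
    (hn : ∀ t, h t ∈ normaliser M A) (c : Cut A e) (i : Fin d → Fin c.n) : cells h c i ∈ A := by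
  refine mul_mem heA (prod_mem_alg fun x hx => ?_)
  obtain ⟨t, rfl⟩ := List.mem_ofFn.1 hx
  exact cell_mem (hn t) c (i t)

theorem cells_zero {h : Fin 0 → (H →L[ℂ] H)} (c : Cut A e) (i : Fin 0 → Fin c.n) :
    cells h c i = e := by
  simp [cells]

theorem cells_succ {d : ℕ} (h : Fin (d + 1) → (H →L[ℂ] H)) (c : Cut A e)
    (i : Fin (d + 1) → Fin c.n) :
    cells h c i = cells (Fin.init h) c (Fin.init i) * cell (h (Fin.last d)) c (i (Fin.last d)) := by
  simp only [cells, List.ofFn_succ', List.prod_concat, mul_assoc, Fin.init]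

theorem cells_snoc {d : ℕ} (h : Fin d → (H →L[ℂ] H)) (v : H →L[ℂ] H) (c : Cut A e)
    (i : Fin d → Fin c.n) (x : Fin c.n) :
    cells (Fin.snoc h v) c (Fin.snoc i x : Fin (d + 1) → Fin c.n) =
      cells h c i * cell v c x := by
  rw [cells_succ, Fin.init_snoc, Fin.init_snoc, Fin.snoc_last, Fin.snoc_last]

variable (hA : IsMASA M A) (heA : e ∈ A) (he : IsStarProjection e)
include hA heA he

theorem cells_proj : ∀ {d : ℕ} {h : Fin d → (H →L[ℂ] H)}, (∀ t, h t ∈ normaliser M A) →
    ∀ (c : Cut A e) (i : Fin d → Fin c.n), IsPr A (cells h c i)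
  | 0, h, _, c, i => by rw [cells_zero]; exact ⟨heA, he⟩
  | d + 1, h, hn, c, i => by
    rw [cells_succ]
    exact isPr_mul hA.2.1 (cells_proj (fun t => hn t.castSucc) c _) (cell_proj hA (hn _) c _)

theorem cells_corner {d : ℕ} {h : Fin d → (H →L[ℂ] H)} (hn : ∀ t, h t ∈ normaliser M A)
    (c : Cut A e) (i : Fin d → Fin c.n) : Cor M e (cells h c i) := by
  have hm := cells_mem heA hn c i
  have h1 : e * cells h c i = cells h c i := by
    rw [cells, ← mul_assoc, he.isIdempotentElem.eq]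
  exact Cor.of_abs he (hA.1 _ hm) h1 (by rw [hA.2.1 _ hm _ heA, h1])

theorem cells_absorb : ∀ {d : ℕ} {h : Fin d → (H →L[ℂ] H)}, (∀ t, h t ∈ normaliser M A) →
    ∀ (c : Cut A e) (i : Fin d → Fin c.n) (t : Fin d),
      cells h c i * cell (h t) c (i t) = cells h c i
  | 0, _, _, _, _, t => t.elim0
  | d + 1, h, hn, c, i, t => by
    rw [cells_succ]
    induction t using Fin.lastCases with
    | last => rw [mul_assoc, cell_mul hA (hn _), if_pos rfl]
    | cast s =>
      rw [mul_assoc, hA.2.1 _ (cell_mem (hn _) c _) _ (cell_mem (hn _) c _), ← mul_assoc,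
        show cell (h s.castSucc) c (i s.castSucc) = cell (Fin.init h s) c (Fin.init i s) from rfl,
        cells_absorb (h := Fin.init h) (fun u => hn u.castSucc) c _ s]

theorem cells_orth {d : ℕ} {h : Fin d → (H →L[ℂ] H)} (hn : ∀ t, h t ∈ normaliser M A)
    (c : Cut A e) {i j : Fin d → Fin c.n} (hij : i ≠ j) : cells h c i * cells h c j = 0 := by
  obtain ⟨t, ht⟩ := Function.ne_iff.1 hij
  rw [← cells_absorb hA heA he hn c i t, ← cells_absorb hA heA he hn c j t]
  have hj := cells_mem heA hn c j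
  have ha := cell_mem (hn t) c (i t)
  have hb := cell_mem (hn t) c (j t)
  calc cells h c i * cell (h t) c (i t) * (cells h c j * cell (h t) c (j t))
      = cells h c i * cell (h t) c (i t) * (cell (h t) c (j t) * cells h c j) := by
        rw [hA.2.1 _ hj _ hb]
    _ = cells h c i * (cell (h t) c (i t) * cell (h t) c (j t)) * cells h c j := by
        simp only [mul_assoc]
    _ = 0 := by rw [cell_mul hA (hn t), if_neg ht, mul_zero, zero_mul]

theorem cells_perm {d : ℕ} {h : Fin d → (H →L[ℂ] H)} (hn : ∀ t, h t ∈ normaliser M A)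
    (c : Cut A e) (σ : Equiv.Perm (Fin d)) (i : Fin d → Fin c.n) :
    cells (h ∘ σ) c (i ∘ σ) = cells h c i := by
  unfold cells
  congr 1
  refine List.Perm.prod_eq' (σ.ofFn_comp_perm fun t => cell (h t) c (i t)) ?_
  refine List.pairwise_of_forall_mem_list fun x hx y hy => ?_
  obtain ⟨s, rfl⟩ := List.mem_ofFn.1 hx
  obtain ⟨t, rfl⟩ := List.mem_ofFn.1 hy
  exact hA.2.1 _ (cell_mem (hn _) c _) _ (cell_mem (hn _) c _)

theorem sum_proj_le {ι : Type*} (s : Finset ι) {p : ι → (H →L[ℂ] H)} (hp : ∀ x ∈ s, IsPr A (p x))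
    (ho : ∀ x ∈ s, ∀ y ∈ s, x ≠ y → p x * p y = 0) : IsPr A (∑ x ∈ s, p x) := by
  classical
  refine ⟨sum_mem fun x hx => (hp x hx).1, ?_, ?_⟩
  · show (∑ x ∈ s, p x) * (∑ x ∈ s, p x) = _
    rw [Finset.sum_mul_sum]
    refine Finset.sum_congr rfl fun x hx => ?_
    rw [Finset.sum_eq_single x (fun y hy hyx => ho x hx y hy (Ne.symm hyx))
      (fun h => absurd hx h), (hp x hx).2.isIdempotentElem.eq]
  · show star (∑ x ∈ s, p x) = _
    rw [star_sum]
    exact Finset.sum_congr rfl fun x hx => (hp x hx).2.isSelfAdjoint.star_eq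

theorem norm_sum_proj_le {ι : Type*} (s : Finset ι) {p : ι → (H →L[ℂ] H)}
    (hp : ∀ x ∈ s, IsPr A (p x)) (ho : ∀ x ∈ s, ∀ y ∈ s, x ≠ y → p x * p y = 0)
    {φ : ι → ℝ} {C : ℝ} (hC : 0 ≤ C) (hφ : ∀ x ∈ s, |φ x| ≤ C) :
    ‖∑ x ∈ s, φ x • p x‖ ≤ C := by
  have hsa : IsSelfAdjoint (∑ x ∈ s, φ x • p x) := by
    show star _ = _
    rw [star_sum]
    exact Finset.sum_congr rfl fun x hx => by
      rw [star_smul, star_trivial, (hp x hx).2.isSelfAdjoint.star_eq]
  have hP := (sum_proj_le hA heA he s hp ho).2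
  refine norm_le_of_bounds hsa hC ?_ ?_
  · refine le_trans ?_ (Finset.sum_le_sum fun x hx =>
      smul_le_smul_right' (abs_le.1 (hφ x hx)).1 (hp x hx).2.nonneg)
    rw [← Finset.smul_sum, neg_smul, neg_smul, neg_le_neg_iff]
    exact smul_le_smul_of_nonneg_left (proj_le_one hP) hC
  · refine (Finset.sum_le_sum fun x hx =>
      smul_le_smul_right' (abs_le.1 (hφ x hx)).2 (hp x hx).2.nonneg).trans ?_
    rw [← Finset.smul_sum]
    exact smul_le_smul_of_nonneg_left (proj_le_one hP) hC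

end Lists

/-- The tuples of distinct cells. -/
def inj (d n : ℕ) : Finset (Fin d → Fin n) :=
  Finset.univ.filter Function.Injective

@[simp] theorem mem_inj {d n : ℕ} {i : Fin d → Fin n} : i ∈ inj d n ↔ Function.Injective i := by
  simp [inj]

end Vale.Agent.P078.Orth
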