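import Vale.Agent.P078.Semifinite.Defs
import Vale.Agent.P078.MKS.TypeI.Paving

/-!
All bounded operators, and algebras with a faithful normal trace, are semifinite.
-/

namespace Vale.Agent.P078.Semifinite

open MKS Singular
open scoped InnerProductSpace

variable {H : Type} [NormedAddCommGroup H] [InnerProductSpace ℂ H] [CompleteSpace H]
variable {M : VonNeumannAlgebra H}

/-- The algebra of all bounded operators is semifinite. -/
theorem isSemifinite_of_forall_mem (hM : ∀ y : H →L[ℂ] H, y ∈ M) : IsSemifinite M := by
  intro F δ hδ
  set U := Submodule.span ℂ (F : Set H) with hU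
  have : FiniteDimensional ℂ U := FiniteDimensional.span_finset ℂ F
  let b := stdOrthonormalBasis ℂ U
  refine ⟨U.starProjection, TypeI.finTrace fun i => (b i : H), hM _,
    isStarProjection_starProjection, TypeI.isTrace_finTrace _
      (fun i => Submodule.starProjection_eq_self_iff.2 (b i).2) (fun v => ?_), fun ξ hξ => ?_⟩
  · rw [b.starProjection_eq_sum_rankOne, sum_apply]
    rfl
  · rw [sub_apply, one_apply_eq_self,
      Submodule.starProjection_eq_self_iff.2 (Submodule.subset_span hξ), sub_self, norm_zero]
    exact hδ

/-- An algebra with a faithful normal trace is semifinite. -/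
theorem isSemifinite_of_trace {τ : (H →L[ℂ] H) →ₗ[ℂ] ℂ} (hτ : IsTrace M 1 τ) : IsSemifinite M :=
  fun F δ hδ => ⟨1, τ, one_mem M, .one _, hτ, fun ξ _ => by
    rwa [sub_self, zero_apply, norm_zero]⟩

end Vale.Agent.P078.Semifinite
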