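import Vale.Agent.P078.Orth.Words

/-!
The span of the alternating words is invariant under the corner and under random fields.
-/

namespace Vale.Agent.P078.Orth

open Filter Topology MKS Singular

set_option linter.unusedSectionVars false

variable {H : Type} [NormedAddCommGroup H] [InnerProductSpace ℂ H] [CompleteSpace H]
variable {M A : VonNeumannAlgebra H} {e : H →L[ℂ] H} {τ : (H →L[ℂ] H) →ₗ[ℂ] ℂ}
variable {L : Type} [Fintype L] {μ : L → ℝ}

/-- Finite sums of members of a class. -/
inductive Sums (P : Rand A e L → Prop) : Rand A e L → Prop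
  | zero : Sums P 0
  | cons (G K : Rand A e L) (hG : P G) (hK : Sums P K) : Sums P (G + K)

theorem Sums.add {P : Rand A e L → Prop} {F G : Rand A e L} (hF : Sums P F) (hG : Sums P G) :
    Sums P (F + G) := by
  induction hF with
  | zero => rwa [zero_add]
  | cons K K' hK _ ih => rw [add_assoc]; exact Sums.cons K _ hK ih

theorem Sums.single {P : Rand A e L → Prop} {F : Rand A e L} (hF : P F) : Sums P F := by
  simpa using Sums.cons F 0 hF Sums.zero

theorem Sums.map {P Q : Rand A e L → Prop} {F : Rand A e L} (hF : Sums P F) (K : Rand A e L)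
    (h : ∀ G, P G → Sums Q (K * G)) : Sums Q (K * F) := by
  induction hF with
  | zero => rw [mul_zero]; exact Sums.zero
  | cons G G' hG _ ih => rw [mul_add]; exact (h G hG).add ih

/-- Constants of the algebra of the normaliser and words starting with a centred tuple sum. -/
def KW (M A : VonNeumannAlgebra H) (e : H →L[ℂ] H) (τ : (H →L[ℂ] H) →ₗ[ℂ] ℂ) (μ : L → ℝ)
    (G : Rand A e L) : Prop :=
  (∃ z ∈ normSpan M A e, G = cst z) ∨ FW M A e τ μ G

/-- A sum of words of the first kind and a sum of words of the second kind. -/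
def Dec (M A : VonNeumannAlgebra H) (e : H →L[ℂ] H) (τ : (H →L[ℂ] H) →ₗ[ℂ] ℂ) (μ : L → ℝ)
    (G : Rand A e L) : Prop :=
  ∃ K Q, Sums (KW M A e τ μ) K ∧ Sums (PiW M A e τ μ) Q ∧ G = K + Q

theorem Dec.add {F G : Rand A e L} (hF : Dec M A e τ μ F) (hG : Dec M A e τ μ G) :
    Dec M A e τ μ (F + G) := by
  obtain ⟨K, Q, hK, hQ, rfl⟩ := hF
  obtain ⟨K', Q', hK', hQ', rfl⟩ := hG
  exact ⟨K + K', Q + Q', hK.add hK', hQ.add hQ', by abel⟩

theorem Dec.zero : Dec M A e τ μ (0 : Rand A e L) := ⟨0, 0, Sums.zero, Sums.zero, (add_zero 0).symm⟩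

theorem Dec.of_k {G : Rand A e L} (h : Sums (KW M A e τ μ) G) : Dec M A e τ μ G :=
  ⟨G, 0, h, Sums.zero, (add_zero G).symm⟩

theorem Dec.of_q {G : Rand A e L} (h : Sums (PiW M A e τ μ) G) : Dec M A e τ μ G :=
  ⟨0, G, Sums.zero, h, (zero_add G).symm⟩

section

variable (S : Setting M A e τ μ)
include S

theorem kw_good {G : Rand A e L} (h : KW M A e τ μ G) : Good M G := by
  rcases h with ⟨z, hz, rfl⟩ | h
  exacts [good_cst (span_cor S hz), fw_good S h]

theorem sums_good {P : Rand A e L → Prop} (hP : ∀ G, P G → Good M G) {F : Rand A e L}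
    (h : Sums P F) : Good M F := by
  induction h with
  | zero => exact Good.zero
  | cons G K hG _ ih => exact (hP G hG).add ih

theorem dec_good {G : Rand A e L} (h : Dec M A e τ μ G) : Good M G := by
  obtain ⟨K, Q, hK, hQ, rfl⟩ := h
  exact (sums_good S (fun G => kw_good S) hK).add (sums_good S (fun G => piW_good S) hQ)

theorem ltr_comm {w : Ltr H L} (hw : w.Ok M A e μ) {a : H →L[ℂ] H} (ha : a ∈ A) :
    (cst a * w.val : Rand A e L) = w.val * cst a :=
  (val_comm S hw.1 w.f ha).symm

theorem piW_kw {m : H →L[ℂ] H} (hm : Perp M A e τ m) {K : Rand A e L} (hK : KW M A e τ μ K) :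
    PiW M A e τ μ (cst m * K) := by
  rcases hK with ⟨z, hz, rfl⟩ | hK
  · exact PiW.base _ (hm.mul_right S.hA S.heA S.he S.hτ hz)
  · cases hK with
    | last w hw z hz => exact PiW.last _ hm w hw z hz
    | step w hw G hG => exact PiW.step _ hm w hw G hG

theorem piW_head {G : Rand A e L} (h : PiW M A e τ μ G) :
    ∃ m K, Perp M A e τ m ∧ KW M A e τ μ K ∧ G = cst m * K := by
  cases h with
  | base m hm =>
    exact ⟨m, cst e, hm, Or.inl ⟨e, e_mem_span S, rfl⟩, (mul_cst_e S (good_cst hm.1)).symm⟩
  | last m hm w hw z hz => exact ⟨m, _, hm, Or.inr (FW.last w hw z hz), rfl⟩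
  | step m hm w hw G hG => exact ⟨m, _, hm, Or.inr (FW.step w hw G hG), rfl⟩

theorem span_fw : ∀ {z : H →L[ℂ] H}, z ∈ normSpan M A e → ∀ F : Rand A e L, FW M A e τ μ F →
    Sums (KW M A e τ μ) (cst z * F) := by
  intro z hz
  induction hz using Submodule.span_induction with
  | zero =>
    intro F _
    rw [show (cst (0 : H →L[ℂ] H) * F : Rand A e L) = 0 by funext c ω; simp [cst]]
    exact Sums.zero
  | add x y _ _ hx hy =>
    intro F hF
    rw [show (cst (x + y) * F : Rand A e L) = cst x * F + cst y * F by rw [← add_mul]; rfl]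
    exact (hx F hF).add (hy F hF)
  | smul t x _ hx =>
    intro F hF
    have hte : t • e ∈ normSpan M A e := Submodule.smul_mem _ _ (e_mem_span S)
    have hteA : t • e ∈ A := A.toStarSubalgebra.smul_mem S.heA t
    have hFg := fw_good S hF
    have h' : (cst (t • x) * F : Rand A e L) = cst x * (cst (t • e) * F) := by
      obtain ⟨_, _, hg⟩ := hFg
      funext c ω
      show t • x * F c ω = x * (t • e * F c ω)
      rw [smul_mul_assoc, smul_mul_assoc, (hg c ω).1.mul_left S.he, mul_smul_comm]
    rw [h']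
    refine hx _ ?_
    cases hF with
    | last w hw u hu =>
      rw [← mul_assoc, ltr_comm S hw hteA,
        mul_assoc, cst_mul]
      exact FW.last w hw _ (normSpan_mul' S.hA S.heA S.he hte hu)
    | step w hw G hG =>
      rw [← mul_assoc, ltr_comm S hw hteA,
        mul_assoc]
      exact FW.step w hw _ (piW_cmul S hG hte)
  | mem g hg =>
    intro F hF
    obtain ⟨hge, a, ha, v, hv, rfl⟩ := hg
    set v' := e * v * e
    have hv' : NorC M A e v' :=
      ⟨normaliser_mul S.hA (normaliser_mul S.hA (norC_e S.hA S.heA S.he).1 hv)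
        (norC_e S.hA S.heA S.he).1, by
        simp only [v', ← mul_assoc, S.he.isIdempotentElem.eq]
        simp only [mul_assoc, S.he.isIdempotentElem.eq]⟩
    have hae : a * e ∈ A := mul_mem ha S.heA
    have hg' : a * v = a * e * v' := by
      calc a * v = e * (a * v) * e := hge.symm
        _ = (e * a) * v * e := by simp only [mul_assoc]
        _ = a * (e * e) * v * e := by
          rw [S.hA.2.1 e S.heA a ha, S.he.isIdempotentElem.eq]
        _ = _ := by simp only [v', mul_assoc]
    clear_value v'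
    have hgz : a * v ∈ normSpan M A e := Submodule.subset_span ⟨hge, a, ha, v, hv, rfl⟩
    have move : ∀ w : Ltr H L, w.Ok M A e μ → ∃ w' : Ltr H L, w'.Ok M A e μ ∧
        (cst (a * v) * w.val : Rand A e L) = w'.val * cst (a * v) := by
      intro w hw
      refine ⟨⟨w.d, fun t => v' * w.h t, w.f⟩, ⟨fun t => hv'.mul S.hA S.he (hw.1 t), hw.2⟩, ?_⟩
      show cst (a * v) * Orth.val w.h w.f = Orth.val _ w.f * cst (a * v)
      have h1 := congrArg star (val_mul_nor S (A := A) hw.1 w.f (hv'.star' S.he))
      have hs : ∀ (h : Fin (w.d + 1) → (H →L[ℂ] H)), (∀ t, NorC M A e (h t)) →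
          star (Orth.val h w.f : Rand A e L) = Orth.val h w.f := fun h hn => by
        funext c ω
        simp only [Pi.star_apply, Orth.val, star_sum, star_smul, star_trivial]
        exact Finset.sum_congr rfl fun i _ => by
          rw [(cells_proj S.hA S.heA S.he (fun t => (hn t).1) c i).2.isSelfAdjoint.star_eq]
      rw [star_mul, star_mul, hs _ hw.1, hs _ fun t => by
        simpa only [star_star] using hv'.mul S.hA S.he (hw.1 t),
        show star (cst (star v') : Rand A e L) = cst v' by funext c ω; simp [cst]] at h1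
      simp only [star_star] at h1
      rw [hg', ← cst_mul, mul_assoc, h1, ← mul_assoc, ← mul_assoc,
        val_comm S (fun t => hv'.mul S.hA S.he (hw.1 t)) w.f hae]
    cases hF with
    | last w hw u hu =>
      obtain ⟨w', hw', he'⟩ := move w hw
      rw [← mul_assoc, he', mul_assoc, cst_mul]
      exact Sums.single (Or.inr (FW.last w' hw' _ (normSpan_mul' S.hA S.heA S.he hgz hu)))
    | step w hw G hG =>
      obtain ⟨w', hw', he'⟩ := move w hw
      rw [← mul_assoc, he', mul_assoc]
      exact Sums.single (Or.inr (FW.step w' hw' _ (piW_cmul S hG hgz)))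

theorem near_dec_kw {x : H →L[ℂ] H} (hx : Cor M e x) {K : Rand A e L} (hK : KW M A e τ μ K) :
    Near M τ μ (Dec M A e τ μ) (cst x * K) := by
  intro η hη
  rcases hK with ⟨z, hz, rfl⟩ | hF
  · obtain ⟨z', hz', m', hm', hd⟩ := split_near S (hx.mul S.he (span_cor S hz)) hη
    refine ⟨cst (z' + m'), ?_, good_cst ((span_cor S hz').add hm'.1), Eventually.of_forall fun c => ?_⟩
    · exact (Dec.of_k (Sums.single (Or.inl ⟨z', hz', rfl⟩))).add
        (Dec.of_q (Sums.single (PiW.base m' hm')))
    · show nr τ μ (cst (x * z - (z' + m'))) c ≤ η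
      rw [nr_cst S]; exact hd
  · have hg := fw_good S hF
    obtain ⟨C, hC, hFb⟩ := hg
    obtain ⟨z', hz', m', hm', hd⟩ := split_near S hx (div_pos hη (show 0 < C + 1 by positivity))
    have huc := (span_cor S hz').add hm'.1
    refine ⟨cst (z' + m') * K, ?_, (good_cst huc).mul S.he ⟨C, hC, hFb⟩,
      Eventually.of_forall fun c => ?_⟩
    · rw [show (cst (z' + m') * K : Rand A e L) = cst z' * K + cst m' * K by rw [← add_mul]; rfl]
      exact (Dec.of_k (span_fw S hz' K hF)).add
        (Dec.of_q (Sums.single (piW_kw S hm' (Or.inr hF))))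
    · rw [← sub_mul]
      refine (nr_mul_right_le S hC (good_cst (hx.sub huc)) hFb c).trans ?_
      show C * nr τ μ (cst (x - (z' + m'))) c ≤ η
      rw [nr_cst S]
      calc C * n2 τ (x - (z' + m')) ≤ C * (η / (C + 1)) := mul_le_mul_of_nonneg_left hd hC
        _ ≤ (C + 1) * (η / (C + 1)) := by gcongr; linarith
        _ = η := by field_simp

theorem near_sums {P : Rand A e L → Prop} (hP : ∀ G, P G → Good M G) {R : Rand A e L}
    (hR : Good M R) (h : ∀ G, P G → Near M τ μ (Dec M A e τ μ) (R * G)) {F : Rand A e L}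
    (hF : Sums P F) : Near M τ μ (Dec M A e τ μ) (R * F) := by
  induction hF with
  | zero => rw [mul_zero]; exact Near.self Dec.zero Good.zero
  | cons G K hG hK ih =>
    rw [mul_add]
    exact Near.add S (hR.mul S.he (hP G hG)) (hR.mul S.he (sums_good S hP hK)) (h G hG) ih
      fun a b => Dec.add

/-- Left multiplication by the corner preserves the span. -/
theorem near_dec_cmul {x : H →L[ℂ] H} (hx : Cor M e x) {G : Rand A e L}
    (hG : Dec M A e τ μ G) : Near M τ μ (Dec M A e τ μ) (cst x * G) := by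
  obtain ⟨K, Q, hK, hQ, rfl⟩ := hG
  rw [mul_add]
  refine Near.add S ((good_cst hx).mul S.he (sums_good S (fun G => kw_good S) hK))
    ((good_cst hx).mul S.he (sums_good S (fun G => piW_good S) hQ))
    (near_sums S (fun G => kw_good S) (good_cst hx) (fun G hG => near_dec_kw S hx hG) hK)
    (near_sums S (fun G => piW_good S) (good_cst hx) (fun G hG => ?_) hQ) fun a b => Dec.add
  obtain ⟨m, K', hm, hK', rfl⟩ := piW_head S hG
  rw [← mul_assoc, cst_mul]
  exact near_dec_kw S (hx.mul S.he hm.1) hK'

theorem cmul_kw {a : H →L[ℂ] H} (ha : a ∈ A) (hc : Cor M e a) {K : Rand A e L}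
    (hK : KW M A e τ μ K) : KW M A e τ μ (cst a * K) := by
  have hz := alg_mem_normSpan ha hc.2 (M := M)
  rcases hK with ⟨z, hz', rfl⟩ | hF
  · exact Or.inl ⟨a * z, normSpan_mul' S.hA S.heA S.he hz hz', rfl⟩
  · refine Or.inr ?_
    cases hF with
    | last w hw z hz' =>
      rw [← mul_assoc, ltr_comm S hw ha, mul_assoc,
        cst_mul]
      exact FW.last w hw _ (normSpan_mul' S.hA S.heA S.he hz hz')
    | step w hw G hG =>
      rw [← mul_assoc, ltr_comm S hw ha, mul_assoc]
      exact FW.step w hw _ (piW_cmul S hG hz)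

theorem lin_mul_base {G T : Rand A e L} (hG : Lin M A e μ G)
    (hT : (∃ z ∈ normSpan M A e, T = cst z) ∨ PiW M A e τ μ T) : Dec M A e τ μ (G * T) := by
  induction hG with
  | base a ha hc =>
    rcases hT with hT | hT
    · exact Dec.of_k (Sums.single (cmul_kw S ha hc (Or.inl hT)))
    · exact Dec.of_q (Sums.single (piW_cmul S hT (alg_mem_normSpan ha hc.2)))
  | val a ha hc h hn f hf =>
    refine Dec.of_k (Sums.single ?_)
    rw [mul_assoc]
    refine cmul_kw S ha hc (Or.inr ?_)
    rcases hT with ⟨z, hz, rfl⟩ | hT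
    · exact FW.last ⟨_, h, f⟩ ⟨hn, hf⟩ z hz
    · exact FW.step ⟨_, h, f⟩ ⟨hn, hf⟩ T hT
  | add G G' _ _ h h' => rw [add_mul]; exact h.add h'

theorem near_lin_word {R T : Rand A e L} (hR : Lin M A e μ R)
    (hT : KW M A e τ μ T ∨ PiW M A e τ μ T) : Near M τ μ (Dec M A e τ μ) (R * T) := by
  have hTg : Good M T := hT.elim (kw_good S) (piW_good S)
  rcases hT with (hT | hT) | hT
  · exact Near.self (lin_mul_base S hR (Or.inl hT)) ((lin_good S hR).mul S.he hTg)
  · -- two tuple sums meet
    have key : ∀ (w : Ltr H L), w.Ok M A e μ → ∀ T' : Rand A e L,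
        ((∃ z ∈ normSpan M A e, T' = cst z) ∨ PiW M A e τ μ T') → Good M T' →
        Near M τ μ (Dec M A e τ μ) (R * (w.val * T')) := by
      intro w hw T' hT' hT'g
      rw [← mul_assoc]
      refine (((near_poly_val S hw.1 w.f).mul_left S (lin_good S hR) (good_ltr S hw)
        fun G hG _ => near_lin_mul_poly S hR hG).mul_right S hT'g
          ((lin_good S hR).mul S.he (good_ltr S hw)) fun G hG hGg => ?_)
      exact Near.self (lin_mul_base S hG hT') (hGg.mul S.he hT'g)
    cases hT with
    | last w hw z hz => exact key w hw _ (Or.inl ⟨z, hz, rfl⟩) (good_cst (span_cor S hz))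
    | step w hw G hG => exact key w hw _ (Or.inr hG) (piW_good S hG)
  · exact Near.self (lin_mul_base S hR (Or.inr hT)) ((lin_good S hR).mul S.he hTg)

/-- Left multiplication by a combination of tuple sums preserves the span. -/
theorem near_dec_lin {R : Rand A e L} (hR : Lin M A e μ R) {G : Rand A e L}
    (hG : Dec M A e τ μ G) : Near M τ μ (Dec M A e τ μ) (R * G) := by
  obtain ⟨K, Q, hK, hQ, rfl⟩ := hG
  rw [mul_add]
  exact Near.add S ((lin_good S hR).mul S.he (sums_good S (fun G => kw_good S) hK))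
    ((lin_good S hR).mul S.he (sums_good S (fun G => piW_good S) hQ))
    (near_sums S (fun G => kw_good S) (lin_good S hR)
      (fun G hG => near_lin_word S hR (Or.inl hG)) hK)
    (near_sums S (fun G => piW_good S) (lin_good S hR)
      (fun G hG => near_lin_word S hR (Or.inr hG)) hQ) fun a b => Dec.add

end

end Vale.Agent.P078.Orth
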