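import Vale.Agent.P078.Orth.Cyclic
import Vale.Agent.P078.Orth.Split
import Vale.Agent.P078.MKS.Trace
import Vale.Agent.P078.MKS.Kaplansky

/-!
Linear alternations of orthogonal operators and centred tuple sums have small averaged trace.
-/

namespace Vale.Agent.P078.Orth

open Filter Topology MKS Singular

set_option linter.unusedSectionVars false

variable {H : Type} [NormedAddCommGroup H] [InnerProductSpace ℂ H] [CompleteSpace H]
variable {M A : VonNeumannAlgebra H} {e : H →L[ℂ] H} {τ : (H →L[ℂ] H) →ₗ[ℂ] ℂ}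
variable {L : Type} [Fintype L] {μ : L → ℝ}

theorem cst_mul (x y : H →L[ℂ] H) : (cst x * cst y : Rand A e L) = cst (x * y) := rfl

/-- Words which start with an orthogonal operator. -/
inductive PiW (M A : VonNeumannAlgebra H) (e : H →L[ℂ] H) (τ : (H →L[ℂ] H) →ₗ[ℂ] ℂ)
    (μ : L → ℝ) : Rand A e L → Prop
  | base (m : H →L[ℂ] H) (hm : Perp M A e τ m) : PiW M A e τ μ (cst m)
  | last (m : H →L[ℂ] H) (hm : Perp M A e τ m) (w : Ltr H L) (hw : w.Ok M A e μ)
      (z : H →L[ℂ] H) (hz : z ∈ normSpan M A e) : PiW M A e τ μ (cst m * (w.val * cst z))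
  | step (m : H →L[ℂ] H) (hm : Perp M A e τ m) (w : Ltr H L) (hw : w.Ok M A e μ)
      (G : Rand A e L) (hG : PiW M A e τ μ G) : PiW M A e τ μ (cst m * (w.val * G))

/-- Words which start with a centred tuple sum. -/
inductive FW (M A : VonNeumannAlgebra H) (e : H →L[ℂ] H) (τ : (H →L[ℂ] H) →ₗ[ℂ] ℂ)
    (μ : L → ℝ) : Rand A e L → Prop
  | last (w : Ltr H L) (hw : w.Ok M A e μ) (z : H →L[ℂ] H) (hz : z ∈ normSpan M A e) :
      FW M A e τ μ (w.val * cst z)
  | step (w : Ltr H L) (hw : w.Ok M A e μ) (G : Rand A e L) (hG : PiW M A e τ μ G) :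
      FW M A e τ μ (w.val * G)

/-- Pairs of an orthogonal operator and a centred tuple sum. -/
noncomputable def pv : List ((H →L[ℂ] H) × Ltr H L) → Rand A e L
  | [] => cst e
  | p :: l => cst p.1 * (p.2.val * pv l)

/-- All pairs are orthogonal operators and centred tuple sums. -/
def OkPairs (M A : VonNeumannAlgebra H) (e : H →L[ℂ] H) (τ : (H →L[ℂ] H) →ₗ[ℂ] ℂ) (μ : L → ℝ)
    (l : List ((H →L[ℂ] H) × Ltr H L)) : Prop :=
  ∀ p ∈ l, Perp M A e τ p.1 ∧ p.2.Ok M A e μ

section

variable (S : Setting M A e τ μ)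
include S

theorem span_cor {z : H →L[ℂ] H} (hz : z ∈ normSpan M A e) : Cor M e z := normSpan_cor S.hA hz

theorem e_mem_span : e ∈ normSpan M A e := proj_mem_normSpan S.heA S.he

theorem good_ltr {w : Ltr H L} (hw : w.Ok M A e μ) : Good M (w.val : Rand A e L) :=
  good_val S hw.1 w.f

theorem mul_cst_e {G : Rand A e L} (hG : Good M G) : G * cst e = G := by
  obtain ⟨_, _, hG⟩ := hG
  funext c ω
  exact (hG c ω).1.mul_right S.he

theorem piW_good {G : Rand A e L} (h : PiW M A e τ μ G) : Good M G := by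
  induction h with
  | base m hm => exact good_cst hm.1
  | last m hm w hw z hz =>
    exact (good_cst hm.1).mul S.he ((good_ltr S hw).mul S.he (good_cst (span_cor S hz)))
  | step m hm w hw G _ ih => exact (good_cst hm.1).mul S.he ((good_ltr S hw).mul S.he ih)

theorem fw_good {G : Rand A e L} (h : FW M A e τ μ G) : Good M G := by
  cases h with
  | last w hw z hz => exact (good_ltr S hw).mul S.he (good_cst (span_cor S hz))
  | step w hw G hG => exact (good_ltr S hw).mul S.he (piW_good S hG)

theorem piW_mul {G : Rand A e L} (h : PiW M A e τ μ G) {u : H →L[ℂ] H}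
    (hu : u ∈ normSpan M A e) : PiW M A e τ μ (G * cst u) := by
  induction h with
  | base m hm => exact PiW.base (m * u) (hm.mul_right S.hA S.heA S.he S.hτ hu)
  | last m hm w hw z hz =>
    rw [mul_assoc, mul_assoc, cst_mul]
    exact PiW.last m hm w hw (z * u) (normSpan_mul' S.hA S.heA S.he hz hu)
  | step m hm w hw G _ ih => rw [mul_assoc, mul_assoc]; exact PiW.step m hm w hw _ ih

theorem piW_cmul {G : Rand A e L} (h : PiW M A e τ μ G) {u : H →L[ℂ] H}
    (hu : u ∈ normSpan M A e) : PiW M A e τ μ (cst u * G) := by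
  cases h with
  | base m hm => exact PiW.base (u * m) (hm.mul_left S.hA S.heA S.he hu)
  | last m hm w hw z hz =>
    rw [← mul_assoc, cst_mul]
    exact PiW.last (u * m) (hm.mul_left S.hA S.heA S.he hu) w hw z hz
  | step m hm w hw G hG =>
    rw [← mul_assoc, cst_mul]
    exact PiW.step (u * m) (hm.mul_left S.hA S.heA S.he hu) w hw G hG

theorem fw_mul {G : Rand A e L} (h : FW M A e τ μ G) {u : H →L[ℂ] H}
    (hu : u ∈ normSpan M A e) : FW M A e τ μ (G * cst u) := by
  cases h with
  | last w hw z hz =>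
    rw [mul_assoc, cst_mul]
    exact FW.last w hw (z * u) (normSpan_mul' S.hA S.heA S.he hz hu)
  | step w hw G hG => rw [mul_assoc]; exact FW.step w hw _ (piW_mul S hG hu)

theorem pv_good {l : List ((H →L[ℂ] H) × Ltr H L)} (hl : OkPairs M A e τ μ l) :
    Good M (pv l : Rand A e L) := by
  induction l with
  | nil => exact good_cst (cor_e S)
  | cons p l ih =>
    obtain ⟨hm, hw⟩ := hl p (List.mem_cons_self ..)
    exact (good_cst hm.1).mul S.he
      ((good_ltr S hw).mul S.he (ih fun q hq => hl q (List.mem_cons_of_mem _ hq)))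

theorem pv_append : ∀ {l l' : List ((H →L[ℂ] H) × Ltr H L)}, OkPairs M A e τ μ l' →
    (pv (l ++ l') : Rand A e L) = pv l * pv l'
  | [], l', h => by
    show pv l' = cst e * pv l'
    rw [cst_e_mul S (pv_good S h)]
  | p :: l, l', h => by
    show cst p.1 * (p.2.val * pv (l ++ l')) = cst p.1 * (p.2.val * pv l) * pv l'
    rw [pv_append h, mul_assoc, mul_assoc]

theorem pv_single {m : H →L[ℂ] H} {w : Ltr H L} (hw : w.Ok M A e μ) :
    (pv [(m, w)] : Rand A e L) = cst m * w.val := by
  show cst m * (w.val * cst e) = _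
  rw [mul_cst_e S (good_ltr S hw)]

theorem piW_pairs {G : Rand A e L} (h : PiW M A e τ μ G) :
    (∃ l z, l ≠ [] ∧ OkPairs M A e τ μ l ∧ z ∈ normSpan M A e ∧ G = pv l * cst z) ∨
      ∃ l m, OkPairs M A e τ μ l ∧ Perp M A e τ m ∧ G = pv l * cst m := by
  induction h with
  | base m hm =>
    exact Or.inr ⟨[], m, fun _ h => absurd h (List.not_mem_nil), hm,
      (cst_e_mul S (good_cst hm.1)).symm⟩
  | last m hm w hw z hz =>
    refine Or.inl ⟨[(m, w)], z, List.cons_ne_nil _ _, fun p hp => ?_, hz, ?_⟩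
    · rw [List.mem_singleton] at hp; subst hp; exact ⟨hm, hw⟩
    · rw [pv_single S hw, mul_assoc]
  | step m hm w hw G _ ih =>
    have hc : ∀ l, OkPairs M A e τ μ l → OkPairs M A e τ μ ((m, w) :: l) := fun l hl p hp => by
      rcases List.mem_cons.1 hp with rfl | hp
      exacts [⟨hm, hw⟩, hl p hp]
    rcases ih with ⟨l, z, -, hl, hz, rfl⟩ | ⟨l, m', hl, hm', rfl⟩
    · refine Or.inl ⟨(m, w) :: l, z, List.cons_ne_nil _ _, hc l hl, hz, ?_⟩
      show cst m * (w.val * (pv l * cst z)) = cst m * (w.val * pv l) * cst z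
      simp only [mul_assoc]
    · refine Or.inr ⟨(m, w) :: l, m', hc l hl, hm', ?_⟩
      show cst m * (w.val * (pv l * cst m')) = cst m * (w.val * pv l) * cst m'
      simp only [mul_assoc]

theorem split_near {x : H →L[ℂ] H} (hx : Cor M e x) {η : ℝ} (hη : 0 < η) :
    ∃ z ∈ normSpan M A e, ∃ m, Perp M A e τ m ∧ n2 τ (x - (z + m)) ≤ η := by
  have key : ∀ a : H →L[ℂ] H, Cor M e a → IsSelfAdjoint a → ∀ η : ℝ, 0 < η →
      ∃ z ∈ normSpan M A e, ∃ m, Perp M A e τ m ∧ n2 τ (a - (z + m)) ≤ η := by
    intro a ha has η hη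
    obtain ⟨y, hy, hys, hyn, hyb, hperp⟩ := split_ok H M A e τ S.hA S.heA S.he S.hτ a ha has
    set C := ‖y‖ + 1
    have hC : 0 < C := by positivity
    have hy1 : ‖C⁻¹ • y‖ ≤ 1 := by
      rw [norm_smul, Real.norm_of_nonneg (inv_nonneg.2 hC.le), inv_mul_le_iff₀ hC, mul_one]
      simp [C]
    obtain ⟨b1, b2⟩ := bounds_of_norm_le ((IsSelfAdjoint.all C⁻¹).smul hys) hy1
    obtain ⟨z, hz, -, -, -, hzy⟩ := approx kaplansky_ok trace_ok S.hA S.heA S.he S.hτ
      (hy.rsmul C⁻¹) ((IsSelfAdjoint.all C⁻¹).smul hys)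
      (fun T hT => by rw [mul_smul_comm, smul_mul_assoc, hyb T hT]) zero_le_one le_rfl
      (div_pos hη hC) b1 b2
    refine ⟨C • z, Submodule.smul_of_tower_mem _ C hz, a - y, hperp, ?_⟩
    have e1 : a - (C • z + (a - y)) = -(C • (z - C⁻¹ • y)) := by
      rw [smul_sub, smul_smul, mul_inv_cancel₀ hC.ne', one_smul]; abel
    rw [e1, n2_neg S.hτ S.he, n2_rsmul S.hτ S.he hC.le]
    calc C * n2 τ (z - C⁻¹ • y) ≤ C * (η / C) := mul_le_mul_of_nonneg_left hzy hC.le
      _ = η := by field_simp
  set a := (2⁻¹ : ℂ) • (x + star x) with hadef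
  set b := (-Complex.I * 2⁻¹) • (x - star x) with hbdef
  have hxs := hx.star' S.he
  have has : IsSelfAdjoint a := by
    show star a = a
    simp [hadef, star_smul, add_comm]
  have hbs : IsSelfAdjoint b := by
    show star b = b
    simp only [hbdef, star_smul, star_sub, star_star, star_mul', star_neg, Complex.star_def,
      Complex.conj_I, neg_neg]
    rw [← neg_sub x (star x), smul_neg, ← neg_smul]
    simp [map_ofNat]
  have hab : x = a + Complex.I • b := by
    rw [hadef, hbdef, smul_smul]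
    have : Complex.I * (-Complex.I * 2⁻¹) = 2⁻¹ := by
      rw [← mul_assoc, mul_neg, Complex.I_mul_I, neg_neg, one_mul]
    rw [this, ← smul_add, add_add_sub_cancel, ← two_smul ℂ x, smul_smul]
    simp
  obtain ⟨z₁, hz₁, m₁, hm₁, h1⟩ := key a ((hx.add hxs).csmul _) has (η / 2) (half_pos hη)
  obtain ⟨z₂, hz₂, m₂, hm₂, h2⟩ := key b ((hx.sub hxs).csmul _) hbs (η / 2) (half_pos hη)
  refine ⟨z₁ + Complex.I • z₂, add_mem hz₁ (Submodule.smul_mem _ _ hz₂), m₁ + Complex.I • m₂,
    hm₁.add (hm₂.smul _), ?_⟩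
  have e1 : x - (z₁ + Complex.I • z₂ + (m₁ + Complex.I • m₂)) =
      (a - (z₁ + m₁)) + Complex.I • (b - (z₂ + m₂)) := by
    rw [hab, smul_sub, smul_add]; abel
  have c1 : Cor M e (a - (z₁ + m₁)) :=
    ((hx.add hxs).csmul _).sub ((span_cor S hz₁).add hm₁.1)
  have c2 : Cor M e (b - (z₂ + m₂)) :=
    ((hx.sub hxs).csmul _).sub ((span_cor S hz₂).add hm₂.1)
  rw [e1]
  refine (n2_add_le S.hτ S.he c1 (c2.csmul _)).trans ?_
  have : n2 τ (Complex.I • (b - (z₂ + m₂))) = n2 τ (b - (z₂ + m₂)) := by
    simp [n2, smul_smul]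
  linarith

theorem tendsto_etr_add {F G : Rand A e L} (hF : Tendsto (etr τ μ F) (fine A e) (𝓝 0))
    (hG : Tendsto (etr τ μ G) (fine A e) (𝓝 0)) :
    Tendsto (etr τ μ (F + G)) (fine A e) (𝓝 0) :=
  (by simpa using hF.add hG : Tendsto (fun c => etr τ μ F c + etr τ μ G c) (fine A e) (𝓝 0)).congr
    fun c => (etr_add F G c).symm

theorem tendsto_etr_cmul {T : Rand A e L} (hT : Good M T) {u : H →L[ℂ] H} (hu : Cor M e u)
    (h : ∀ η : ℝ, 0 < η → ∃ G, Good M G ∧ (∀ᶠ c in fine A e, nr τ μ (cst u * T - G) c ≤ η) ∧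
      Tendsto (etr τ μ G) (fine A e) (𝓝 0)) :
    Tendsto (etr τ μ (cst u * T)) (fine A e) (𝓝 0) :=
  tendsto_etr_of_approx S ((good_cst hu).mul S.he hT) h

theorem tendsto_etr_span {T : Rand A e L} {z : H →L[ℂ] H} (hz : z ∈ normSpan M A e)
    (h : ∀ g ∈ normSpan M A e, (∃ a ∈ A, Cor M e a ∧ ∃ v, NorC M A e v ∧ g = a * v) →
      Tendsto (etr τ μ (T * cst g)) (fine A e) (𝓝 0)) :
    Tendsto (etr τ μ (T * cst z)) (fine A e) (𝓝 0) := by
  induction hz using Submodule.span_induction with
  | zero =>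
    refine tendsto_const_nhds.congr fun c => ?_
    simp [etr, cst, avg]
  | add x y _ _ hx hy =>
    have : (T * cst (x + y) : Rand A e L) = T * cst x + T * cst y := by
      rw [← mul_add]; rfl
    rw [this]
    exact tendsto_etr_add S hx hy
  | smul t x _ hx =>
    refine (by simpa using hx.const_mul t :
      Tendsto (fun c => t * etr τ μ (T * cst x) c) (fine A e) (𝓝 0)).congr fun c => ?_
    simp only [etr, avg, Pi.mul_apply, cst, mul_smul_comm, map_smul, Finset.mul_sum,
      Complex.real_smul, smul_eq_mul]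
    exact Finset.sum_congr rfl fun ω _ => by ring
  | mem g hg =>
    obtain ⟨hge, a, ha, v, hv, rfl⟩ := hg
    have hv' : NorC M A e (e * v * e) :=
      ⟨normaliser_mul S.hA (normaliser_mul S.hA (norC_e S.hA S.heA S.he).1 hv)
        (norC_e S.hA S.heA S.he).1, by
        simp only [← mul_assoc, S.he.isIdempotentElem.eq]
        simp only [mul_assoc, S.he.isIdempotentElem.eq]⟩
    have hae : Cor M e (a * e) := Cor.of_abs S.he (mul_mem (S.hA.1 a ha) (S.hA.1 e S.heA))
      (by rw [← mul_assoc, S.hA.2.1 e S.heA a ha, mul_assoc, S.he.isIdempotentElem.eq])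
      (by rw [mul_assoc, S.he.isIdempotentElem.eq])
    refine h _ (Submodule.subset_span ⟨hge, a, ha, v, hv, rfl⟩)
      ⟨a * e, mul_mem ha S.heA, hae, e * v * e, hv', ?_⟩
    calc a * v = e * (a * v) * e := hge.symm
      _ = (e * a) * v * e := by simp only [mul_assoc]
      _ = a * (e * e) * v * e := by
        rw [S.hA.2.1 e S.heA a ha, S.he.isIdempotentElem.eq]
      _ = _ := by simp only [mul_assoc]

theorem letter_move {w : Ltr H L} (hw : w.Ok M A e μ) {a v : H →L[ℂ] H} (ha : a ∈ A)
    (hv : NorC M A e v) : ∃ w' : Ltr H L, w'.Ok M A e μ ∧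
      (w.val * cst (a * v) : Rand A e L) = cst (a * v) * w'.val := by
  refine ⟨⟨w.d, fun t => star v * w.h t, w.f⟩,
    ⟨fun t => (hv.star' S.he).mul S.hA S.he (hw.1 t), hw.2⟩, ?_⟩
  show Orth.val w.h w.f * cst (a * v) = cst (a * v) * Orth.val _ w.f
  rw [← cst_mul, ← mul_assoc, val_comm S hw.1 w.f ha, mul_assoc, val_mul_nor S hw.1 w.f hv,
    ← mul_assoc]

theorem etr_single {w : Ltr H L} (hw : w.Ok M A e μ) {z : H →L[ℂ] H} (c : Cut A e) :
    etr τ μ (w.val * cst z) c = 0 := by
  simp only [etr, Pi.mul_apply, cst, Ltr.val, Orth.val, Finset.sum_mul, map_sum, smul_mul_assoc,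
    LinearMap.map_smul_of_tower, avg, Finset.smul_sum, smul_smul]
  rw [Finset.sum_comm]
  refine Finset.sum_eq_zero fun i hi => ?_
  rw [← Finset.sum_smul]
  have h1 := avg_prod_blocks S w.f id i (mem_inj.1 hi)
  simp only [avg, id, smul_eq_mul] at h1
  simp only [weight]
  rw [h1, Finset.prod_eq_zero (Finset.mem_univ (0 : Fin (w.d + 1))), zero_smul]
  rw [show (Finset.univ.filter fun o : Fin (w.d + 1) => o = 0) = {0} by ext; simp]
  simpa using hw.2 0

variable (hCore : CoreStatement)
include hCore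

theorem tendsto_pairs_e {l : List ((H →L[ℂ] H) × Ltr H L)} (hne : l ≠ [])
    (hl : OkPairs M A e τ μ l) : Tendsto (etr τ μ (pv l : Rand A e L)) (fine A e) (𝓝 0) := by
  have h := cyclic_tendsto hCore S (List.length_pos_of_ne_nil hne)
    (fun t : Fin l.length => (l.get t).1) (fun t => (hl _ (List.get_mem l t)).1)
    (fun t => (l.get t).2) fun t => (hl _ (List.get_mem l t)).2
  refine h.congr fun c => ?_
  refine congrArg (avg μ) (funext fun ω => congrArg τ ?_)
  have key : ∀ (p : (H →L[ℂ] H) × Ltr H L) (l : List ((H →L[ℂ] H) × Ltr H L)),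
      OkPairs M A e τ μ (p :: l) →
      (pv (p :: l) : Rand A e L) c ω = ((p :: l).map fun q => q.1 * q.2.val c ω).prod := by
    intro p l
    induction l generalizing p with
    | nil =>
      intro h
      obtain ⟨_, _, hg⟩ := good_ltr S (A := A) (h p (List.mem_cons_self ..)).2
      show p.1 * (p.2.val c ω * e) = _
      rw [(hg c ω).1.mul_right S.he]
      simp
    | cons q l ih =>
      intro h
      show p.1 * (p.2.val c ω * (pv (q :: l) : Rand A e L) c ω) = _
      rw [ih q fun r hr => h r (List.mem_cons_of_mem _ hr)]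
      simp [mul_assoc]
  obtain ⟨p, l', rfl⟩ := List.exists_cons_of_ne_nil hne
  rw [key p l' hl]
  refine congrArg List.prod ?_
  conv_rhs => rw [← List.ofFn_get (p :: l'), List.map_ofFn]
  rfl

theorem tendsto_pairs {l : List ((H →L[ℂ] H) × Ltr H L)} (hne : l ≠ [])
    (hl : OkPairs M A e τ μ l) {z : H →L[ℂ] H} (hz : z ∈ normSpan M A e) :
    Tendsto (etr τ μ (pv l * cst z : Rand A e L)) (fine A e) (𝓝 0) := by
  refine tendsto_etr_span S hz fun g hg => ?_
  rintro ⟨a, ha, hac, v, hv, rfl⟩
  set p := l.getLast hne with hp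
  obtain ⟨hm, hw⟩ := hl p (List.getLast_mem hne)
  obtain ⟨w', hw', he'⟩ := letter_move S hw ha hv
  have hinit : OkPairs M A e τ μ l.dropLast := fun q hq => hl q (List.dropLast_subset l hq)
  set m' := p.1 * (a * v)
  have hm' : Perp M A e τ m' := hm.mul_right S.hA S.heA S.he S.hτ hg
  have hl' : OkPairs M A e τ μ (l.dropLast ++ [(m', w')]) := fun q hq => by
    rcases List.mem_append.1 hq with hq | hq
    · exact hinit q hq
    · rw [List.mem_singleton] at hq; subst hq; exact ⟨hm', hw'⟩
  refine (tendsto_pairs_e S hCore (by simp) hl').congr fun c => ?_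
  congr 1
  have hone : OkPairs M A e τ μ [(m', w')] := fun q hq => hl' q (List.mem_append_right _ hq)
  have hp1 : OkPairs M A e τ μ [p] := fun q hq => by
    rw [List.mem_singleton] at hq; subst hq; exact ⟨hm, hw⟩
  conv_rhs => rw [← List.dropLast_append_getLast hne]
  rw [pv_append S hone, pv_append S hp1, pv_single S hw',
    show [p] = [(p.1, p.2)] from rfl, pv_single S hw, mul_assoc, mul_assoc, he']
  simp only [m', ← cst_mul, mul_assoc]

theorem tendsto_rot {X : Rand A e L} (hX : Good M X) {u : H →L[ℂ] H} (hu : Cor M e u)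
    (h : Tendsto (etr τ μ (cst u * X)) (fine A e) (𝓝 0)) :
    Tendsto (etr τ μ (X * cst u)) (fine A e) (𝓝 0) :=
  h.congr fun c => etr_comm S (good_cst hu) hX c

/-- Words from a centred tuple sum to an orthogonal operator. -/
theorem tendsto_wpm {l : List ((H →L[ℂ] H) × Ltr H L)} (hl : OkPairs M A e τ μ l)
    {w : Ltr H L} (hw : w.Ok M A e μ) {m : H →L[ℂ] H} (hm : Perp M A e τ m) :
    Tendsto (etr τ μ (w.val * pv l * cst m : Rand A e L)) (fine A e) (𝓝 0) := by
  refine tendsto_rot S hCore ((good_ltr S hw).mul S.he (pv_good S hl)) hm.1 ?_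
  exact tendsto_pairs_e S hCore (l := (m, w) :: l) (List.cons_ne_nil _ _) fun q hq => by
    rcases List.mem_cons.1 hq with rfl | hq
    exacts [⟨hm, hw⟩, hl q hq]

/-- Words with equal ends, by induction on the number of pairs. -/
theorem tendsto_ends : ∀ (n : ℕ) (l : List ((H →L[ℂ] H) × Ltr H L)), l.length = n →
    OkPairs M A e τ μ l →
    (∀ m z, Perp M A e τ m → z ∈ normSpan M A e →
      Tendsto (etr τ μ (pv l * cst m * cst z : Rand A e L)) (fine A e) (𝓝 0)) ∧
    ∀ w z, Ltr.Ok M A e μ w → z ∈ normSpan M A e →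
      Tendsto (etr τ μ (w.val * pv l * cst z : Rand A e L)) (fine A e) (𝓝 0) := by
  intro n
  induction n using Nat.strong_induction_on with
  | _ n ih =>
  intro l hlen hl
  refine ⟨fun m z hm hz => ?_, fun w z hw hz => ?_⟩
  · cases l with
    | nil =>
      have hmz := hm.mul_right S.hA S.heA S.he S.hτ hz
      refine tendsto_const_nhds.congr fun c => ?_
      have h0 := hmz.2 e (e_mem_span S)
      rw [S.he.isSelfAdjoint.star_eq, hmz.1.mul_left S.he] at h0
      simp only [etr, pv, Pi.mul_apply, cst, hm.1.mul_left S.he]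
      rw [avg_const S, h0]
    | cons p l' =>
      obtain ⟨hp, hq⟩ := hl p (List.mem_cons_self ..)
      have hl' : OkPairs M A e τ μ l' := fun q h => hl q (List.mem_cons_of_mem _ h)
      have hX : Good M (p.2.val * pv l' : Rand A e L) := (good_ltr S hq).mul S.he (pv_good S hl')
      have hu : Cor M e (m * z * p.1) := (hm.1.mul S.he (span_cor S hz)).mul S.he hp.1
      suffices Tendsto (etr τ μ (cst (m * z * p.1) * (p.2.val * pv l') : Rand A e L))
          (fine A e) (𝓝 0) by
        refine this.congr fun c => ?_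
        show _ = etr τ μ (cst p.1 * (p.2.val * pv l') * cst m * cst z) c
        rw [mul_assoc (cst p.1 * _), cst_mul,
          etr_comm S ((good_cst hp.1).mul S.he hX) (good_cst (hm.1.mul S.he (span_cor S hz))),
          ← mul_assoc (cst (m * z)) (cst p.1), cst_mul]
      refine tendsto_etr_cmul S hX hu fun η hη => ?_
      obtain ⟨C, hC, hXb⟩ := hX
      obtain ⟨z', hz', m', hm', hd⟩ := split_near S hu (div_pos hη (show 0 < C + 1 by positivity))
      have hX : Good M (p.2.val * pv l' : Rand A e L) := ⟨C, hC, hXb⟩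
      have huc := (span_cor S hz').add hm'.1
      refine ⟨cst (z' + m') * (p.2.val * pv l'), (good_cst huc).mul S.he hX,
        Eventually.of_forall fun c => ?_, ?_⟩
      · rw [← sub_mul]
        refine (nr_mul_right_le S hC (good_cst (hu.sub huc)) hXb c).trans ?_
        rw [nr_cst S]
        calc C * n2 τ (m * z * p.1 - (z' + m')) ≤ C * (η / (C + 1)) :=
              mul_le_mul_of_nonneg_left hd hC
          _ ≤ (C + 1) * (η / (C + 1)) := by gcongr; linarith
          _ = η := by field_simp
      · have hsum : (cst (z' + m') * (p.2.val * pv l') : Rand A e L) =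
            cst z' * (p.2.val * pv l') + cst m' * (p.2.val * pv l') := by
          rw [← add_mul]; rfl
        rw [hsum]
        have h2 : Tendsto (etr τ μ (cst z' * (p.2.val * pv l') : Rand A e L)) (fine A e) (𝓝 0) := by
          refine ((ih l'.length (by simp [← hlen]) l' rfl hl').2 p.2 z' hq hz').congr fun c => ?_
          exact etr_comm S hX (good_cst (span_cor S hz')) c
        have h3 := tendsto_pairs_e S hCore (l := (m', p.2) :: l') (List.cons_ne_nil _ _)
          fun q h => by
            rcases List.mem_cons.1 h with rfl | h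
            exacts [⟨hm', hq⟩, hl' q h]
        exact tendsto_etr_add S h2 h3
  · rcases List.eq_nil_or_concat l with rfl | ⟨l', p, rfl⟩
    · refine tendsto_const_nhds.congr fun c => ?_
      simp only [pv, mul_assoc, cst_mul]
      exact (etr_single S hw c).symm
    · rw [List.concat_eq_append] at hlen hl ⊢
      have hl' : OkPairs M A e τ μ l' := fun q h => hl q (List.mem_append_left _ h)
      obtain ⟨hp, hq⟩ := hl p (List.mem_append_right _ (List.mem_singleton_self p))
      have hp1 : OkPairs M A e τ μ [p] := fun q h => hl q (List.mem_append_right _ h)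
      refine tendsto_etr_span S hz fun g hg => ?_
      rintro ⟨a, ha, hac, v, hv, rfl⟩
      obtain ⟨w₁, hw₁, he'⟩ := letter_move S hq ha hv
      set u := p.1 * (a * v)
      have hu : Perp M A e τ u := hp.mul_right S.hA S.heA S.he S.hτ hg
      set X : Rand A e L := pv l' * cst u
      have hX : Good M X := (pv_good S hl').mul S.he (good_cst hu.1)
      have hprod : Good M (w₁.val * w.val : Rand A e L) := (good_ltr S hw₁).mul S.he (good_ltr S hw)
      suffices Tendsto (etr τ μ ((w₁.val * w.val) * X : Rand A e L)) (fine A e) (𝓝 0) by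
        refine this.congr fun c => ?_
        rw [mul_assoc, etr_comm S (good_ltr S hw₁) ((good_ltr S hw).mul S.he hX),
          pv_append S hp1, show [p] = [(p.1, p.2)] from rfl, pv_single S hq]
        congr 1
        have he'' : (p.2.val * (cst a * cst v) : Rand A e L) = cst a * (cst v * w₁.val) := by
          rw [cst_mul, he', ← cst_mul, mul_assoc]
        simp only [X, u, mul_assoc, ← cst_mul, he'']
      refine tendsto_etr_of_approx S (hprod.mul S.he hX) fun η hη => ?_
      obtain ⟨C, hC, hXb⟩ := hX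
      obtain ⟨G, hG, hGg, hd⟩ := near_val_mul_val S hw₁.1 hw₁.2 hw.1 w.f (η / (C + 1))
        (by positivity)
      refine ⟨G * X, hGg.mul S.he ⟨C, hC, hXb⟩, ?_, ?_⟩
      · filter_upwards [hd] with c hc
        rw [← sub_mul]
        refine (nr_mul_right_le S hC (hprod.sub hGg) hXb c).trans ?_
        calc C * _ ≤ C * (η / (C + 1)) := mul_le_mul_of_nonneg_left hc hC
          _ ≤ (C + 1) * (η / (C + 1)) := by gcongr; linarith
          _ = η := by field_simp
      · clear hd
        have hX : Good M X := ⟨C, hC, hXb⟩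
        induction hG with
        | base b hb bc =>
          have hbs : b ∈ normSpan M A e := alg_mem_normSpan hb bc.2
          refine ((ih l'.length (by simp [← hlen]) l' rfl hl').1 u b hu hbs).congr fun c => ?_
          exact etr_comm S hX (good_cst bc) c
        | val b hb bc h hn f hf =>
          have hbs : b ∈ normSpan M A e := alg_mem_normSpan hb bc.2
          have hW : Good M (Orth.val h f : Rand A e L) := good_val S hn f
          refine (tendsto_wpm S hCore hl' (w := ⟨_, h, f⟩) ⟨hn, hf⟩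
            (hu.mul_right S.hA S.heA S.he S.hτ hbs)).congr fun c => ?_
          rw [mul_assoc (cst b), etr_comm S (good_cst bc) (hW.mul S.he hX)]
          show etr τ μ (Orth.val h f * pv l' * cst (u * b)) c = _
          simp only [X, mul_assoc, cst_mul]
        | add G G' hG hG' h h' =>
          rw [add_mul]
          exact tendsto_etr_add S (h (lin_good S hG)) (h' (lin_good S hG'))

/-- Words starting with an orthogonal operator have small averaged trace. -/
theorem tendsto_piW {G : Rand A e L} (h : PiW M A e τ μ G) :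
    Tendsto (etr τ μ G) (fine A e) (𝓝 0) := by
  rcases piW_pairs S h with ⟨l, z, hne, hl, hz, rfl⟩ | ⟨l, m, hl, hm, rfl⟩
  · exact tendsto_pairs S hCore hne hl hz
  · have h' := (tendsto_ends S hCore l.length l rfl hl).1 m e hm (e_mem_span S)
    rwa [mul_cst_e S ((pv_good S hl).mul S.he (good_cst hm.1))] at h'

/-- Words starting with a centred tuple sum have small averaged trace. -/
theorem tendsto_fw {G : Rand A e L} (h : FW M A e τ μ G) :
    Tendsto (etr τ μ G) (fine A e) (𝓝 0) := by
  cases h with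
  | last w hw z hz => exact tendsto_const_nhds.congr fun c => (etr_single S hw c).symm
  | step w hw G hG =>
    rcases piW_pairs S hG with ⟨l, z, -, hl, hz, rfl⟩ | ⟨l, m, hl, hm, rfl⟩
    · rw [← mul_assoc]; exact (tendsto_ends S hCore l.length l rfl hl).2 w z hw hz
    · rw [← mul_assoc]; exact tendsto_wpm S hCore hl hw hm

theorem star_piW_mul {G : Rand A e L} (h : PiW M A e τ μ G) : ∀ K : Rand A e L,
    ((∃ z ∈ normSpan M A e, K = cst z) ∨ FW M A e τ μ K) →
    ∃ z₀ ∈ normSpan M A e, ∃ Y : Rand A e L, (PiW M A e τ μ Y ∨ FW M A e τ μ Y) ∧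
      star G * K = cst z₀ * Y := by
  have hms : ∀ m, Perp M A e τ m → ∀ K : Rand A e L,
      ((∃ z ∈ normSpan M A e, K = cst z) ∨ FW M A e τ μ K) → PiW M A e τ μ (cst (star m) * K) := by
    intro m hm K hK
    have hm' := hm.star' S.hA S.heA S.he S.hτ
    rcases hK with ⟨z, hz, rfl⟩ | hK
    · exact PiW.base _ (hm'.mul_right S.hA S.heA S.he S.hτ hz)
    · cases hK with
      | last w hw z hz => exact PiW.last _ hm' w hw z hz
      | step w hw G hG => exact PiW.step _ hm' w hw G hG
  have hsv : ∀ w : Ltr H L, Ltr.Ok M A e μ w → star (w.val : Rand A e L) = w.val := by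
    intro w hw
    funext c ω
    simp only [Pi.star_apply, Ltr.val, Orth.val, star_sum, star_smul, star_trivial]
    exact Finset.sum_congr rfl fun i _ => by
      rw [(cells_proj S.hA S.heA S.he (fun t => (hw.1 t).1) c i).2.isSelfAdjoint.star_eq]
  induction h with
  | base m hm =>
    intro K hK
    refine ⟨e, e_mem_span S, cst (star m) * K, Or.inl (hms m hm K hK), ?_⟩
    rw [cst_e_mul S (piW_good S (hms m hm K hK))]
    rfl
  | last m hm w hw z hz =>
    intro K hK
    refine ⟨star z, normSpan_star' S.hA S.heA S.he hz, w.val * (cst (star m) * K),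
      Or.inr (FW.step w hw _ (hms m hm K hK)), ?_⟩
    simp only [star_mul, hsv w hw, mul_assoc]
    rfl
  | step m hm w hw G _ ih =>
    intro K hK
    obtain ⟨z₀, hz₀, Y, hY, heq⟩ := ih (w.val * (cst (star m) * K))
      (Or.inr (FW.step w hw _ (hms m hm K hK)))
    refine ⟨z₀, hz₀, Y, hY, ?_⟩
    rw [← heq]
    simp only [star_mul, hsv w hw, mul_assoc]
    rfl

/-- The two kinds of words are asymptotically orthogonal. -/
theorem tendsto_inner {G K : Rand A e L} (h : PiW M A e τ μ G)
    (hK : (∃ z ∈ normSpan M A e, K = cst z) ∨ FW M A e τ μ K) :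
    Tendsto (etr τ μ (star G * K)) (fine A e) (𝓝 0) := by
  obtain ⟨z₀, hz₀, Y, hY, heq⟩ := star_piW_mul S hCore h K hK
  rw [heq]
  rcases hY with hY | hY
  · exact (tendsto_piW S hCore (piW_mul S hY hz₀)).congr fun c =>
      etr_comm S (piW_good S hY) (good_cst (span_cor S hz₀)) c
  · exact (tendsto_fw S hCore (fw_mul S hY hz₀)).congr fun c =>
      etr_comm S (fw_good S hY) (good_cst (span_cor S hz₀)) c

end

end Vale.Agent.P078.Orth
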